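import Vale.Agent.P159.H282.Uce
import Vale.Agent.P159.H529.Cell
import Vale.Agent.P159.H529.Til

/-!
# Total variance identity for families of squares

`E₀ (Σ_p j_p[g])² + Σ_p E₀ dfc_p[g] = Σ_p qc_p[g](0) - qc_L[cut g](0)`.
-/

set_option linter.all false

open MeasureTheory Filter Topology
open scoped BigOperators

namespace Vale.Agent.P159.UJ.H282

open H664

/-! ### tilings are families -/

theorem fam_of_Tl {T : Finset (ℕ × (ℤ × ℤ))} {L : ℕ} (h : H529.Tl T L 0) : Fam L T := by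
  refine ⟨fun p hp => ?_, fun p hp q hq hne => ?_⟩
  · obtain ⟨h1, h2⟩ := h.side p hp
    refine ⟨h1, ?_⟩
    unfold H529.Sub at h2
    unfold Sq
    simp only [Prod.fst_zero, Prod.snd_zero, zero_add] at h2
    omega
  · exact (h.sep p hp q hq hne).US

theorem uc_card (s : ℕ) (c : ℤ × ℤ) : (uc s c).card = s ^ 2 := by
  unfold uc
  rw [Finset.card_product, Int.card_Ico, Int.card_Ico, add_sub_cancel_left, add_sub_cancel_left,
    Int.toNat_natCast, pow_two]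

theorem cov_of_Tl {T : Finset (ℕ × (ℤ × ℤ))} {L : ℕ} (h : H529.Tl T L 0) : cov T = uc L 0 := by
  classical
  have hF := fam_of_Tl h
  refine Finset.eq_of_subset_of_card_le (cov_sub hF) ?_
  have h1 : ∑ a ∈ T, ((a.1 : ℝ)) ^ 2 = (L : ℝ) ^ 2 :=
    h.sum (fun l _ => ((l : ℝ)) ^ 2) (fun l n _ _ c => by
      rw [Finset.sum_const, var_card, nsmul_eq_mul]
      push_cast
      ring)
  have h2 : (cov T).card = ∑ a ∈ T, a.1 ^ 2 := by
    unfold cov
    rw [Finset.card_biUnion (fun p hp q hq hne => hF.2 p hp q hq hne)]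
    exact Finset.sum_congr rfl fun p _ => uc_card p.1 p.2
  have h3 : ((cov T).card : ℝ) = (L : ℝ) ^ 2 := by
    rw [h2, ← h1]
    push_cast
    rfl
  rw [uc_card]
  exact_mod_cast h3.ge

/-! ### values at the configuration `0` -/

theorem qc_zero (b : ℝ) (s : ℕ) (c : ℤ × ℤ) (h : BI s → ℝ) :
    qc b s c h 0 = QQ muInf (fun _ => b / 2) (chi0 s) 0 h h := qc_eq (zero_incr s c)

theorem q2_zero (b : ℝ) (s : ℕ) (c : ℤ × ℤ) (h a : BI s → ℝ) :
    q2 b s c h a 0 = QQ muInf (fun _ => b / 2) (chi0 s) 0 h a := q2_eq (zero_incr s c)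

theorem qc_zero_nonneg {b : ℝ} (hb : 0 ≤ b) (s : ℕ) (c : ℤ × ℤ) (h : BI s → ℝ) :
    0 ≤ qc b s c h 0 := by
  rw [qc_zero]; exact H529.qq_nonneg hb h

theorem qc_zero_le {b : ℝ} (hb : 0 ≤ b) (s : ℕ) (c : ℤ × ℤ) (h : BI s → ℝ) :
    qc b s c h 0 ≤ b / 2 * ∑ e, h e ^ 2 := by
  rw [qc_zero]; exact H529.qq_le hb h

theorem jc_zero (b : ℝ) (s : ℕ) (c : ℤ × ℤ) (h : BI s → ℝ) : jc b s c h 0 = 0 := by
  rw [jc_eq (zero_incr s c), jm_zero]

/-! ### the total variance identity -/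

theorem hoff {b : ℝ} {L s s' : ℕ} {c c' : ℤ × ℤ} (hs : 1 ≤ s) (hs' : 1 ≤ s') (h : Sq L s c)
    (h' : Sq L s' c') (hd : Disjoint (uc s c) (uc s' c')) (f : BI s → ℝ) (f' : BI s' → ℝ) :
    Ev b L 0 (fun x => SB b s c f x * SB b s' c' f' x) =
      Ev b L 0 (fun x => jc b s c f x * jc b s' c' f' x) := by
  have h1 := tower (b := b) h (SB_cont b s c f) (SB_cont b s' c' f') (fun x y =>
    SB_off' hd f' x y)
  have h2 := tower (b := b) h' (SB_cont b s' c' f') (jc_cont b s c f) (fun x y =>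
    jc_off' hd.symm hs f x y)
  have e1 : (fun x => SB b s c f x * SB b s' c' f' x) =
      fun x => SB b s' c' f' x * SB b s c f x := by funext x; ring
  have e2 : (fun x => SB b s' c' f' x * CS b s c (SB b s c f) x) =
      fun x => jc b s c f x * SB b s' c' f' x := by
    funext x
    rw [mul_comm]
    rfl
  have e3 : (fun x => jc b s c f x * CS b s' c' (SB b s' c' f') x) =
      fun x => jc b s c f x * jc b s' c' f' x := rfl
  rw [e1, ← h1, e2, ← h2, e3]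

theorem hdiag {b : ℝ} {L s : ℕ} {c : ℤ × ℤ} (hs : 1 ≤ s) (h : Sq L s c) (f : BI s → ℝ) :
    Ev b L 0 (fun x => SB b s c f x * SB b s c f x) =
      Ev b L 0 (fun x => jc b s c f x * jc b s c f x) +
        (Ev b L 0 (BB b s c f) - Ev b L 0 (qc b s c f)) := by
  have hsc := SB_cont b s c f
  have hdc := BB_cont b s c f
  have hjc := jc_cont b s c f
  have hs2 : Continuous fun z => SB b s c f z ^ 2 := hsc.pow 2
  have hj2 : Continuous fun z => jc b s c f z ^ 2 := hjc.pow 2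
  have h1 := tower_one (b := b) h hs2
  have h2 := tower_one (b := b) h hdc
  have h3 : Ev b L 0 (qc b s c f) = Ev b L 0 (CS b s c (BB b s c f))
      - Ev b L 0 (CS b s c (fun z => SB b s c f z ^ 2)) +
      Ev b L 0 (fun x => jc b s c f x ^ 2) := by
    have h4 : qc b s c f = fun x => (CS b s c (BB b s c f) x -
        CS b s c (fun z => SB b s c f z ^ 2) x) + jc b s c f x ^ 2 := rfl
    have h5 := var_Ev_add b L
      (f := fun x => CS b s c (BB b s c f) x - CS b s c (fun z => SB b s c f z ^ 2) x)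
      (g := fun x => jc b s c f x ^ 2) ((CS_cont b s c hdc).sub (CS_cont b s c hs2)) hj2
    have h6 := var_Ev_sub b L (f := CS b s c (BB b s c f))
      (g := CS b s c (fun z => SB b s c f z ^ 2)) (CS_cont b s c hdc) (CS_cont b s c hs2)
    rw [h4, h5, h6]
  have e1 : (fun x => SB b s c f x * SB b s c f x) = fun x => SB b s c f x ^ 2 := by
    funext x; ring
  have e2 : (fun x => jc b s c f x * jc b s c f x) = fun x => jc b s c f x ^ 2 := by
    funext x; ring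
  rw [e1, e2, h3, h2, h1]
  ring

/-- the sum of the stiffness forms of the squares minus the stiffness form of the block -/
noncomputable def vS (b : ℝ) (L : ℕ) (S : Finset (ℕ × (ℤ × ℤ))) (g : Fld) : ℝ :=
  ∑ p ∈ S, qc b p.1 p.2 (rs p.1 p.2 g) 0 - qc b L 0 (rs L 0 (cut S g)) 0

/-- the sum of the mean currents of the squares -/
noncomputable def TT (b : ℝ) (S : Finset (ℕ × (ℤ × ℤ))) (g : Fld) (x : Ginf) : ℝ :=
  ∑ p ∈ S, jc b p.1 p.2 (rs p.1 p.2 g) x

theorem TT_cont (b : ℝ) (S : Finset (ℕ × (ℤ × ℤ))) (g : Fld) : Continuous (TT b S g) :=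
  continuous_finsetSum _ fun p _ => jc_cont b p.1 p.2 _

/-- **total variance identity** -/
theorem var_id {b : ℝ} {L : ℕ} {S : Finset (ℕ × (ℤ × ℤ))} (h : Fam L S) (g : Fld) :
    Ev b L 0 (fun x => TT b S g x ^ 2) +
      ∑ p ∈ S, Ev b L 0 (dfc b p.1 p.2 (rs p.1 p.2 g)) = vS b L S g := by
  classical
  obtain ⟨s, hs⟩ : ∃ s : ℕ × (ℤ × ℤ) → Ginf → ℝ, s = fun p => SB b p.1 p.2 (rs p.1 p.2 g) :=
    ⟨_, rfl⟩
  obtain ⟨d, hd⟩ : ∃ s : ℕ × (ℤ × ℤ) → Ginf → ℝ, s = fun p => BB b p.1 p.2 (rs p.1 p.2 g) :=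
    ⟨_, rfl⟩
  obtain ⟨j, hj⟩ : ∃ s : ℕ × (ℤ × ℤ) → Ginf → ℝ, s = fun p => jc b p.1 p.2 (rs p.1 p.2 g) :=
    ⟨_, rfl⟩
  obtain ⟨q, hq⟩ : ∃ s : ℕ × (ℤ × ℤ) → Ginf → ℝ, s = fun p => qc b p.1 p.2 (rs p.1 p.2 g) :=
    ⟨_, rfl⟩
  have hsc : ∀ k, Continuous (s k) := fun k => by rw [hs]; exact SB_cont b _ _ _
  have hdc : ∀ k, Continuous (d k) := fun k => by rw [hd]; exact BB_cont b _ _ _
  have hjc : ∀ k, Continuous (j k) := fun k => by rw [hj]; exact jc_cont b _ _ _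
  have hqc : ∀ k, Continuous (q k) := fun k => by rw [hq]; exact qc_cont b _ _ _
  have hoff' : ∀ k ∈ S, ∀ k' ∈ S, k ≠ k' →
      Ev b L 0 (fun x => s k x * s k' x) = Ev b L 0 (fun x => j k x * j k' x) := by
    intro k hk k' hk' hne
    rw [hs, hj]
    exact hoff (h.1 k hk).1 (h.1 k' hk').1 (h.1 k hk).2 (h.1 k' hk').2 (h.2 k hk k' hk' hne) _ _
  have hdiag' : ∀ k ∈ S, Ev b L 0 (fun x => s k x * s k x) =
      Ev b L 0 (fun x => j k x * j k x) + (Ev b L 0 (d k) - Ev b L 0 (q k)) := by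
    intro k hk
    rw [hs, hj, hd, hq]
    exact hdiag (h.1 k hk).1 (h.1 k hk).2 _
  have hsq : ∀ f : ℕ × (ℤ × ℤ) → Ginf → ℝ, (∀ k, Continuous (f k)) →
      Ev b L 0 (fun x => (∑ k ∈ S, f k x) ^ 2) =
      ∑ k ∈ S, ∑ k' ∈ S, Ev b L 0 (fun x => f k x * f k' x) := by
    intro f hf
    have h1 : (fun x => (∑ k ∈ S, f k x) ^ 2)
        = fun x => ∑ k ∈ S, ∑ k' ∈ S, f k x * f k' x := by
      funext x
      rw [pow_two, Finset.sum_mul_sum]
    rw [h1, var_Ev_sum b L _ (fun k x => ∑ k' ∈ S, f k x * f k' x)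
      (fun k => continuous_finsetSum _ fun k' _ => (hf k).mul (hf k'))]
    refine Finset.sum_congr rfl fun k _ => ?_
    exact var_Ev_sum b L _ (fun k' x => f k x * f k' x) (fun k' => (hf k).mul (hf k'))
  have hmain : Ev b L 0 (fun x => (∑ k ∈ S, s k x) ^ 2) =
      Ev b L 0 (fun x => (∑ k ∈ S, j k x) ^ 2) +
        ∑ k ∈ S, (Ev b L 0 (d k) - Ev b L 0 (q k)) := by
    rw [hsq s hsc, hsq j hjc, ← Finset.sum_add_distrib]
    refine Finset.sum_congr rfl fun k hk => ?_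
    rw [← Finset.add_sum_erase _ _ hk, ← Finset.add_sum_erase _ _ hk, hdiag' k hk]
    have h1 : ∑ x ∈ S.erase k, Ev b L 0 (fun y => s k y * s x y)
        = ∑ x ∈ S.erase k, Ev b L 0 (fun y => j k y * j x y) := by
      refine Finset.sum_congr rfl fun k' hk' => ?_
      exact hoff' k hk k' (Finset.mem_of_mem_erase hk') (Finset.ne_of_mem_erase hk').symm
    rw [h1]
    ring
  -- the big block
  obtain ⟨D, hD⟩ : ∃ D : BI L → ℝ, D = rs L 0 (cut S g) := ⟨_, rfl⟩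
  have hbig : qc b L 0 D 0 =
      Ev b L 0 (BB b L 0 D) - Ev b L 0 (fun x => SB b L 0 D x ^ 2) := by
    have h2 := jc_zero b L 0 D
    have h3 : Continuous fun x => SB b L 0 D x ^ 2 := (SB_cont b L 0 D).pow 2
    rw [var_Ev_eq b L (BB_cont b L 0 D), var_Ev_eq b L h3]
    unfold qc
    rw [h2]
    ring
  have hS' : (fun x => SB b L 0 D x ^ 2) = fun x => (∑ k ∈ S, s k x) ^ 2 := by
    funext x
    rw [hD, SB_cut h, hs]
  have hB' : BB b L 0 D = fun x => ∑ k ∈ S, d k x := by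
    funext x
    rw [hD, BB_cut h, hd]
  rw [hS', hB', var_Ev_sum b L _ d hdc, hmain] at hbig
  have hfin : ∑ p ∈ S, Ev b L 0 (dfc b p.1 p.2 (rs p.1 p.2 g)) =
      ∑ p ∈ S, qc b p.1 p.2 (rs p.1 p.2 g) 0 - ∑ k ∈ S, Ev b L 0 (q k) := by
    rw [← Finset.sum_sub_distrib]
    refine Finset.sum_congr rfl fun p _ => ?_
    have h1 : dfc b p.1 p.2 (rs p.1 p.2 g) = fun x => qc b p.1 p.2 (rs p.1 p.2 g) 0 - q p x := by
      rw [hq]; rfl
    rw [h1, var_Ev_sub b L continuous_const (hqc p), var_Ev_const]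
  rw [Finset.sum_sub_distrib] at hbig
  unfold vS
  rw [hfin, ← hD, hbig]
  have e1 : (fun x => TT b S g x ^ 2) = fun x => (∑ k ∈ S, j k x) ^ 2 := by
    rw [hj]; rfl
  rw [e1]
  ring

theorem var_le {b : ℝ} (hb : 0 ≤ b) {L : ℕ} {S : Finset (ℕ × (ℤ × ℤ))} (h : Fam L S) (g : Fld) :
    Ev b L 0 (fun x => TT b S g x ^ 2) ≤ vS b L S g := by
  have h1 := var_id (b := b) h g
  have h2 : 0 ≤ ∑ p ∈ S, Ev b L 0 (dfc b p.1 p.2 (rs p.1 p.2 g)) :=
    Finset.sum_nonneg fun p _ => Ev_nonneg fun x => dfc_nonneg hb _ _ _ x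
  linarith only [h1, h2]

theorem dfc_le {b : ℝ} (hb : 0 ≤ b) {L : ℕ} {S : Finset (ℕ × (ℤ × ℤ))} (h : Fam L S) (g : Fld) :
    ∑ p ∈ S, Ev b L 0 (dfc b p.1 p.2 (rs p.1 p.2 g)) ≤ vS b L S g := by
  have h1 := var_id (b := b) h g
  have h2 : 0 ≤ Ev b L 0 (fun x => TT b S g x ^ 2) := Ev_nonneg fun x => sq_nonneg _
  linarith only [h1, h2]

theorem vS_nonneg {b : ℝ} (hb : 0 ≤ b) {L : ℕ} {S : Finset (ℕ × (ℤ × ℤ))} (h : Fam L S) (g : Fld) :
    0 ≤ vS b L S g := (Ev_nonneg fun x => sq_nonneg _).trans (var_le hb h g)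

/-- the stiffness form of a block at `0` decreases when the block becomes larger -/
theorem qc_anti {b : ℝ} (hb : 0 ≤ b) {L s : ℕ} {c : ℤ × ℤ} (hs : 1 ≤ s) (h : Sq L s c) (g : Fld) :
    qc b L 0 (rs L 0 (cut {(s, c)} g)) 0 ≤ qc b s c (rs s c g) 0 := by
  have hF : Fam L {(s, c)} := by
    refine ⟨fun p hp => ?_, fun p hp q hq hne => ?_⟩
    · rw [Finset.mem_singleton] at hp
      subst hp
      exact ⟨hs, h⟩
    · rw [Finset.mem_singleton] at hp hq
      exact absurd (hp.trans hq.symm) hne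
  have h1 := vS_nonneg hb hF g
  unfold vS at h1
  rw [Finset.sum_singleton] at h1
  linarith only [h1]

end Vale.Agent.P159.UJ.H282
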