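import Vale.Agent.P159.H282.Chain
import Vale.Agent.P159.H733.Gen
import Vale.Agent.P159.H733.Growth

/-!
# From one group of scales to the growth of the sum of the excesses of the stiffness
-/

open Filter Topology
open scoped BigOperators

namespace Vale.Agent.P159.UJ.H282

open Vale.Agent.P159.H264 (TT TT_succ TT_zero TT_mono TT_nonneg)
open Vale.Agent.P159.UJ.H733 (yy_pos' yy_le_one' log_yy p_gen)

theorem tendsto_pow2 : Tendsto (fun n : ℕ => 2 ^ n) atTop (atTop : Filter ℕ) :=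
  tendsto_pow_atTop_atTop_of_one_lt one_lt_two

/-- excess of the stiffness on the dyadic scale `n` -/
noncomputable def xs (b : ℝ) (n : ℕ) : ℝ := stiff (2 ^ n) b - helicity b

theorem xs_nonneg {b : ℝ} (hb : 0 ≤ b) (n : ℕ) : 0 ≤ xs b n :=
  sub_nonneg.2 (Vale.Agent.P159.H177.helicity_le hb (Nat.one_le_two_pow))

theorem xs_tendsto {b : ℝ} (hb : 0 < b) : Tendsto (xs b) atTop (𝓝 0) := by
  have h := (Vale.Agent.P159.H177.tendsto_stiff hb).comp tendsto_pow2
  have h2 := h.sub_const (helicity b)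
  rw [sub_self] at h2
  exact h2

/-- **from one group of scales to all scales**: vortex ratio and growth of the excesses -/
theorem glue {b : ℝ} (hb : 0 < b) (hhel : 0 < helicity b) {c1 c0 : ℝ} {a n0 i0 : ℕ}
    (hc1 : 0 < c1) (hc0 : 0 < c0)
    (hG : ∀ i n : ℕ, i0 ≤ i → n0 ≤ n → ∑ k ∈ Finset.range n, xs b (i + k) ≤ c1 →
      c0 * yy b (2 ^ (i + a)) ≤ yy b (2 ^ (i + a + n))) :
    (∃ c C3 : ℝ, 0 < c ∧ 0 < C3 ∧
      ∀ n, c * Real.exp (-(C3 * ∑ i ∈ Finset.range n, xs b i)) ≤ yy b (2 ^ n)) ∧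
    ∃ κ : ℝ, 0 < κ ∧ ∀ᶠ N : ℕ in atTop, κ * Real.log N ≤ ∑ i ∈ Finset.range N, xs b i := by
  obtain ⟨y, hy⟩ : ∃ y : ℕ → ℝ, y = fun n => yy b (2 ^ n) := ⟨_, rfl⟩
  have hy0 : ∀ n, 0 < y n := fun n => by rw [hy]; exact yy_pos' b _
  have hy1 : ∀ n, y n ≤ 1 := fun n => by rw [hy]; exact yy_le_one' hb.le _
  obtain ⟨c, C3, hc, hC3, hch⟩ := chain (x := xs b) (y := y) (xs_nonneg hb.le) (xs_tendsto hb) hy0
    hc1 hc0 (a := a) (n0 := n0) (i0 := i0) (by rw [hy]; exact hG)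
  refine ⟨⟨c, C3, hc, hC3, fun n => by have := hch n; rw [hy] at this; exact this⟩, ?_⟩
  obtain ⟨C, q, hC, hP⟩ := p_gen b (helicity b) hb hhel
  have hT := Vale.Agent.P159.H733.T_growth (x := xs b) (y := y) (xs_nonneg hb.le) hy0 hy1 hC (q := q) (by
    intro i n j hin hnj h1 h2
    have e1 : 2 ^ i * 2 ^ (n - i) = 2 ^ n := by rw [← pow_add]; congr 1; omega
    have h3 := hP b hb le_rfl (2 ^ i) (2 ^ (n - i)) (2 ^ j) Nat.one_le_two_pow
      (Vale.Agent.P159.H177.helicity_le hb.le Nat.one_le_two_pow)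
    rw [e1] at h3
    have e2 : yy b (2 ^ n) = y n := by rw [hy]
    rw [e2] at h3
    have h4 := h3 (by push_cast; exact h1) (by
      have e3 : ((2 ^ j : ℕ) : ℝ) = 2 ^ (j - n) * ((2 ^ n : ℕ) : ℝ) := by
        push_cast
        rw [← pow_add]
        congr 1
        omega
      rw [e3]
      have h5 := mul_le_mul_of_nonneg_right h2 (Nat.cast_nonneg (α := ℝ) (2 ^ n))
      calc _ ≤ 2 ^ (j - n) * y n ^ 2 * ((2 ^ n : ℕ) : ℝ) := h5
        _ = _ := by ring)
    unfold xs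
    linarith only [h4]) hC3 (by
    intro δ hδ
    refine ⟨c, hc, fun n => ?_⟩
    refine le_trans ?_ (hch n)
    have h1 : ((n : ℝ) + 1) ^ (-δ) ≤ 1 := by
      apply Real.rpow_le_one_of_one_le_of_nonpos
      · have := Nat.cast_nonneg (α := ℝ) n
        linarith only [this]
      · linarith only [hδ]
    have h2 : 0 ≤ Real.exp (-(C3 * Vale.Agent.P159.H264.TT (xs b) n)) := (Real.exp_pos _).le
    refine mul_le_mul_of_nonneg_right ?_ h2
    calc c * ((n : ℝ) + 1) ^ (-δ) ≤ c * 1 := mul_le_mul_of_nonneg_left h1 hc.le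
      _ = c := mul_one c)
  refine ⟨1 / (2 * C3), by positivity, ?_⟩
  have := hT (1 / (2 * C3)) (by positivity) (by
    have : 1 / (2 * C3) * C3 = 1 / 2 := by field_simp
    rw [this]; norm_num)
  exact this

end Vale.Agent.P159.UJ.H282
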