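import Vale.Agent.P159.H282.Mean

/-!
# The test theorem for families of squares of one side

The failure probability of a current test in terms of the drop of the stiffness and of the number
of cut squares.
-/

set_option linter.all false

open MeasureTheory Filter Topology
open scoped BigOperators

namespace Vale.Agent.P159.UJ.H282

open H664

/-! ### linear structure of fields -/

theorem rs_add (s : ℕ) (c : ℤ × ℤ) (g k : Fld) : rs s c (g + k) = rs s c g + rs s c k := rfl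

theorem rs_smul (s : ℕ) (c : ℤ × ℤ) (r : ℝ) (g : Fld) : rs s c (r • g) = r • rs s c g := rfl

theorem cut_add (S : Finset (ℕ × (ℤ × ℤ))) (g k : Fld) : cut S (g + k) = cut S g + cut S k := by
  classical
  funext t z
  simp only [cut, Pi.add_apply]
  split_ifs <;> simp

theorem cut_smul (S : Finset (ℕ × (ℤ × ℤ))) (r : ℝ) (g : Fld) :
    cut S (r • g) = r • cut S g := by
  classical
  funext t z
  simp only [cut, Pi.smul_apply, smul_eq_mul]
  split_ifs <;> simp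

theorem vS_par (b : ℝ) (L : ℕ) (S : Finset (ℕ × (ℤ × ℤ))) (g k : Fld) :
    vS b L S (g + k) + vS b L S (g + (-1 : ℝ) • k) = 2 * vS b L S g + 2 * vS b L S k := by
  unfold vS
  rw [cut_add, cut_add, cut_smul, rs_add, rs_add, rs_smul]
  have h1 := qc_par b L 0 (rs L 0 (cut S g)) (rs L 0 (cut S k)) 0
  have h2 : ∑ p ∈ S, qc b p.1 p.2 (rs p.1 p.2 (g + k)) 0 +
      ∑ p ∈ S, qc b p.1 p.2 (rs p.1 p.2 (g + (-1 : ℝ) • k)) 0 =
      2 * ∑ p ∈ S, qc b p.1 p.2 (rs p.1 p.2 g) 0 + 2 * ∑ p ∈ S, qc b p.1 p.2 (rs p.1 p.2 k) 0 := by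
    rw [← Finset.sum_add_distrib, Finset.mul_sum, Finset.mul_sum, ← Finset.sum_add_distrib]
    refine Finset.sum_congr rfl fun p _ => ?_
    rw [rs_add, rs_add, rs_smul]
    exact qc_par b p.1 p.2 _ _ 0
  linear_combination h2 - h1

theorem vS_smul (b : ℝ) (L : ℕ) (S : Finset (ℕ × (ℤ × ℤ))) (r : ℝ) (g : Fld) :
    vS b L S (r • g) = r ^ 2 * vS b L S g := by
  unfold vS
  rw [cut_smul, rs_smul, qc_smul]
  simp only [rs_smul, qc_smul]
  rw [← Finset.mul_sum]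
  ring

theorem vS_add_le {b : ℝ} (hb : 0 ≤ b) {L : ℕ} {S : Finset (ℕ × (ℤ × ℤ))} (h : Fam L S)
    (g k : Fld) : vS b L S (g + k) ≤ 2 * vS b L S g + 2 * vS b L S k := by
  have h1 := vS_par b L S g k
  have h2 := vS_nonneg hb h (g + (-1 : ℝ) • k)
  linarith only [h1, h2]

theorem vS_sub_le {b : ℝ} (hb : 0 ≤ b) {L : ℕ} {S : Finset (ℕ × (ℤ × ℤ))} (h : Fam L S)
    (g k : Fld) : vS b L S (g + (-1 : ℝ) • k) ≤ 2 * vS b L S g + 2 * vS b L S k := by
  have h1 := vS_par b L S g k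
  have h2 := vS_nonneg hb h (g + k)
  linarith only [h1, h2]

theorem qc_zero_fld (b : ℝ) (s : ℕ) (c : ℤ × ℤ) : qc b s c 0 0 = 0 := by
  have := qc_smul b s c 0 0 0
  rw [zero_smul] at this
  rw [this]; ring

/-- a field which vanishes on the squares of `S' \ S` -/
theorem vS_restrict {b : ℝ} {L : ℕ} {S S' : Finset (ℕ × (ℤ × ℤ))} (h : Fam L S') (hS : S ⊆ S')
    {g : Fld} (hg : ∀ p ∈ S', p ∉ S → ∀ z ∈ uc p.1 p.2, ∀ t, g t z = 0) :
    vS b L S g = vS b L S' g := by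
  classical
  have e1 : cut S g = cut S' g := by
    funext t z
    unfold cut
    by_cases h1 : z ∈ cov S
    · have h2 : z ∈ cov S' := by
        unfold cov at h1 ⊢
        rw [Finset.mem_biUnion] at h1 ⊢
        obtain ⟨p, hp, hz⟩ := h1
        exact ⟨p, hS hp, hz⟩
      rw [if_pos h1, if_pos h2]
    · rw [if_neg h1]
      split_ifs with h2
      · unfold cov at h1 h2
        rw [Finset.mem_biUnion] at h1 h2
        obtain ⟨p, hp, hz⟩ := h2
        refine (hg p hp (fun hpS => h1 ⟨p, hpS, hz⟩) z hz t).symm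
      · rfl
  unfold vS
  rw [e1]
  congr 1
  refine Finset.sum_subset hS fun p hp hpS => ?_
  have e2 : rs p.1 p.2 g = 0 := by
    funext e
    exact hg p hp hpS _ (mem_uc_bond p.2 e) e.2
  rw [e2, qc_zero_fld]

/-- bound of the deficits of the squares of a subfamily by a field defined on the family -/
theorem dfc_aux {b : ℝ} (hb : 0 ≤ b) {L : ℕ} {S S' : Finset (ℕ × (ℤ × ℤ))} (h : Fam L S')
    (hS : S ⊆ S') {P : Fld} {k : (p : ℕ × (ℤ × ℤ)) → BI p.1 → ℝ}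
    (hP : ∀ p ∈ S, rs p.1 p.2 P = k p ∨ rs p.1 p.2 P = (-1 : ℝ) • k p) :
    ∑ p ∈ S, Ev b L 0 (dfc b p.1 p.2 (k p)) ≤ vS b L S' P := by
  refine le_trans ?_ (dfc_le hb h P)
  have h1 : ∑ p ∈ S, Ev b L 0 (dfc b p.1 p.2 (k p)) =
      ∑ p ∈ S, Ev b L 0 (dfc b p.1 p.2 (rs p.1 p.2 P)) := by
    refine Finset.sum_congr rfl fun p hp => ?_
    rcases hP p hp with h2 | h2
    · rw [h2]
    · rw [h2]
      congr 1
      funext x
      rw [dfc_smul]
      ring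
  rw [h1]
  exact Finset.sum_le_sum_of_subset_of_nonneg hS fun p _ _ =>
    Ev_nonneg fun x => dfc_nonneg hb _ _ _ x

/-! ### families of squares of one side with some cut squares -/

/-- the field is constant on the square -/
def Cst (g : Fld) (W : ℝ) (p : ℕ × (ℤ × ℤ)) : Prop :=
  ∃ ξ1 ξ2 : ℝ, |ξ1| ≤ W ∧ |ξ2| ≤ W ∧ rs p.1 p.2 g = ξ1 • hh + ξ2 • vv

/-- Dirichlet sum of a field over the family -/
noncomputable def nS (S : Finset (ℕ × (ℤ × ℤ))) (g k : Fld) : ℝ :=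
  ∑ p ∈ S, 1 / 2 * ∑ z ∈ uc p.1 p.2, ∑ t : Bool × Bool, g t z * k t z

theorem sum_rs2 {s : ℕ} (c : ℤ × ℤ) (g k : Fld) :
    ∑ e : BI s, rs s c g e * rs s c k e = ∑ z ∈ uc s c, ∑ t : Bool × Bool, g t z * k t z :=
  sum_uc c (fun t z => g t z * k t z)

/-- upper bound of `vS` by the drop of the stiffness and the number of cut squares -/
theorem vS_bound {b : ℝ} (hb : 0 < b) {L l : ℕ} (hl : 1 ≤ l) {S bad : Finset (ℕ × (ℤ × ℤ))}
    (hbad : bad ⊆ S) (h : Fam L S) (hS : ∀ p ∈ S, p.1 = l) {g : Fld} {W Y0 err : ℝ}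
    (hg : ∀ p ∈ S, ∀ z ∈ uc p.1 p.2, ∀ t, |g t z| ≤ W) (hc : ∀ p ∈ S, p ∉ bad → Cst g W p)
    (hV : Y0 * nS S g g - err ≤ qc b L 0 (rs L 0 (cut S g)) 0) :
    vS b L S g ≤ (stiff l b - Y0) * nS S g g + 2 * b * (l : ℝ) ^ 2 * W ^ 2 * bad.card + err := by
  classical
  have h1 : ∑ p ∈ S, qc b p.1 p.2 (rs p.1 p.2 g) 0 ≤ stiff l b * nS S g g +
      2 * b * (l : ℝ) ^ 2 * W ^ 2 * bad.card := by
    have h2 : ∀ p ∈ S, qc b p.1 p.2 (rs p.1 p.2 g) 0 ≤
        stiff l b * (1 / 2 * ∑ z ∈ uc p.1 p.2, ∑ t : Bool × Bool, g t z * g t z) +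
        (if p ∈ bad then 2 * b * (l : ℝ) ^ 2 * W ^ 2 else 0) := by
      intro p hp
      have hpl := hS p hp
      have e1 : ∑ z ∈ uc p.1 p.2, ∑ t : Bool × Bool, g t z * g t z =
          ∑ e : BI p.1, rs p.1 p.2 g e ^ 2 := by
        rw [← sum_rs2]
        exact Finset.sum_congr rfl fun e _ => by ring
      split_ifs with hb'
      · have h3 := qc_bad hb.le p.2 (g := rs p.1 p.2 g) (W := W) (fun e => rs_le (hg p hp) e)
        rw [hpl] at h3
        have h4 : 0 ≤ stiff l b * (1 / 2 * ∑ z ∈ uc p.1 p.2, ∑ t : Bool × Bool,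
            g t z * g t z) := by
          refine mul_nonneg (stiff_nonneg' hb.le hl) (mul_nonneg (by norm_num) ?_)
          exact Finset.sum_nonneg fun z _ => Finset.sum_nonneg fun t _ => mul_self_nonneg _
        have h5 : qc b p.1 p.2 (rs p.1 p.2 g) 0 ≤ 2 * b * (l : ℝ) ^ 2 * W ^ 2 := by
          rw [← hpl]
          exact qc_bad hb.le p.2 (g := rs p.1 p.2 g) (W := W) (fun e => rs_le (hg p hp) e)
        linarith only [h4, h5]
      · obtain ⟨ξ1, ξ2, -, -, h3⟩ := hc p hp hb'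
        have hp1 : 1 ≤ p.1 := by rw [hpl]; exact hl
        have h4 := qc_const' (b := b) hp1 p.2 h3
        rw [h4, e1, hpl, add_zero]
    refine (Finset.sum_le_sum h2).trans ?_
    rw [Finset.sum_add_distrib, ← Finset.mul_sum]
    refine add_le_add le_rfl ?_
    rw [← Finset.sum_filter, Finset.sum_const, nsmul_eq_mul]
    have h5 : (S.filter fun p => p ∈ bad).card ≤ bad.card :=
      Finset.card_le_card fun p hp => (Finset.mem_filter.1 hp).2
    have h6 : ((S.filter fun p => p ∈ bad).card : ℝ) ≤ bad.card := by exact_mod_cast h5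
    have h7 : 0 ≤ 2 * b * (l : ℝ) ^ 2 * W ^ 2 := by positivity
    rw [mul_comm]
    exact mul_le_mul_of_nonneg_left h6 h7
  unfold vS
  linarith only [h1, hV]

theorem hh_type {s : ℕ} {e e' : BI s} (h : hh e = hh e') : e.2.1 = e'.2.1 := by
  unfold hh at h
  cases h1 : e.2.1 <;> cases h2 : e'.2.1 <;> simp [h1, h2] at h ⊢

/-- **test theorem** for a family of squares of one side -/
theorem test_T (B : ℝ) (hB : 0 < B) : ∃ C : ℝ, 0 ≤ C ∧ ∀ b : ℝ, 0 < b → b ≤ B →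
    ∀ (L l : ℕ) (S bad : Finset (ℕ × (ℤ × ℤ))), 1 ≤ l → bad ⊆ S → Fam L S → (∀ p ∈ S, p.1 = l) →
    ∀ (α : Ginf) (A g : Fld) (W Y R V D δ : ℝ), 0 < δ → 0 < W → 0 < Y → 0 ≤ R → l * Y ≤ 1 →
      (∀ p ∈ S, Inc α A p.1 p.2) →
      (∀ p ∈ S, ∀ z ∈ uc p.1 p.2, ∀ t, |A t z| ≤ Y) →
      (∀ p ∈ S, ∀ z ∈ uc p.1 p.2, ∀ z' ∈ uc p.1 p.2, ∀ t t' : Bool × Bool, t.1 = t'.1 →
        |A t z - A t' z'| ≤ R) →
      (∀ p ∈ S, ∀ z ∈ uc p.1 p.2, ∀ t, |g t z| ≤ W) →
      (∀ p ∈ S, p ∉ bad → Cst g W p) →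
      vS b L S g ≤ V →
      ∑ p ∈ S, Ev b L 0 (dfc b p.1 p.2 (hh + vv)) +
        ∑ p ∈ S, Ev b L 0 (dfc b p.1 p.2 (hh + (-1 : ℝ) • vv)) ≤ D →
      ∃ G : Ginf → ℝ, Continuous G ∧ (∀ x, 0 ≤ G x) ∧
        (∀ x, δ < |TT b S g (x + α) - stiff l b * nS S g A| → 1 ≤ G x) ∧
        Ev b L 0 G ≤ 4 / δ ^ 2 * V + 2 / δ * (V / 2 + Y ^ 2 * D +
          C * (S.card * ((l : ℝ) ^ 2 * R ^ 2 + (l : ℝ) ^ 3 * W * Y ^ 2 + (l : ℝ) ^ 2 * W * R) +
          bad.card * ((l : ℝ) ^ 2 * W * Y))) := by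
  classical
  obtain ⟨C, hC, hT⟩ := test_G B hB
  refine ⟨C + 4 * B, by positivity, ?_⟩
  intro b hb hbB L l S bad hl hbad hF hS α A g W Y R V D δ hδ hW hY hR hlY hInc hA hAR hg hc
    hV hD
  have hl0 : (0 : ℝ) < l := by exact_mod_cast hl
  obtain ⟨G, G1, G2, G3, G4⟩ := hT b hb hbB L S hF α A g (fun _ => l * Y) (fun _ => l * W)
    (stiff l b * nS S g A) δ hδ (by
      intro p hp
      have hpl := hS p hp
      refine ⟨by positivity, hlY, by positivity, hInc p hp, ?_, ?_⟩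
      · intro z hz t
        rw [hpl, mul_div_cancel_left₀ _ hl0.ne']
        exact hA p hp z hz t
      · intro z hz t
        rw [hpl, mul_div_cancel_left₀ _ hl0.ne']
        exact hg p hp z hz t)
  refine ⟨G, G1, G2, G3, G4.trans ?_⟩
  have hvar : ∀ p ∈ S, ∀ e e' : BI p.1, hh e = hh e' →
      |rs p.1 p.2 A e - rs p.1 p.2 A e'| ≤ R := by
    intro p hp e e' hee
    exact hAR p hp _ (mem_uc_bond p.2 e) _ (mem_uc_bond p.2 e') e.2 e'.2 (hh_type hee)
  -- the deficits of `A`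
  have f1 : ∑ p ∈ S, Ev b L 0 (dfc b p.1 p.2 (rs p.1 p.2 A)) ≤
      2 * Y ^ 2 * D + S.card * (4 * b * (l : ℝ) ^ 2 * R ^ 2) := by
    have h1 : ∀ p ∈ S, Ev b L 0 (dfc b p.1 p.2 (rs p.1 p.2 A)) ≤
        2 * Y ^ 2 * (Ev b L 0 (dfc b p.1 p.2 (hh + vv)) +
          Ev b L 0 (dfc b p.1 p.2 (hh + (-1 : ℝ) • vv))) + 4 * b * (l : ℝ) ^ 2 * R ^ 2 := by
      intro p hp
      have hpl := hS p hp
      have hp1 := (hF.1 p hp).1
      have hL : 1 ≤ L := by
        obtain ⟨h1, h2, h3, h4⟩ := (hF.1 p hp).2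
        omega
      have h2 := dfc_good hb.le hL hp1 (hF.1 p hp).2 (a := rs p.1 p.2 A)
        (fun e => rs_le (hA p hp) e) (hvar p hp)
      have h3 : ((p.1 : ℕ) : ℝ) = l := by rw [hpl]
      rw [h3] at h2
      exact h2
    refine (Finset.sum_le_sum h1).trans ?_
    rw [Finset.sum_add_distrib, ← Finset.mul_sum, Finset.sum_const, nsmul_eq_mul,
      Finset.sum_add_distrib]
    have h2 := mul_le_mul_of_nonneg_left hD (show 0 ≤ 2 * Y ^ 2 by positivity)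
    linarith only [h2]
  -- the mean
  have f2 : |∑ p ∈ S, q2 b p.1 p.2 (rs p.1 p.2 g) (rs p.1 p.2 A) 0 - stiff l b * nS S g A| ≤
      S.card * (4 * b * (l : ℝ) ^ 2 * (W * R)) + bad.card * (4 * b * (l : ℝ) ^ 2 * (W * Y)) := by
    have e1 : ∑ p ∈ S, q2 b p.1 p.2 (rs p.1 p.2 g) (rs p.1 p.2 A) 0 - stiff l b * nS S g A =
        ∑ p ∈ S, (q2 b p.1 p.2 (rs p.1 p.2 g) (rs p.1 p.2 A) 0 -
          stiff l b * (1 / 2 * ∑ z ∈ uc p.1 p.2, ∑ t : Bool × Bool, g t z * A t z)) := by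
      unfold nS
      rw [Finset.sum_sub_distrib, Finset.mul_sum]
    rw [e1]
    refine (Finset.abs_sum_le_sum_abs _ _).trans ?_
    have h1 : ∀ p ∈ S, |q2 b p.1 p.2 (rs p.1 p.2 g) (rs p.1 p.2 A) 0 -
        stiff l b * (1 / 2 * ∑ z ∈ uc p.1 p.2, ∑ t : Bool × Bool, g t z * A t z)| ≤
        4 * b * (l : ℝ) ^ 2 * (W * R) +
          (if p ∈ bad then 4 * b * (l : ℝ) ^ 2 * (W * Y) else 0) := by
      intro p hp
      have hpl := hS p hp
      have hp1 := (hF.1 p hp).1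
      have h3 : ((p.1 : ℕ) : ℝ) = l := by rw [hpl]
      have h4 : stiff p.1 b = stiff l b := by rw [hpl]
      split_ifs with hb'
      · have h5 := q2_bad hb hp1 p.2 (g := rs p.1 p.2 g) (a := rs p.1 p.2 A) hW.le hY.le
          (fun e => rs_le (hg p hp) e) (fun e => rs_le (hA p hp) e)
        rw [sum_rs2, h3, h4] at h5
        have h6 : 0 ≤ 4 * b * (l : ℝ) ^ 2 * (W * R) := by positivity
        linarith only [h5, h6]
      · obtain ⟨ξ1, ξ2, k1, k2, k3⟩ := hc p hp hb'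
        have h5 := q2_good hb.le hp1 p.2 (g := rs p.1 p.2 g) (a := rs p.1 p.2 A) k3 k1 k2
          (fun e => rs_le (hA p hp) e) hR (hvar p hp)
        rw [sum_rs2, h3, h4] at h5
        rw [add_zero]
        exact h5
    refine (Finset.sum_le_sum h1).trans ?_
    rw [Finset.sum_add_distrib, Finset.sum_const, nsmul_eq_mul]
    refine add_le_add le_rfl ?_
    rw [← Finset.sum_filter, Finset.sum_const, nsmul_eq_mul]
    have h5 : (S.filter fun p => p ∈ bad).card ≤ bad.card :=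
      Finset.card_le_card fun p hp => (Finset.mem_filter.1 hp).2
    have h6 : ((S.filter fun p => p ∈ bad).card : ℝ) ≤ bad.card := by exact_mod_cast h5
    have h7 : 0 ≤ 4 * b * (l : ℝ) ^ 2 * (W * Y) := by positivity
    exact mul_le_mul_of_nonneg_right h6 h7
  have f3 : ∑ p ∈ S, (l * W : ℝ) * (l * Y) ^ 2 = S.card * ((l : ℝ) ^ 3 * W * Y ^ 2) := by
    rw [Finset.sum_const, nsmul_eq_mul]; ring
  rw [f3]
  have g1 := mul_le_mul_of_nonneg_left hV (show 0 ≤ 4 / δ ^ 2 by positivity)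
  refine add_le_add g1 (mul_le_mul_of_nonneg_left ?_ (by positivity))
  have hn1 : 0 ≤ (S.card : ℝ) * ((l : ℝ) ^ 2 * R ^ 2) := by positivity
  have hn2 : 0 ≤ (S.card : ℝ) * ((l : ℝ) ^ 3 * W * Y ^ 2) := by positivity
  have hn3 : 0 ≤ (S.card : ℝ) * ((l : ℝ) ^ 2 * W * R) := by positivity
  have hn4 : 0 ≤ (bad.card : ℝ) * ((l : ℝ) ^ 2 * W * Y) := by positivity
  have k1 := mul_le_mul_of_nonneg_right hbB hn1
  have k3 := mul_le_mul_of_nonneg_right hbB hn3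
  have k4 := mul_le_mul_of_nonneg_right hbB hn4
  have j1 := mul_nonneg hC hn1
  have j3 := mul_nonneg hC hn3
  have j4 := mul_nonneg hC hn4
  have j2 := mul_nonneg hB.le hn2
  have i1 := mul_nonneg hB.le hn1
  nlinarith only [f1, f2, hV, k1, k3, k4, j1, j2, j3, j4, i1]

end Vale.Agent.P159.UJ.H282
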