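import Vale.Agent.P159.H264.Ode

/-!
# Chain of groups of scales

If the vortex ratio drops at most by a constant factor over every group of scales on which the sum
of the excesses of the stiffness is at most `c1`, then it is at least `c exp(-C T)`.
-/

open Filter Topology
open scoped BigOperators

namespace Vale.Agent.P159.UJ.H282

open Vale.Agent.P159.H264 (TT TT_succ TT_zero TT_mono TT_nonneg)

theorem TT_add (x : ℕ → ℝ) (i n : ℕ) :
    TT x (i + n) = TT x i + ∑ k ∈ Finset.range n, x (i + k) := by
  induction n with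
  | zero => simp
  | succ n ih =>
    rw [← add_assoc, TT_succ, ih, Finset.sum_range_succ]
    ring

/-- **chain of groups** -/
theorem chain {x y : ℕ → ℝ} (hx0 : ∀ n, 0 ≤ x n) (hxl : Tendsto x atTop (𝓝 0))
    (hy : ∀ n, 0 < y n) {c1 c0 : ℝ} {a n0 i0 : ℕ} (hc1 : 0 < c1) (hc0 : 0 < c0)
    (hG : ∀ i n : ℕ, i0 ≤ i → n0 ≤ n → ∑ k ∈ Finset.range n, x (i + k) ≤ c1 →
      c0 * y (i + a) ≤ y (i + a + n)) :
    ∃ c C3 : ℝ, 0 < c ∧ 0 < C3 ∧ ∀ n, c * Real.exp (-(C3 * TT x n)) ≤ y n := by
  -- make `n0` positive and `c0` at most one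
  obtain ⟨m0, hm0⟩ : ∃ m0, m0 = n0 + 1 := ⟨_, rfl⟩
  obtain ⟨d0, hd0⟩ : ∃ d0, d0 = min c0 (1 / 2) := ⟨_, rfl⟩
  have hd0p : 0 < d0 := by rw [hd0]; exact lt_min hc0 (by norm_num)
  have hd01 : d0 < 1 := by
    rw [hd0]; exact lt_of_le_of_lt (min_le_right _ _) (by norm_num)
  have hd0c : d0 ≤ c0 := by rw [hd0]; exact min_le_left _ _
  obtain ⟨η, hη⟩ : ∃ η, η = c1 / (2 * m0) := ⟨_, rfl⟩
  have hm0R : (1 : ℝ) ≤ m0 := by rw [hm0]; push_cast; linarith [Nat.cast_nonneg (α := ℝ) n0]
  have hη0 : 0 < η := by rw [hη]; positivity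
  have hη1 : η ≤ c1 / 2 := by
    rw [hη]
    apply div_le_div_of_nonneg_left hc1.le (by norm_num)
    linarith only [hm0R]
  obtain ⟨j0, hj0⟩ := eventually_atTop.1 (hxl.eventually (gt_mem_nhds hη0))
  obtain ⟨i1, hi1⟩ : ∃ i1, i1 = max i0 j0 := ⟨_, rfl⟩
  have hsmall : ∀ j, i1 ≤ j → x j ≤ η := fun j hj =>
    (hj0 j (le_trans (by rw [hi1]; exact le_max_right _ _) hj)).le
  have hi10 : i0 ≤ i1 := by rw [hi1]; exact le_max_left _ _
  -- constants
  obtain ⟨C3, hC3⟩ : ∃ C3, C3 = 2 * (-Real.log d0) / c1 := ⟨_, rfl⟩
  have hlog : Real.log d0 < 0 := Real.log_neg hd0p hd01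
  have hC3p : 0 < C3 := by rw [hC3]; apply div_pos _ hc1; linarith only [hlog]
  have hC3e : d0 * Real.exp (C3 * (c1 / 2)) = 1 := by
    have e1 : C3 * (c1 / 2) = -Real.log d0 := by rw [hC3]; field_simp
    rw [e1, Real.exp_neg, Real.exp_log hd0p, mul_inv_cancel₀ hd0p.ne']
  obtain ⟨ym, hym, hym'⟩ : ∃ ym : ℝ, 0 < ym ∧ ∀ n ∈ Finset.range (i1 + a + m0 + 1), ym ≤ y n := by
    have hne : (Finset.range (i1 + a + m0 + 1)).Nonempty := ⟨0, by simp⟩
    refine ⟨(Finset.range (i1 + a + m0 + 1)).inf' hne y, ?_, fun n hn =>
      Finset.inf'_le y hn⟩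
    rw [Finset.lt_inf'_iff]
    exact fun n _ => hy n
  refine ⟨d0 * ym, C3, by positivity, hC3p, ?_⟩
  have key : ∀ N : ℕ, d0 * ym * Real.exp (-(C3 * TT x (N - a))) ≤ y N := by
    intro N
    induction N using Nat.strong_induction_on with
    | _ N ih =>
      have hexp1 : ∀ M, Real.exp (-(C3 * TT x M)) ≤ 1 := by
        intro M
        rw [Real.exp_le_one_iff]
        have := mul_nonneg hC3p.le (TT_nonneg hx0 M)
        linarith only [this]
      have hdy : d0 * ym ≤ ym := by nlinarith only [hd01, hym, hd0p]
      by_cases hN : N < i1 + a + m0 + 1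
      · have h1 := hym' N (Finset.mem_range.2 hN)
        have h2 := mul_le_mul_of_nonneg_left (hexp1 (N - a)) (show 0 ≤ d0 * ym by positivity)
        linarith only [h1, h2, hdy]
      · push Not at hN
        -- the maximal group ending at `N`
        obtain ⟨P, hP⟩ : ∃ P : ℕ → Prop, P = fun n =>
          ∑ k ∈ Finset.range n, x (N - a - n + k) ≤ c1 := ⟨_, rfl⟩
        classical
        obtain ⟨n, hn⟩ : ∃ n, n = Nat.findGreatest P (N - a - i1) := ⟨_, rfl⟩
        have hPm : P m0 := by
          rw [hP]
          have h1 : ∀ k ∈ Finset.range m0, x (N - a - m0 + k) ≤ η := by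
            intro k _
            exact hsmall _ (by omega)
          show ∑ k ∈ Finset.range m0, x (N - a - m0 + k) ≤ c1
          refine (Finset.sum_le_sum h1).trans ?_
          rw [Finset.sum_const, Finset.card_range, nsmul_eq_mul, hη]
          have : (m0 : ℝ) * (c1 / (2 * m0)) = c1 / 2 := by field_simp
          rw [this]
          linarith only [hc1]
        have hmn : m0 ≤ n := by
          rw [hn]
          exact Nat.le_findGreatest (by omega) hPm
        have hnle : n ≤ N - a - i1 := by rw [hn]; exact Nat.findGreatest_le _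
        have hPn : P n := by
          rw [hn]
          exact Nat.findGreatest_spec (P := P) (m := m0) (by omega) hPm
        have hPn' : ∑ k ∈ Finset.range n, x (N - a - n + k) ≤ c1 := by rw [hP] at hPn; exact hPn
        have hstep := hG (N - a - n) n (by omega) (by omega) hPn'
        have e1 : N - a - n + a + n = N := by omega
        rw [e1] at hstep
        have e2 : N - a - n + a = N - n := by omega
        rw [e2] at hstep
        have hstep' : d0 * y (N - n) ≤ y N :=
          (mul_le_mul_of_nonneg_right hd0c (hy _).le).trans hstep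
        by_cases hend : n = N - a - i1
        · have h3 : N - n = i1 + a := by omega
          have h4 := hym' (i1 + a) (Finset.mem_range.2 (by omega))
          rw [h3] at hstep'
          have h5 := mul_le_mul_of_nonneg_left h4 hd0p.le
          have h2 := mul_le_mul_of_nonneg_left (hexp1 (N - a)) (show 0 ≤ d0 * ym by positivity)
          linarith only [h2, h5, hstep']
        · have hlt : n < N - a - i1 := lt_of_le_of_ne hnle hend
          have hnP : ¬ P (n + 1) := by
            have h6 : Nat.findGreatest P (N - a - i1) < n + 1 := by rw [← hn]; omega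
            exact Nat.findGreatest_is_greatest h6 (by omega)
          rw [hP] at hnP
          simp only [not_le] at hnP
          rw [Finset.sum_range_succ'] at hnP
          have h7 : ∀ k, N - a - (n + 1) + (k + 1) = N - a - n + k := by intro k; omega
          simp only [h7, add_zero] at hnP
          have h8 := hsmall (N - a - (n + 1)) (by omega)
          have h9 := TT_add x (N - a - n) n
          have e3 : N - a - n + n = N - a := by omega
          rw [e3] at h9
          have h10 := ih (N - n) (by omega)
          have e4 : N - n - a = N - a - n := by omega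
          rw [e4] at h10
          have h11 : TT x (N - a - n) + c1 / 2 ≤ TT x (N - a) := by
            linarith only [h9, hnP, h8, hη1]
          have h12 : Real.exp (-(C3 * TT x (N - a))) * Real.exp (C3 * (c1 / 2)) ≤
              Real.exp (-(C3 * TT x (N - a - n))) := by
            rw [← Real.exp_add, Real.exp_le_exp]
            have := mul_le_mul_of_nonneg_left h11 hC3p.le
            linarith only [this]
          have h13 : d0 * ym * Real.exp (-(C3 * TT x (N - a))) ≤
              d0 * (d0 * ym * Real.exp (-(C3 * TT x (N - a - n)))) := by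
            have h14 := mul_le_mul_of_nonneg_left h12 (show 0 ≤ d0 * (d0 * ym) by positivity)
            have h15 : d0 * (d0 * ym) * (Real.exp (-(C3 * TT x (N - a))) *
                Real.exp (C3 * (c1 / 2))) = (d0 * ym * Real.exp (-(C3 * TT x (N - a)))) *
                (d0 * Real.exp (C3 * (c1 / 2))) := by ring
            rw [h15, hC3e, mul_one] at h14
            linarith only [h14]
          have h16 := mul_le_mul_of_nonneg_left h10 hd0p.le
          linarith only [h13, h16, hstep']
  intro n
  refine le_trans ?_ (key n)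
  refine mul_le_mul_of_nonneg_left ?_ (by positivity)
  rw [Real.exp_le_exp]
  have h1 := TT_mono hx0 (Nat.sub_le n a)
  have h2 := mul_le_mul_of_nonneg_left h1 hC3p.le
  linarith only [h2]

end Vale.Agent.P159.UJ.H282
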