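import Vale.Agent.P159.H253.Pyr
import Vale.Agent.P159.H856.Arr

/-!
# Bond pyramids and half-bond pyramids

The lower bound of the form of the block on the bond pyramids implies the lower bound for the
half-bond pyramids, with an error of relative order `r^{-1/2}`.
-/

set_option linter.all false

open MeasureTheory Filter Topology
open scoped BigOperators

namespace Vale.Agent.P159.UJ.H282

open H253 (nn_pos RPb n1 nn_n1 n1_nonneg rim_card in_card)

theorem cond_iff (x y δ r : ℤ) (hδ : δ = 0 ∨ δ = 1) :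
    (n1 x + n1 y + 1 < r → |x| + |y + δ| ≤ r ∧ |x + 1| + |y + δ| ≤ r) ∧
    (r < n1 x + n1 y + 1 → ¬ (|x| + |y + δ| ≤ r ∧ |x + 1| + |y + δ| ≤ r)) := by
  have h1 : ∀ a : ℤ, (0 ≤ a ∧ n1 a = a ∧ |a| = a ∧ |a + 1| = a + 1) ∨
      (a < 0 ∧ n1 a = -1 - a ∧ |a| = -a ∧ |a + 1| = -(a + 1)) := by
    intro a
    rcases le_or_gt 0 a with h | h
    · left
      exact ⟨h, by unfold n1; rw [if_pos h], abs_of_nonneg h, abs_of_nonneg (by omega)⟩
    · right
      exact ⟨h, by unfold n1; rw [if_neg (by omega)], abs_of_neg h, abs_of_nonpos (by omega)⟩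
  rcases hδ with rfl | rfl
  · rw [add_zero]
    rcases h1 x with ⟨a, b, c, d⟩ | ⟨a, b, c, d⟩ <;>
    rcases h1 y with ⟨a', b', c', d'⟩ | ⟨a', b', c', d'⟩ <;>
    rw [b, c, d, b', c'] <;> constructor <;> intro _ <;> omega
  · rcases h1 x with ⟨a, b, c, d⟩ | ⟨a, b, c, d⟩ <;>
    rcases h1 y with ⟨a', b', c', d'⟩ | ⟨a', b', c', d'⟩ <;>
    rw [b, c, d, b', d'] <;> constructor <;> intro _ <;> omega

theorem sign_sg (y δ : ℤ) (hδ : δ = 0 ∨ δ = 1) :
    (H253.sg y : ℝ) - ((y + δ).sign : ℝ) = 0 ∨ (|(H253.sg y : ℝ) - ((y + δ).sign : ℝ)| ≤ 1 ∧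
      (y = 0 ∨ y = -1)) := by
  unfold H253.sg
  rcases lt_trichotomy (y + δ) 0 with h | h | h
  · left
    rw [Int.sign_eq_neg_one_of_neg h, if_neg (by omega)]
    norm_num
  · right
    rw [h, Int.sign_zero]
    refine ⟨?_, by omega⟩
    split_ifs <;> norm_num
  · left
    rw [Int.sign_eq_one_of_pos h, if_pos (by omega)]
    norm_num

theorem abs_sign_le (a : ℤ) : |((a.sign : ℤ) : ℝ)| ≤ 1 := by
  rcases lt_trichotomy a 0 with h | h | h
  · rw [Int.sign_eq_neg_one_of_neg h]; norm_num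
  · rw [h, Int.sign_zero]; norm_num
  · rw [Int.sign_eq_one_of_pos h]; norm_num

/-- the exceptional cells -/
def Exc (r : ℕ) (z : ℤ × ℤ) : Prop :=
  H253.nn z ≤ r ∧ (z.1 = 0 ∨ z.1 = -1 ∨ z.2 = 0 ∨ z.2 = -1 ∨ H253.nn z = r)

/-- the two pyramids have opposite signs off the exceptional cells -/
theorem pyr_diff (r : ℕ) (q z : ℤ × ℤ) (t : Bool × Bool) :
    H253.pyr r q t z + H856.pyr q.1 q.2 r t z = 0 ∨
      (|H253.pyr r q t z + H856.pyr q.1 q.2 r t z| ≤ 1 ∧ Exc r (z - q)) := by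
  obtain ⟨x, hx⟩ : ∃ x, x = z.1 - q.1 := ⟨_, rfl⟩
  obtain ⟨y, hy⟩ : ∃ y, y = z.2 - q.2 := ⟨_, rfl⟩
  have hz : z - q = (x, y) := Prod.ext hx.symm hy.symm
  have hnn : H253.nn (z - q) = n1 x + n1 y + 1 := by rw [hz]; rfl
  unfold Exc
  rw [hnn, hz]
  rcases t with ⟨_ | _, s⟩
  · -- horizontal
    obtain ⟨δ, hδ, hδs⟩ : ∃ δ : ℤ, (δ = 0 ∨ δ = 1) ∧ H950.hu z (false, s) = z + (0, δ) := by
      cases s
      · exact ⟨0, Or.inl rfl, by simp [H950.hu]⟩
      · exact ⟨1, Or.inr rfl, by simp [H950.hu]; exact (Prod.ext (by simp) rfl)⟩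
    have hv' : H950.hv z (false, s) = z + (1, δ) := by
      unfold H950.hv
      rw [hδs, add_assoc]
      simp
    have e1 : (z + (0, δ)).1 - q.1 = x := by simp [hx]
    have e2 : (z + (0, δ)).2 - q.2 = y + δ := by simp [hy]; ring
    have e3 : (z + (1, δ)).1 - q.1 = x + 1 := by simp [hx]; ring
    have e4 : (z + (1, δ)).2 - q.2 = y + δ := by simp [hy]; ring
    obtain ⟨c1, c2⟩ := cond_iff x y δ r hδ
    unfold H253.pyr H856.pyr H253.ph
    rw [hδs, hv', e1, e2, e3, e4, hnn, hz]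
    simp only [Bool.false_eq_true, if_false]
    rcases lt_trichotomy (n1 x + n1 y + 1) (r : ℤ) with h | h | h
    · rw [if_pos h, if_pos (c1 h)]
      rcases sign_sg y δ hδ with h2 | ⟨h2, h3⟩
      · left
        rw [← sub_eq_add_neg]
        exact h2
      · right
        rw [← sub_eq_add_neg]
        exact ⟨h2, h.le, by tauto⟩
    · right
      rw [if_neg (by omega)]
      refine ⟨?_, h.le, by tauto⟩
      rw [Int.cast_zero, zero_add]
      split_ifs
      · rw [abs_neg]; exact abs_sign_le _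
      · norm_num
    · left
      rw [if_neg (by omega), if_neg (c2 h), Int.cast_zero, add_zero]
  · -- vertical
    obtain ⟨δ, hδ, hδs⟩ : ∃ δ : ℤ, (δ = 0 ∨ δ = 1) ∧ H950.hu z (true, s) = z + (δ, 0) := by
      cases s
      · exact ⟨0, Or.inl rfl, by simp [H950.hu]⟩
      · exact ⟨1, Or.inr rfl, by simp [H950.hu]; exact (Prod.ext rfl (by simp))⟩
    have hv' : H950.hv z (true, s) = z + (δ, 1) := by
      unfold H950.hv
      rw [hδs, add_assoc]
      congr 1
      simp
    have e1 : (z + (δ, 0)).1 - q.1 = x + δ := by simp [hx]; ring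
    have e2 : (z + (δ, 0)).2 - q.2 = y := by simp [hy]
    have e3 : (z + (δ, 1)).1 - q.1 = x + δ := by simp [hx]; ring
    have e4 : (z + (δ, 1)).2 - q.2 = y + 1 := by simp [hy]; ring
    obtain ⟨c1, c2⟩ := cond_iff y x δ r hδ
    have hcomm : n1 y + n1 x + 1 = n1 x + n1 y + 1 := by ring
    rw [hcomm] at c1 c2
    unfold H253.pyr H856.pyr H253.pv
    rw [hδs, hv', e1, e2, e3, e4, hnn, hz]
    have hc : (|x + δ| + |y| ≤ (r : ℤ) ∧ |x + δ| + |y + 1| ≤ (r : ℤ)) ↔
        (|y| + |x + δ| ≤ (r : ℤ) ∧ |y + 1| + |x + δ| ≤ (r : ℤ)) := by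
      rw [add_comm |x + δ| |y|, add_comm |x + δ| |y + 1|]
    simp only [if_true, hc]
    rcases lt_trichotomy (n1 x + n1 y + 1) (r : ℤ) with h | h | h
    · rw [if_pos h, if_pos (c1 h)]
      rcases sign_sg x δ hδ with h2 | ⟨h2, h3⟩
      · left
        push_cast
        linarith only [h2]
      · right
        refine ⟨?_, h.le, by tauto⟩
        rw [← abs_neg]
        push_cast
        convert h2 using 2
        ring
    · right
      rw [if_neg (by omega)]
      refine ⟨?_, h.le, by tauto⟩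
      rw [Int.cast_zero, zero_add]
      split_ifs
      · exact abs_sign_le _
      · norm_num
    · left
      rw [if_neg (by omega), if_neg (c2 h), Int.cast_zero, add_zero]

/-- the number of exceptional cells -/
theorem exc_card (r : ℕ) (B : Finset (ℤ × ℤ)) : by
    classical exact (B.filter fun k => Exc r k).card ≤ 12 * r := by
  classical
  show (B.filter fun k => Exc r k).card ≤ 12 * r
  have hsub : (B.filter fun k => Exc r k) ⊆
      ((({0, -1} : Finset ℤ) ×ˢ Finset.Ico (-(r : ℤ)) r) ∪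
        (Finset.Ico (-(r : ℤ)) r ×ˢ ({0, -1} : Finset ℤ))) ∪ (B.filter fun k => H253.nn k = r) := by
    intro k hk
    rw [Finset.mem_filter] at hk
    obtain ⟨hB, hnn, hk⟩ := hk
    rw [nn_n1] at hnn
    have m1 := n1_nonneg k.1
    have m2 := n1_nonneg k.2
    have i1 := H253.n1_lt (x := k.1) (N := r) (by omega)
    have i2 := H253.n1_lt (x := k.2) (N := r) (by omega)
    rw [Finset.mem_union, Finset.mem_union, Finset.mem_product, Finset.mem_product,
      Finset.mem_filter]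
    simp only [Finset.mem_insert, Finset.mem_singleton, Finset.mem_Ico]
    rcases hk with h | h | h | h | h
    · left; left; exact ⟨Or.inl h, i2⟩
    · left; left; exact ⟨Or.inr h, i2⟩
    · left; right; exact ⟨i1, Or.inl h⟩
    · left; right; exact ⟨i1, Or.inr h⟩
    · right; exact ⟨hB, h⟩
  refine (Finset.card_le_card hsub).trans ((Finset.card_union_le _ _).trans ?_)
  have h1 := rim_card r B
  have h2 := Finset.card_union_le (({0, -1} : Finset ℤ) ×ˢ Finset.Ico (-(r : ℤ)) r)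
    (Finset.Ico (-(r : ℤ)) r ×ˢ ({0, -1} : Finset ℤ))
  rw [Finset.card_product, Finset.card_product, Int.card_Ico] at h2
  have h3 : ({0, -1} : Finset ℤ).card = 2 := rfl
  rw [h3] at h2
  have h4 : ((r : ℤ) - -(r : ℤ)).toNat = 2 * r := by omega
  rw [h4] at h2
  omega

/-- lower bound of the number of cells inside the diamond -/
theorem in_card_low {L : ℕ} {r : ℕ} {q : ℤ × ℤ} (hr : 1 ≤ r) (h1 : (r : ℤ) ≤ q.1)
    (h2 : q.1 + r ≤ L) (h3 : (r : ℤ) ≤ q.2) (h4 : q.2 + r ≤ L) : by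
    classical exact 2 * (r : ℝ) * (r - 1) ≤ ((uc L 0).filter fun z => H253.nn (z - q) < r).card := by
  classical
  show 2 * (r : ℝ) * (r - 1) ≤ ((uc L 0).filter fun z => H253.nn (z - q) < r).card
  obtain ⟨s, rfl⟩ : ∃ s, r = s + 1 := ⟨r - 1, by omega⟩
  obtain ⟨A, hA⟩ : ∃ A : Finset ((Σ _ : ℕ, ℕ) × (Bool × Bool)), A =
    ((Finset.range s).sigma fun a => Finset.range (s - a)) ×ˢ Finset.univ := ⟨_, rfl⟩
  have hcard : (A.card : ℝ) = 2 * ((s : ℝ) + 1) * s := by
    rw [hA, Finset.card_product, Finset.card_sigma]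
    simp only [Finset.card_range, Finset.card_univ, Fintype.card_prod, Fintype.card_bool]
    have h5 : ∀ n : ℕ, ((∑ a ∈ Finset.range n, (n - a) : ℕ) : ℝ) = (n : ℝ) * (n + 1) / 2 := by
      intro n
      induction n with
      | zero => simp
      | succ n ih =>
        rw [Finset.sum_range_succ']
        have e1 : ∀ a ∈ Finset.range n, n + 1 - (a + 1) = n - a := fun a _ => by omega
        rw [Finset.sum_congr rfl e1]
        push_cast
        push_cast at ih
        rw [ih]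
        ring
    rw [Nat.cast_mul, h5]
    push_cast
    ring
  have hle : A.card ≤ ((uc L 0).filter fun z => H253.nn (z - q) < ((s + 1 : ℕ) : ℤ)).card := by
    refine Finset.card_le_card_of_injOn
      (fun x => (q.1 + (if x.2.1 then (x.1.1 : ℤ) else -1 - x.1.1),
        q.2 + (if x.2.2 then (x.1.2 : ℤ) else -1 - x.1.2))) ?_ ?_
    · rintro ⟨⟨a, c⟩, ⟨u, v⟩⟩ hx
      rw [hA] at hx
      simp only [Finset.coe_product, Finset.coe_sigma, Set.mem_prod, Set.mem_sigma_iff,
        Finset.coe_range, Set.mem_Iio, Finset.coe_univ, Set.mem_univ, and_true] at hx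
      obtain ⟨hx1, hx2⟩ := hx
      rw [Finset.mem_coe, Finset.mem_filter, mem_uc]
      simp only [Prod.fst_zero, Prod.snd_zero, zero_add]
      push_cast at h1 h2 h3 h4 ⊢
      unfold H253.nn
      simp only [Prod.fst_sub, Prod.snd_sub, add_sub_cancel_left]
      cases u <;> cases v <;> simp only [if_true, if_false, Bool.false_eq_true] <;>
        refine ⟨⟨⟨by omega, by omega⟩, by omega, by omega⟩, ?_⟩ <;> split_ifs <;> omega
    · rintro ⟨⟨a, c⟩, ⟨u, v⟩⟩ _ ⟨⟨a', c'⟩, ⟨u', v'⟩⟩ _ heq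
      simp only [Prod.mk.injEq, add_right_inj] at heq
      obtain ⟨e1, e2⟩ := heq
      have k1 : u = u' ∧ a = a' := by
        cases u <;> cases u' <;> simp only [if_true, if_false, Bool.false_eq_true] at e1 <;>
          first | (exact ⟨rfl, by omega⟩) | (exfalso; omega)
      have k2 : v = v' ∧ c = c' := by
        cases v <;> cases v' <;> simp only [if_true, if_false, Bool.false_eq_true] at e2 <;>
          first | (exact ⟨rfl, by omega⟩) | (exfalso; omega)
      obtain ⟨rfl, rfl⟩ := k1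
      obtain ⟨rfl, rfl⟩ := k2
      rfl
  have hle' : (A.card : ℝ) ≤ ((uc L 0).filter fun z => H253.nn (z - q) < ((s + 1 : ℕ) : ℤ)).card := by
    exact_mod_cast hle
  rw [hcard] at hle'
  refine le_trans (le_of_eq ?_) hle'
  push_cast
  ring

/-- the lower bound of the form of the block on the bond pyramids -/
def PyrLe (b Y0 : ℝ) : Prop := ∀ (L : ℕ) (x0 y0 : ℤ) (p : ℕ), 1 ≤ p → (p : ℤ) ≤ x0 →
  x0 + p ≤ L → (p : ℤ) ≤ y0 → y0 + p ≤ L →
  Y0 * (1 / 2 * ∑ z ∈ uc L 0, ∑ t : Bool × Bool, H856.pyr x0 y0 p t z ^ 2) ≤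
    qc b L 0 (rs L 0 (H856.pyr x0 y0 p)) 0

/-- difference of two fields in the form of a block -/
theorem qc_diff {b : ℝ} (hb : 0 ≤ b) {L : ℕ} (D K : BI L → ℝ) {ε : ℝ} (hε : 0 < ε) :
    (1 - ε) * qc b L 0 K 0 - qc b L 0 D 0 / ε ≤ qc b L 0 (D + (-1 : ℝ) • K) 0 := by
  have h1 := qc_zero_nonneg hb L 0 (D + (-ε) • K)
  have h0 := qc_zero_nonneg hb L 0 D
  rw [qc_zero] at h1 h0 ⊢
  rw [qc_zero, qc_zero]
  rw [QQ_bil, QQ_smul2, QQ_smul] at h1
  rw [QQ_bil, QQ_smul2, QQ_smul]
  obtain ⟨a, ha⟩ : ∃ a, a = QQ muInf (fun _ => b / 2) (chi0 L) 0 D D := ⟨_, rfl⟩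
  obtain ⟨c, hc⟩ : ∃ c, c = QQ muInf (fun _ => b / 2) (chi0 L) 0 D K := ⟨_, rfl⟩
  obtain ⟨d, hd⟩ : ∃ d, d = QQ muInf (fun _ => b / 2) (chi0 L) 0 K K := ⟨_, rfl⟩
  rw [← ha] at h0
  rw [← ha, ← hc, ← hd] at h1 ⊢
  have h2 : 2 * c ≤ a / ε + ε * d := by
    have h3 : 0 ≤ (a + 2 * (-ε * c) + (-ε) ^ 2 * d) / ε := div_nonneg h1 hε.le
    have h4 : (a + 2 * (-ε * c) + (-ε) ^ 2 * d) / ε = a / ε - 2 * c + ε * d := by
      field_simp
      ring
    linarith only [h3, h4]
  linarith only [h2, h0]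

/-- **half-bond pyramids from bond pyramids** -/
theorem rpb_of {b Y0 : ℝ} (hb : 0 < b) (hY0 : 0 ≤ Y0) (h : PyrLe b Y0) :
    RPb b Y0 (32 * Y0 + 24 * b) := by
  classical
  intro L r q hr _ h1 h2 h3 h4
  obtain ⟨K, hK⟩ : ∃ K : Fld, K = H856.pyr q.1 q.2 r := ⟨_, rfl⟩
  obtain ⟨g, hg⟩ : ∃ g : Fld, g = H253.pyr r q := ⟨_, rfl⟩
  have hQK := h L q.1 q.2 r hr h1 h2 h3 h4
  rw [← hK] at hQK
  have hdiff : ∀ z t, g t z + K t z = 0 ∨ (|g t z + K t z| ≤ 1 ∧ Exc r (z - q)) := by
    intro z t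
    rw [hg, hK]
    exact pyr_diff r q z t
  have hg1 : ∀ z t, |g t z| ≤ 1 := fun z t => by rw [hg]; exact H253.abs_pyr r q t z
  -- number of exceptional cells
  have hexc : ((((uc L 0).filter fun z => Exc r (z - q)).card : ℕ) : ℝ) ≤ 12 * r := by
    have e1 := exc_card r ((uc L 0).image fun z => z - q)
    have e2 : ((uc L 0).filter fun z => Exc r (z - q)).card ≤
        (((uc L 0).image fun z => z - q).filter fun k => Exc r k).card := by
      refine Finset.card_le_card_of_injOn (fun z => z - q) ?_ ?_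
      · intro z hz
        rw [Finset.mem_coe, Finset.mem_filter] at hz ⊢
        exact ⟨Finset.mem_image_of_mem _ hz.1, hz.2⟩
      · intro z _ z' _ hzz
        exact sub_left_injective hzz
    have e3 := e2.trans e1
    exact_mod_cast e3
  -- the difference
  have hD : ∑ z ∈ uc L 0, ∑ t : Bool × Bool, (g t z + K t z) ^ 2 ≤ 48 * r := by
    have e1 : ∀ z ∈ uc L 0, ∑ t : Bool × Bool, (g t z + K t z) ^ 2 ≤
        if Exc r (z - q) then 4 else 0 := by
      intro z _
      split_ifs with hz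
      · calc ∑ t : Bool × Bool, (g t z + K t z) ^ 2 ≤ ∑ _t : Bool × Bool, (1 : ℝ) := by
              refine Finset.sum_le_sum fun t _ => ?_
              rcases hdiff z t with h5 | ⟨h5, -⟩
              · rw [h5]; norm_num
              · rw [← sq_abs]; exact pow_le_one₀ (abs_nonneg _) h5
          _ = 4 := by simp [Fintype.card_prod, Fintype.card_bool]
      · refine le_of_eq (Finset.sum_eq_zero fun t _ => ?_)
        rcases hdiff z t with h5 | ⟨-, h5⟩
        · rw [h5]; norm_num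
        · exact absurd h5 hz
    refine (Finset.sum_le_sum e1).trans ?_
    rw [← Finset.sum_filter, Finset.sum_const, nsmul_eq_mul]
    linarith only [hexc]
  -- the norm of the bond pyramid
  have hN : 4 * (r : ℝ) ^ 2 - 28 * r ≤ 1 / 2 * ∑ z ∈ uc L 0, ∑ t : Bool × Bool, K t z ^ 2 := by
    have e1 : ∀ z ∈ uc L 0, (if H253.nn (z - q) < (r : ℤ) then (4 : ℝ) else 0) -
        (if Exc r (z - q) then 4 else 0) ≤ ∑ t : Bool × Bool, K t z ^ 2 := by
      intro z _
      by_cases hz : Exc r (z - q)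
      · rw [if_pos hz]
        have e2 : 0 ≤ ∑ t : Bool × Bool, K t z ^ 2 := Finset.sum_nonneg fun t _ => sq_nonneg _
        split_ifs <;> linarith only [e2]
      · rw [if_neg hz, sub_zero]
        split_ifs with h5
        · have e2 : ∀ t, K t z ^ 2 = 1 := by
            intro t
            rcases hdiff z t with h6 | ⟨-, h6⟩
            · have e3 : K t z = -(g t z) := by linarith only [h6]
              rw [e3, neg_sq, hg]
              unfold H253.pyr H253.pv H253.ph
              split_ifs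
              · push_cast
                rw [neg_sq, ← sq_abs, H253.abs_sgR]; norm_num
              · rw [← sq_abs, H253.abs_sgR]; norm_num
            · exact absurd h6 hz
          simp_rw [e2]
          simp [Fintype.card_prod, Fintype.card_bool]
        · exact Finset.sum_nonneg fun t _ => sq_nonneg _
    have e2 := Finset.sum_le_sum e1
    rw [Finset.sum_sub_distrib, ← Finset.sum_filter, ← Finset.sum_filter, Finset.sum_const,
      Finset.sum_const, nsmul_eq_mul, nsmul_eq_mul] at e2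
    have e3 : 2 * (r : ℝ) * (r - 1) ≤
        ((uc L 0).filter fun z => H253.nn (z - q) < (r : ℤ)).card := by
      have := in_card_low hr h1 h2 h3 h4
      convert this using 2
    linarith only [e2, e3, hexc]
  -- conclusion
  have hrR : (1 : ℝ) ≤ r := by exact_mod_cast hr
  have hr0 : (0 : ℝ) < r := by linarith only [hrR]
  obtain ⟨x, hx⟩ : ∃ x, x = Real.sqrt r := ⟨_, rfl⟩
  have hx1 : 1 ≤ x := by rw [hx]; exact Real.one_le_sqrt.2 hrR
  have hx0 : 0 < x := by linarith only [hx1]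
  have hxx : x * x = r := by rw [hx]; exact Real.mul_self_sqrt hr0.le
  have hq := qc_diff hb.le (rs L 0 (g + K)) (rs L 0 K) (ε := 1 / x) (by positivity)
  have e1 : rs L 0 (g + K) + (-1 : ℝ) • rs L 0 K = rs L 0 g := by
    rw [rs_add]
    module
  rw [e1] at hq
  have hQD : qc b L 0 (rs L 0 (g + K)) 0 ≤ 24 * b * r := by
    have e2 := qc_zero_le hb.le L 0 (rs L 0 (g + K))
    rw [sum_rs 0 (g + K) (fun x => x ^ 2)] at e2
    have e3 : ∑ z ∈ uc L 0, ∑ t : Bool × Bool, (g + K) t z ^ 2 =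
        ∑ z ∈ uc L 0, ∑ t : Bool × Bool, (g t z + K t z) ^ 2 := rfl
    rw [e3] at e2
    have e4 := mul_le_mul_of_nonneg_left hD (show 0 ≤ b / 2 by positivity)
    linarith only [e2, e4]
  have hQK2 : Y0 * (4 * (r : ℝ) ^ 2 - 28 * r) ≤ qc b L 0 (rs L 0 K) 0 :=
    (mul_le_mul_of_nonneg_left hN hY0).trans hQK
  have e5 : 0 ≤ 1 - 1 / x := by
    rw [sub_nonneg, div_le_one hx0]
    exact hx1
  have h6 := mul_le_mul_of_nonneg_left hQK2 e5
  have h7 : qc b L 0 (rs L 0 (g + K)) 0 / (1 / x) ≤ 24 * b * (r * x) := by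
    rw [div_div_eq_mul_div, div_one]
    have := mul_le_mul_of_nonneg_right hQD hx0.le
    linarith only [this]
  have h8 : (1 - 1 / x) * (Y0 * (4 * (r : ℝ) ^ 2 - 28 * r)) ≥
      Y0 * (4 * (r : ℝ) ^ 2) - 32 * Y0 * (r * x) := by
    have e6 : (1 - 1 / x) * (Y0 * (4 * (r : ℝ) ^ 2 - 28 * r)) =
        Y0 * (4 * (r : ℝ) ^ 2) - 28 * Y0 * r - 4 * Y0 * ((r : ℝ) ^ 2 / x) +
          28 * Y0 * (r / x) := by
      field_simp
      ring
    have e7 : (r : ℝ) ^ 2 / x = r * x := by
      rw [div_eq_iff hx0.ne', mul_assoc, hxx]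
      ring
    have e8 : 0 ≤ Y0 * (r / x) := by positivity
    have e9 : Y0 * r ≤ Y0 * (r * x) := by
      refine mul_le_mul_of_nonneg_left ?_ hY0
      nlinarith only [hx1, hr0]
    rw [e6, e7]
    linarith only [e8, e9]
  rw [← hg, ← hx]
  linarith only [hq, h6, h7, h8]

end Vale.Agent.P159.UJ.H282
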