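import Vale.Agent.P159.H282.VDefs
import Vale.Agent.P159.Bdl.B7

/-!
The vortex ratio in the letters of the problem
-/

set_option linter.all false

open MeasureTheory Filter Topology
open scoped BigOperators

namespace Vale.Agent.P159.UJ.H282

theorem ang_eq (l : ℕ) : ang l 0 = angleAt l := by
  funext v
  unfold ang angleAt wf zc cc ctr
  congr 2
  apply Complex.ext <;> simp

theorem EB_eq (b : ℝ) (l : ℕ) (z : Ginf) : EB b l 0 z = horiz l b cosT z + vert l b cosT z := by
  rw [← sum_all]
  unfold EB
  simp only [zero_add]

theorem WB_wired (b : ℝ) (l : ℕ) (φ : Ginf) : WB b l 0 φ = wiredZ l b φ := by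
  have hc : Continuous fun z : Ginf => Real.exp (horiz l b cosT z + vert l b cosT z) :=
    Real.continuous_exp.comp ((horiz_cont l b cont_cos).add (vert_cont l b cont_cos))
  have h1 := integral_ext (inner l)
    (f := fun θ => Real.exp (horiz l b cosT (φ + θ) + vert l b cosT (φ + θ)))
    (hc.comp (continuous_const.add continuous_id))
  have h2 : inB l 0 = (inner l : Set (ℤ × ℤ)) := by
    ext z
    unfold inB
    simp
  unfold WB av PB wiredZ
  rw [h2]
  simp only [EB_eq]
  rw [← h1]
  haveI : (torusHaar (inner l)).IsAddRightInvariant := by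
    unfold torusHaar
    infer_instance
  rw [← integral_add_right_eq_self (μ := torusHaar (inner l))
    (fun θ : inner l → T => Real.exp (horiz l b cosT (extW l φ θ) + vert l b cosT (extW l φ θ)))
    (fun v : inner l => φ v)]
  refine integral_congr_ae (Filter.Eventually.of_forall fun θ => ?_)
  have h3 : φ + ext θ = extW l φ (θ + fun v : inner l => φ v) := by
    funext v
    unfold ext extW
    rw [Pi.add_apply]
    split_ifs with h
    · rw [Pi.add_apply, add_comm]
    · rw [add_zero]
  simp only
  rw [h3]

theorem yy_eq (b : ℝ) (l : ℕ) : yy b l = vortexRatio l b := by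
  unfold yy vortexRatio
  rw [WB_wired, WB_wired, ang_eq]

end Vale.Agent.P159.UJ.H282
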