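import Vale.Agent.P159.H282.Point2
import Vale.Agent.P159.H282.VRatio
import Vale.Agent.P159.TM.Frame.T1
import Vale.Agent.P159.H170.Final

/-!
# The stiffness at the critical point
-/

open Filter Topology
open scoped BigOperators

namespace Vale.Agent.P159.UJ.H282

open Vale.Agent.P159.UJ.H733 (yy_pos' yy_le_one' log_yy p_gen)

/-- lower bound of the drops of the stiffness -/
theorem drops (B t : ℝ) (hB : 0 < B) (ht : 0 < t) : ∃ (C : ℝ) (q : ℕ), 1 ≤ C ∧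
    ∀ b : ℝ, 0 < b → b ≤ B → ∀ l m L : ℕ, 1 ≤ l → t ≤ stiff l b →
      0 < vortexRatio (l * m) b ∧ vortexRatio (l * m) b ≤ 1 ∧
      (C * (1 - Real.log (vortexRatio (l * m) b)) ^ q ≤ m →
        C * (1 - Real.log (vortexRatio (l * m) b)) ^ q * ((l * m : ℕ) : ℝ) ≤
          L * vortexRatio (l * m) b ^ 2 →
        vortexRatio (l * m) b ^ 2 / (C * (1 - Real.log (vortexRatio (l * m) b)) ^ q) ≤
          stiff l b - stiff L b) := by
  obtain ⟨C, q, hC, h⟩ := p_gen B t hB ht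
  refine ⟨C, q, hC, fun b hb hbB l m L hl hs => ?_⟩
  rw [← yy_eq b (l * m)]
  exact ⟨yy_pos' b _, yy_le_one' hb.le _, h b hb hbB l m L hl hs⟩

/-- the approach of the stiffness to the universal jump at the critical point -/
theorem crit :
    (∃ c C : ℝ, 0 < c ∧ 0 < C ∧ ∀ n : ℕ,
      c * Real.exp (-(C * ∑ i ∈ Finset.range n, (stiff (2 ^ i) bCrit - 2 / Real.pi))) ≤
        vortexRatio (2 ^ n) bCrit ∧
      c * Real.exp (-(C * ∑ i ∈ Finset.range n, (stiff (2 ^ i) bCrit - 2 / Real.pi))) ≤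
        stiff (2 ^ n) bCrit - 2 / Real.pi) ∧
    (∃ κ : ℝ, 0 < κ ∧ ∀ᶠ N : ℕ in atTop,
      κ * Real.log N ≤ ∑ i ∈ Finset.range N, (stiff (2 ^ i) bCrit - 2 / Real.pi)) ∧
    (∃ κ : ℝ, 0 < κ ∧ ∃ᶠ L : ℕ in atTop, κ / Real.log L ≤ stiff L bCrit - 2 / Real.pi) ∧
    (∀ ε : ℝ, 0 < ε → ∃ c : ℝ, 0 < c ∧ ∀ L : ℕ, 1 ≤ L →
      c * (L : ℝ) ^ (-ε) ≤ stiff L bCrit - 2 / Real.pi) := by
  have hb : 0 < bCrit := Vale.Agent.P159.H170.bCrit_pos
  have hhel : helicity bCrit = 2 / Real.pi := Vale.Agent.P159.TM.Frame.T1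
  have h1 := flow hb hhel
  have h0 := (fin_low hb hhel).1
  have h2 := (fin_low hb hhel).2
  have h4 : ∀ ε : ℝ, 0 < ε → ∃ c : ℝ, 0 < c ∧ ∀ L : ℕ, 1 ≤ L →
      c * (L : ℝ) ^ (-ε) ≤ stiff L bCrit - helicity bCrit := fun ε hε => slow hb hhel hε
  have h3 : ∃ κ : ℝ, 0 < κ ∧ ∃ᶠ L : ℕ in atTop,
      κ / Real.log L ≤ stiff L bCrit - helicity bCrit := by
    obtain ⟨κ, hκ, h⟩ := h2
    have hlog2 : 0 < Real.log 2 := Real.log_pos one_lt_two
    exact ⟨κ * Real.log 2 / 4, by positivity, freq hκ h⟩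
  have hx : ∀ n, 0 ≤ ∑ i ∈ Finset.range n, xs bCrit i := fun n =>
    Finset.sum_nonneg fun i _ => xs_nonneg hb.le i
  have h5 : ∃ c C : ℝ, 0 < c ∧ 0 < C ∧ ∀ n : ℕ,
      c * Real.exp (-(C * ∑ i ∈ Finset.range n, xs bCrit i)) ≤ vortexRatio (2 ^ n) bCrit ∧
      c * Real.exp (-(C * ∑ i ∈ Finset.range n, xs bCrit i)) ≤ xs bCrit n := by
    obtain ⟨c1, C1, hc1, hC1, a1⟩ := h1
    obtain ⟨c0, C0, hc0, hC0, a0⟩ := h0
    have key : ∀ (c C : ℝ) (n : ℕ), 0 < c → min c0 c1 ≤ c → C ≤ max C0 C1 →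
        min c0 c1 * Real.exp (-(max C0 C1 * ∑ i ∈ Finset.range n, xs bCrit i)) ≤
          c * Real.exp (-(C * ∑ i ∈ Finset.range n, xs bCrit i)) := by
      intro c C n hc h1 h2
      refine mul_le_mul h1 ?_ (Real.exp_pos _).le hc.le
      rw [Real.exp_le_exp]
      exact neg_le_neg (mul_le_mul_of_nonneg_right h2 (hx n))
    refine ⟨min c0 c1, max C0 C1, lt_min hc0 hc1, lt_max_of_lt_left hC0, fun n => ⟨?_, ?_⟩⟩
    · rw [← yy_eq]
      exact (key c0 C0 n hc0 (min_le_left _ _) (le_max_left _ _)).trans (a0 n)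
    · exact (key c1 C1 n hc1 (min_le_right _ _) (le_max_right _ _)).trans (a1 n)
  unfold xs at h5 h2
  rw [hhel] at h2 h3 h4 h5
  exact ⟨h5, h2, h3, h4⟩

end Vale.Agent.P159.UJ.H282
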