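import Vale.Agent.P159.H282.ExRec

/-!
# The number of scales needed to leave the neighbourhood of the critical value
-/

set_option linter.all false

open scoped BigOperators

namespace Vale.Agent.P159.UJ.H282.Ex

/-- the top size of the groups -/
theorem exists_top {K δ : ℝ} (hK : 0 < K) (hδ : 0 < δ) (hδ1 : δ ≤ 1) :
    ∃ k0 : ℕ, K ≤ ((12 * 2 ^ k0 : ℕ) : ℝ) * δ ∧ ((12 * 2 ^ k0 : ℕ) : ℝ) * δ ≤ 2 * K + 12 := by
  classical
  have hex : ∃ k : ℕ, K ≤ ((12 * 2 ^ k : ℕ) : ℝ) * δ := by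
    obtain ⟨k, hk⟩ := pow_unbounded_of_one_lt (K / δ) (one_lt_two (α := ℝ))
    refine ⟨k, ?_⟩
    rw [div_lt_iff₀ hδ] at hk
    push_cast
    have : 0 ≤ (2 : ℝ) ^ k * δ := by positivity
    linarith only [hk, this]
  refine ⟨Nat.find hex, Nat.find_spec hex, ?_⟩
  obtain ⟨k, hk⟩ : ∃ k, k = Nat.find hex := ⟨_, rfl⟩
  rw [← hk]
  rcases Nat.eq_zero_or_pos k with h0 | h0
  · rw [h0]
    push_cast
    linarith only [hδ1, hK]
  · have h1 : ¬ K ≤ ((12 * 2 ^ (k - 1) : ℕ) : ℝ) * δ :=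
      Nat.find_min hex (by omega)
    push Not at h1
    have h2 : (2 : ℝ) ^ k = 2 * 2 ^ (k - 1) := by
      rw [← pow_succ']
      congr 1
      omega
    push_cast at h1 ⊢
    rw [h2]
    linarith only [h1]

theorem card_small (M n N0 : ℕ) (hn : 1 ≤ n) :
    ∑ w ∈ Finset.range M, (if w * n < N0 then (1 : ℝ) else 0) ≤ (N0 : ℝ) / n + 1 := by
  rw [← Finset.sum_filter, Finset.sum_const, nsmul_eq_mul, mul_one]
  have h1 : ((Finset.range M).filter fun w => w * n < N0).card ≤ N0 / n + 1 := by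
    refine (Finset.card_le_card (t := Finset.range (N0 / n + 1)) ?_).trans
      (le_of_eq (Finset.card_range _))
    intro w hw
    rw [Finset.mem_filter] at hw
    rw [Finset.mem_range, Nat.lt_succ_iff, Nat.le_div_iff_mul_le (by omega)]
    exact hw.2.le
  have h2 : (((Finset.range M).filter fun w => w * n < N0).card : ℝ) ≤
      ((N0 / n + 1 : ℕ) : ℝ) := by exact_mod_cast h1
  refine h2.trans ?_
  push_cast
  have := Nat.cast_div_le (α := ℝ) (m := N0) (n := n)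
  linarith only [this]

/-- **exit theorem**, scalar form -/
theorem exit_sc (Λ κ c1 K c' : ℝ) (A i0 : ℕ) (hc1 : 0 < c1) (hK0 : 0 < K) (hK : c1 ≤ 4 * K)
    (hΛ : 0 ≤ Λ) (hκ : 0 < κ) (hKΛ : Λ ≤ κ * K) (hc' : 0 ≤ c') : ∃ C : ℝ, 0 < C ∧
    ∀ (p q l : ℕ → ℝ) (d : ℝ), (∀ j, 0 ≤ p j) → Antitone p → (∀ j, 0 ≤ q j) → Monotone q →
    d ≤ c1 / 24 → p i0 ≤ c1 / 24 →
    (∀ i m : ℕ, i0 ≤ i → 12 ≤ m → q (i + 2 * m + A) ≤ d →
      ∑ k ∈ Finset.range m, p (i + k) + m * (q (i + 2 * m + A) - q i) ≤ c1 →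
      2 * κ * m * q i - Λ ≤ l (i + m) - l i) →
    (∀ j, l j ≤ 0) → -c' ≤ l i0 →
    ∀ (N0 N : ℕ) (δ : ℝ), 0 < δ → δ ≤ 1 → δ ≤ q N0 → p N0 = 0 → q N ≤ d →
      (N : ℝ) ≤ 2 * N0 + C * (1 / δ) * (1 + Real.log (1 / δ)) *
        (1 + ∑ j ∈ Finset.range N0, p j) := by
  obtain ⟨r, hr⟩ : ∃ r, r = A + 2 := ⟨_, rfl⟩
  obtain ⟨K2, hK2⟩ : ∃ K2, K2 = 2 * K + 12 := ⟨_, rfl⟩
  have hlog2 : 0 < Real.log 2 := Real.log_pos one_lt_two
  obtain ⟨E, hE⟩ : ∃ E, E = 1 + (Real.log K2 + 1) / Real.log 2 := ⟨_, rfl⟩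
  have hlK2 : 0 ≤ Real.log K2 := Real.log_nonneg (by rw [hK2]; linarith only [hK0])
  have hE0 : 0 ≤ E := by rw [hE]; positivity
  have hK20 : 0 ≤ K2 := by rw [hK2]; positivity
  refine ⟨(i0 : ℝ) + A + 3 * K2 + (c' + Λ) / κ + 4 * Λ / c1 / κ * (E * (1 + r * (4 * K))) + 1,
    by positivity, ?_⟩
  intro p q l d hp hpa hq0 hqm hd hp0 hG hl hl0 N0 N δ hδ hδ1 hδq hpN0 hqN
  obtain ⟨k0, hk1, hk2⟩ := exists_top hK0 hδ hδ1
  obtain ⟨n, hn⟩ : ∃ n : ℕ, n = 12 * 2 ^ k0 := ⟨_, rfl⟩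
  have hn1 : 1 ≤ n := by rw [hn]; have : 0 < 2 ^ k0 := by positivity
                         omega
  have hstep := rec_step (K := K) (r := r) (l := l) hp hpa hq0 hqm hc1 hK hΛ hκ.le hKΛ hd hp0
    (by omega) hG k0
  have hsum := Uc_sum (p := p) (q := q) (K := K) (r := r) hK0.le hq0 k0
  rw [← hn] at hk1 hk2 hstep hsum
  rw [← hK2] at hk2
  obtain ⟨M, hM⟩ : ∃ M, M = (N - i0 - A) / n - 1 := ⟨_, rfl⟩
  have hMN : N ≤ i0 + A + (M + 2) * n := by
    have h1 := Nat.lt_mul_div_succ (N - i0 - A) (show 0 < n by omega)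
    have h2 : (N - i0 - A) / n ≤ M + 1 := by omega
    have h3 : n * ((N - i0 - A) / n + 1) ≤ n * (M + 1 + 1) := Nat.mul_le_mul_left _ (by omega)
    have h4 : n * (M + 1 + 1) = (M + 2) * n := by ring
    omega
  have hMw : ∀ w, w < M → q (i0 + w * n + 2 * n + A) ≤ d := by
    intro w hw
    refine (hqm ?_).trans hqN
    have h1 := Nat.div_mul_le_self (N - i0 - A) n
    have h2 : w + 2 ≤ (N - i0 - A) / n := by omega
    have h3 := Nat.mul_le_mul_right n h2
    have h4 : (w + 2) * n = w * n + 2 * n := by ring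
    have h5 : 1 ≤ (w + 2) * n := by nlinarith
    omega
  -- the chain
  have hchain : ∑ w ∈ Finset.range M, (κ * (n : ℝ) * q (i0 + w * n) -
      Λ * (if (n : ℝ) * q (i0 + w * n) < K then 1 else 0) - 4 * Λ / c1 * Uc p q K r k0
        (i0 + w * n)) ≤ l (i0 + M * n) - l i0 := by
    have h1 : ∑ w ∈ Finset.range M, (l (i0 + (w + 1) * n) - l (i0 + w * n)) =
        l (i0 + M * n) - l i0 := by
      have := Finset.sum_range_sub (fun w => l (i0 + w * n)) M
      simp only [zero_mul, add_zero] at this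
      exact this
    rw [← h1]
    refine Finset.sum_le_sum fun w hw => ?_
    have h2 := hstep (i0 + w * n) (Nat.le_add_right _ _) (hMw w (Finset.mem_range.1 hw))
    have h3 : i0 + w * n + n = i0 + (w + 1) * n := by ring
    rw [h3] at h2
    exact h2
  have hnR : (1 : ℝ) ≤ n := by exact_mod_cast hn1
  have hn0 : (0 : ℝ) < n := by linarith only [hnR]
  have hlow : ∀ w ∈ Finset.range M, κ * n * δ - (Λ + κ * n * δ) *
      (if w * n < N0 then (1 : ℝ) else 0) - 4 * Λ / c1 * Uc p q K r k0 (i0 + w * n) ≤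
      κ * (n : ℝ) * q (i0 + w * n) -
      Λ * (if (n : ℝ) * q (i0 + w * n) < K then 1 else 0) - 4 * Λ / c1 * Uc p q K r k0
        (i0 + w * n) := by
    intro w _
    have h1 := mul_nonneg (mul_nonneg hκ.le hn0.le) (hq0 (i0 + w * n))
    have h2 : Λ * (if (n : ℝ) * q (i0 + w * n) < K then 1 else 0 : ℝ) ≤ Λ := by
      split_ifs <;> linarith only [hΛ]
    by_cases h3 : w * n < N0
    · rw [if_pos h3]
      linarith only [h1, h2]
    · rw [if_neg h3]
      have h4 : δ ≤ q (i0 + w * n) := hδq.trans (hqm (by omega))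
      have h5 := mul_le_mul_of_nonneg_left h4 hn0.le
      have h6 := mul_le_mul_of_nonneg_left h5 hκ.le
      rw [if_neg (by push Not; linarith only [hk1, h5])]
      linarith only [h6]
  have hsum2 := (Finset.sum_le_sum hlow).trans hchain
  rw [Finset.sum_sub_distrib, Finset.sum_sub_distrib, ← Finset.mul_sum, ← Finset.mul_sum,
    Finset.sum_const, Finset.card_range, nsmul_eq_mul] at hsum2
  have hcard := card_small M n N0 hn1
  have hUs := hsum i0 M
  -- the sum of the positive parts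
  obtain ⟨T, hT⟩ : ∃ T, T = ∑ j ∈ Finset.range N0, p j := ⟨_, rfl⟩
  have hT0 : 0 ≤ T := by rw [hT]; exact Finset.sum_nonneg fun j _ => hp j
  have hTs : ∑ j ∈ Finset.range (M * n), p (i0 + j) ≤ T := by
    have h1 : ∑ j ∈ Finset.range (i0 + M * n), p j =
        ∑ j ∈ Finset.range i0, p j + ∑ j ∈ Finset.range (M * n), p (i0 + j) :=
      Finset.sum_range_add _ _ _
    have h2 : ∑ j ∈ Finset.range (i0 + M * n), p j ≤
        ∑ j ∈ Finset.range (N0 + (i0 + M * n)), p j := by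
      refine Finset.sum_le_sum_of_subset_of_nonneg ?_ fun j _ _ => hp j
      intro j hj
      rw [Finset.mem_range] at hj ⊢
      omega
    have h3 : ∑ j ∈ Finset.range (N0 + (i0 + M * n)), p j = T +
        ∑ j ∈ Finset.range (i0 + M * n), p (N0 + j) := by
      rw [hT]; exact Finset.sum_range_add _ _ _
    have h4 : ∑ j ∈ Finset.range (i0 + M * n), p (N0 + j) = 0 := by
      refine Finset.sum_eq_zero fun j _ => le_antisymm ?_ (hp _)
      rw [← hpN0]
      exact hpa (Nat.le_add_right _ _)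
    have h5 : 0 ≤ ∑ j ∈ Finset.range i0, p j := Finset.sum_nonneg fun j _ => hp j
    linarith only [h1, h2, h3, h4, h5]
  rw [← hT]
  have hlM := hl (i0 + M * n)
  -- the logarithm
  obtain ⟨g, hg⟩ : ∃ g, g = Real.log (1 / δ) := ⟨_, rfl⟩
  have hg0 : 0 ≤ g := by rw [hg]; exact Real.log_nonneg (by rw [le_div_iff₀ hδ]; linarith)
  rw [← hg]
  have hk0 : (k0 : ℝ) + 1 ≤ E * (1 + g) := by
    have h1 : (2 : ℝ) ^ k0 ≤ K2 * (1 / δ) := by
      rw [hn] at hk2
      push_cast at hk2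
      rw [mul_one_div, le_div_iff₀ hδ]
      have : 0 ≤ (2 : ℝ) ^ k0 * δ := by positivity
      linarith only [hk2, this]
    have h2 : (k0 : ℝ) * Real.log 2 ≤ Real.log K2 + g := by
      rw [← Real.log_pow, hg, ← Real.log_mul (by rw [hK2]; positivity) (by positivity)]
      exact Real.log_le_log (by positivity) h1
    have h3 : (k0 : ℝ) ≤ (Real.log K2 + g) / Real.log 2 := by
      rw [le_div_iff₀ hlog2]; exact h2
    have h4 : E * (1 + g) = (Real.log K2 + g) / Real.log 2 + 1 + (1 / Real.log 2 + g +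
        g * (Real.log K2 / Real.log 2)) := by
      rw [hE]
      field_simp
      ring
    have h5 : 0 ≤ 1 / Real.log 2 + g + g * (Real.log K2 / Real.log 2) := by positivity
    rw [h4]
    linarith only [h3, h5]
  -- assembly
  have a1 : κ * (n * δ) * M ≤ c' + (Λ + κ * (n * δ)) * ((N0 : ℝ) / n + 1) +
      4 * Λ / c1 * (E * (1 + g) * (T + r * (4 * K))) := by
    have h1 : 0 ≤ Λ + κ * (n * δ) := by positivity
    have h2 := mul_le_mul_of_nonneg_left hcard h1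
    have h3 : ((k0 : ℝ) + 1) * (∑ j ∈ Finset.range (M * n), p (i0 + j) + r * (4 * K)) ≤
        E * (1 + g) * (T + r * (4 * K)) := by
      have hs0 : 0 ≤ ∑ j ∈ Finset.range (M * n), p (i0 + j) :=
        Finset.sum_nonneg fun j _ => hp _
      have h4 : 0 ≤ (r : ℝ) * (4 * K) := by positivity
      exact mul_le_mul hk0 (by linarith only [hTs]) (by linarith only [hs0, h4])
        (by positivity)
    have h4 : 0 ≤ 4 * Λ / c1 := by positivity
    have h5 := mul_le_mul_of_nonneg_left (hUs.trans h3) h4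
    rw [Finset.mul_sum] at h5
    have e1 : κ * (n : ℝ) * ((M : ℝ) * δ) = κ * (n * δ) * M := by ring
    have e2 : κ * (n : ℝ) * δ = κ * (n * δ) := by ring
    rw [e1, e2] at hsum2
    linarith only [hsum2, h2, h5, hlM, hl0]
  obtain ⟨Q, hQ⟩ : ∃ Q, Q = 1 / δ * (1 + g) * (1 + T) := ⟨_, rfl⟩
  have hD1 : 1 ≤ 1 / δ := by rw [le_div_iff₀ hδ]; linarith only [hδ1]
  have hGP : 1 ≤ (1 + g) * (1 + T) := by nlinarith only [hg0, hT0]
  have hQ1 : 1 / δ ≤ Q := by
    rw [hQ, mul_assoc]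
    have h0 : 0 ≤ 1 / δ := by positivity
    have := mul_le_mul_of_nonneg_left hGP h0
    linarith only [this]
  have hQ2 : 1 ≤ Q := hD1.trans hQ1
  have a2 : (n : ℝ) ≤ K2 * Q := by
    have h1 : (n : ℝ) ≤ K2 * (1 / δ) := by rw [mul_one_div, le_div_iff₀ hδ]; exact hk2
    have h2 : 0 ≤ K2 := by rw [hK2]; positivity
    exact h1.trans (mul_le_mul_of_nonneg_left hQ1 h2)
  have a3 : (M : ℝ) * n ≤ 1 / (κ * δ) * (c' + (Λ + κ * (n * δ)) * ((N0 : ℝ) / n + 1) +
      4 * Λ / c1 * (E * (1 + g) * (T + r * (4 * K)))) := by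
    rw [one_div_mul_eq_div, le_div_iff₀ (by positivity)]
    linarith only [a1]
  have a4 : 1 / (κ * δ) * ((Λ + κ * (n * δ)) * ((N0 : ℝ) / n + 1)) ≤
      2 * N0 + Λ / κ * (1 / δ) + n := by
    have e1 : 1 / (κ * δ) * ((Λ + κ * (n * δ)) * ((N0 : ℝ) / n + 1)) =
        Λ / (κ * (n * δ)) * N0 + N0 + Λ / κ * (1 / δ) + n := by
      field_simp
      ring
    have h1 : Λ / (κ * (n * δ)) ≤ 1 := by
      rw [div_le_one (by positivity)]
      have := mul_le_mul_of_nonneg_left hk1 hκ.le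
      linarith only [this, hKΛ]
    have h2 := mul_le_mul_of_nonneg_right h1 (Nat.cast_nonneg (α := ℝ) N0)
    rw [e1]
    linarith only [h2]
  have a5 : 1 / (κ * δ) * (4 * Λ / c1 * (E * (1 + g) * (T + r * (4 * K)))) ≤
      4 * Λ / c1 / κ * (E * (1 + r * (4 * K))) * Q := by
    have e1 : 1 / (κ * δ) * (4 * Λ / c1 * (E * (1 + g) * (T + r * (4 * K)))) =
        4 * Λ / c1 / κ * E * (1 / δ * (1 + g) * (T + r * (4 * K))) := by
      field_simp
    have e2 : 4 * Λ / c1 / κ * (E * (1 + r * (4 * K))) * Q = 4 * Λ / c1 / κ * E *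
        (1 / δ * (1 + g) * ((1 + r * (4 * K)) * (1 + T))) := by
      rw [hQ]; ring
    rw [e1, e2]
    refine mul_le_mul_of_nonneg_left (mul_le_mul_of_nonneg_left ?_ (by positivity))
      (by positivity)
    have h1 : 0 ≤ (r : ℝ) * (4 * K) := by positivity
    nlinarith only [mul_nonneg h1 hT0, hT0]
  have a6 : 1 / (κ * δ) * c' + Λ / κ * (1 / δ) ≤ (c' + Λ) / κ * Q := by
    have e1 : 1 / (κ * δ) * c' + Λ / κ * (1 / δ) = (c' + Λ) / κ * (1 / δ) := by
      field_simp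
    rw [e1]
    exact mul_le_mul_of_nonneg_left hQ1 (by positivity)
  have a7 : (N : ℝ) ≤ i0 + A + (M + 2) * n := by exact_mod_cast hMN
  have a8 : (i0 : ℝ) + A ≤ (i0 + A) * Q := by
    have h1 : 0 ≤ (i0 : ℝ) + A := by positivity
    have := mul_le_mul_of_nonneg_left hQ2 h1
    linarith only [this]
  have e9 : ((i0 : ℝ) + A + 3 * K2 + (c' + Λ) / κ + 4 * Λ / c1 / κ * (E * (1 + r * (4 * K))) + 1) *
      (1 / δ) * (1 + g) * (1 + T) = ((i0 : ℝ) + A + 3 * K2 + (c' + Λ) / κ +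
      4 * Λ / c1 / κ * (E * (1 + r * (4 * K))) + 1) * Q := by rw [hQ]; ring
  rw [e9]
  rw [mul_add, mul_add] at a3
  nlinarith only [a2, a3, a4, a5, a6, a7, a8, hQ2]

end Vale.Agent.P159.UJ.H282.Ex
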