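import Vale.Agent.P159.H282.ExY
import Vale.Agent.P159.H282.ExSc
import Vale.Agent.P159.H733.Gen
import Vale.Agent.P159.H873.Mono
import Vale.Agent.P159.TM.Frame.T1
import Vale.Agent.P159.H170.Final
import Vale.Agent.P159.T1.NC.H664.YLow

/-!
# Exit from the neighbourhood of the critical value: the stiffness
-/

set_option linter.all false

open Filter Topology
open scoped BigOperators

namespace Vale.Agent.P159.UJ.H282.Ex

open Vale.Agent.P159.UJ.H733 (yy_pos' yy_le_one')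

theorem tendsto_dy {b : ℝ} (hb : 0 < b) :
    Tendsto (fun n : ℕ => stiff (2 ^ n) b) atTop (𝓝 (helicity b)) :=
  (Vale.Agent.P159.H177.tendsto_stiff hb).comp
    (tendsto_pow_atTop_atTop_of_one_lt one_lt_two)

theorem stiff_anti2 {b : ℝ} (hb : 0 ≤ b) {i j : ℕ} (h : i ≤ j) :
    stiff (2 ^ j) b ≤ stiff (2 ^ i) b := by
  have := NC.stiff_anti_pow hb (l := 1) (N := 2) le_rfl (by norm_num) h
  rw [one_mul, one_mul] at this
  exact this

/-- **exit theorem for the stiffness** -/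
theorem exit_b : ∃ C d : ℝ, 0 < C ∧ 0 < d ∧ ∀ b : ℝ, 0 < b → b ≤ bCrit →
    ∀ (N0 N : ℕ) (δ : ℝ), 0 < δ → δ ≤ 1 → stiff (2 ^ N0) b ≤ 2 / Real.pi - δ →
      2 / Real.pi - d ≤ stiff (2 ^ N) b →
      (N : ℝ) ≤ 2 * N0 + C * (1 / δ) * (1 + Real.log (1 / δ)) *
        (1 + ∑ j ∈ Finset.range N0, max (stiff (2 ^ j) b - 2 / Real.pi) 0) := by
  have hbc : 0 < bCrit := Vale.Agent.P159.H170.bCrit_pos
  have hpi := Real.pi_pos
  have hlog2 : 0 < Real.log 2 := Real.log_pos one_lt_two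
  have hhel : helicity bCrit = 2 / Real.pi := Vale.Agent.P159.TM.Frame.T1
  obtain ⟨c1, c0, a, A, hc1, hc0, ha, hG⟩ := groupY bCrit hbc
  obtain ⟨Λ, hΛ⟩ : ∃ Λ, Λ = max (-Real.log c0) 0 := ⟨_, rfl⟩
  have hΛ0 : 0 ≤ Λ := by rw [hΛ]; exact le_max_right _ _
  have hΛc : -Λ ≤ Real.log c0 := by
    have := le_max_left (-Real.log c0) 0
    rw [hΛ]
    linarith only [this]
  obtain ⟨κ, hκ⟩ : ∃ κ, κ = Real.pi * Real.log 2 / 2 := ⟨_, rfl⟩
  have hκ0 : 0 < κ := by rw [hκ]; positivity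
  obtain ⟨K, hK⟩ : ∃ K, K = Λ / κ + c1 := ⟨_, rfl⟩
  have hK0 : 0 < K := by rw [hK]; positivity
  have hK1 : c1 ≤ 4 * K := by
    have : 0 ≤ Λ / κ := by positivity
    rw [hK]
    linarith only [this, hc1]
  have hKΛ : Λ ≤ κ * K := by
    have : κ * K = Λ + κ * c1 := by rw [hK]; field_simp
    rw [this]
    have := mul_pos hκ0 hc1
    linarith only [this]
  obtain ⟨i0, hi0⟩ : ∃ i0 : ℕ, stiff (2 ^ i0) bCrit ≤ 2 / Real.pi + c1 / 24 := by
    have h1 := tendsto_dy hbc
    rw [hhel] at h1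
    have h2 := h1.eventually (gt_mem_nhds (show 2 / Real.pi < 2 / Real.pi + c1 / 24 by
      have : 0 < c1 / 24 := by positivity
      linarith only [this]))
    obtain ⟨i0, hi0⟩ := h2.exists
    exact ⟨i0, hi0.le⟩
  obtain ⟨c', hc'⟩ : ∃ c' : ℝ, c' = 640 * bCrit * (1 + Real.log (((2 ^ (i0 + a) : ℕ) : ℝ) + 1)) :=
    ⟨_, rfl⟩
  have hlg : 0 ≤ Real.log (((2 ^ (i0 + a) : ℕ) : ℝ) + 1) :=
    Real.log_nonneg (by
      have := Nat.cast_nonneg (α := ℝ) (2 ^ (i0 + a))
      linarith only [this])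
  have hc'0 : 0 ≤ c' := by rw [hc']; positivity
  obtain ⟨C, hC, hE⟩ := exit_sc Λ κ c1 K c' A i0 hc1 hK0 hK1 hΛ0 hκ0 hKΛ hc'0
  obtain ⟨d, hd⟩ : ∃ d, d = min (c1 / 24) (1 / (4 * Real.pi)) := ⟨_, rfl⟩
  have hd0 : 0 < d := by rw [hd]; exact lt_min (by positivity) (by positivity)
  refine ⟨C, d, hC, hd0, ?_⟩
  intro b hb hbbc N0 N δ hδ hδ1 hN0 hN
  have hanti : ∀ {i j : ℕ}, i ≤ j → stiff (2 ^ j) b ≤ stiff (2 ^ i) b := fun h =>
    stiff_anti2 hb.le h
  have hyp : ∀ n, 0 < yy b n := fun n => yy_pos' b n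
  refine hE (fun j => max (stiff (2 ^ j) b - 2 / Real.pi) 0)
    (fun j => max (2 / Real.pi - stiff (2 ^ j) b) 0) (fun j => Real.log (yy b (2 ^ (j + a)))) d
    (fun j => le_max_right _ _)
    (fun i j h => max_le_max (by linarith only [hanti h]) le_rfl) (fun j => le_max_right _ _)
    (fun i j h => max_le_max (by linarith only [hanti h]) le_rfl)
    (by rw [hd]; exact min_le_left _ _) ?_ ?_ ?_ ?_ N0 N δ hδ hδ1 ?_ ?_ ?_
  · -- start
    apply max_le _ (by positivity)
    have h1 : stiff (2 ^ i0) b ≤ stiff (2 ^ i0) bCrit :=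
      Vale.Agent.P159.H873.stiff_monotoneOn Nat.one_le_two_pow (Set.mem_Ici.2 hb.le)
        (Set.mem_Ici.2 hbc.le) hbbc
    linarith only [h1, hi0]
  · -- one group
    intro i m hi hm hqd hsum
    obtain ⟨S, hS⟩ : ∃ S : ℕ → ℝ, S = fun j => stiff (2 ^ j) b := ⟨_, rfl⟩
    have hSj : ∀ j, stiff (2 ^ j) b = S j := fun j => by rw [hS]
    simp only [hSj] at hqd hsum ⊢
    obtain ⟨Q, hQ⟩ : ∃ Q : ℕ → ℝ, Q = fun j => max (2 / Real.pi - S j) 0 := ⟨_, rfl⟩
    have hQj : ∀ j, max (2 / Real.pi - S j) 0 = Q j := fun j => by rw [hQ]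
    obtain ⟨P, hP⟩ : ∃ P : ℕ → ℝ, P = fun j => max (S j - 2 / Real.pi) 0 := ⟨_, rfl⟩
    have hPj : ∀ j, max (S j - 2 / Real.pi) 0 = P j := fun j => by rw [hP]
    simp only [hQj, hPj] at hqd hsum ⊢
    have hPQ : ∀ j, S j - 2 / Real.pi = P j - Q j := by
      intro j
      rw [← hQj, ← hPj]
      rcases le_total (S j) (2 / Real.pi) with h | h
      · rw [max_eq_right (by linarith only [h]), max_eq_left (by linarith only [h])]
        ring
      · rw [max_eq_left (by linarith only [h]), max_eq_right (by linarith only [h])]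
        ring
    have hP0 : ∀ j, 0 ≤ P j := fun j => by rw [← hPj]; exact le_max_right _ _
    have hQ0 : ∀ j, 0 ≤ Q j := fun j => by rw [← hQj]; exact le_max_right _ _
    have hQm : ∀ {i j : ℕ}, i ≤ j → Q i ≤ Q j := by
      intro i j h
      rw [← hQj, ← hQj, ← hSj, ← hSj]
      exact max_le_max (by linarith only [hanti h]) le_rfl
    obtain ⟨J, hJ⟩ : ∃ J, J = i + 2 * m + A := ⟨_, rfl⟩
    rw [← hJ] at hqd hsum
    have hd' : d ≤ 1 / (4 * Real.pi) := by rw [hd]; exact min_le_right _ _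
    have e0 : 7 / (4 * Real.pi) = 2 / Real.pi - 1 / (4 * Real.pi) := by field_simp; norm_num
    have key := hG b hb hbbc (2 ^ i) m (2 / Real.pi - Q J) Nat.one_le_two_pow hm
      (by rw [e0]; linarith only [hqd, hd']) (by
        rw [← pow_add]
        have e1 : i + (2 * m + A) = J := by rw [hJ]; ring
        rw [e1, hSj]
        linarith only [hPQ J, hP0 J]) (by
        have h1 : ∀ k ∈ Finset.range m, stiff (2 ^ i * 2 ^ k) b - (2 / Real.pi - Q J) ≤
            P (i + k) + (Q J - Q i) := by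
          intro k _
          rw [← pow_add, hSj]
          linarith only [hPQ (i + k), hQm (Nat.le_add_right i k)]
        refine (Finset.sum_le_sum h1).trans (le_trans (le_of_eq ?_) hsum)
        rw [Finset.sum_add_distrib, Finset.sum_const, Finset.card_range, nsmul_eq_mul])
    rw [← pow_add, ← pow_add] at key
    have e2 : i + a + m = i + m + a := by ring
    rw [e2] at key
    have h1 := Real.log_le_log (mul_pos (mul_pos hc0 (Real.exp_pos _)) (hyp _)) key
    rw [Real.log_mul (mul_pos hc0 (Real.exp_pos _)).ne' (hyp _).ne',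
      Real.log_mul hc0.ne' (Real.exp_pos _).ne', Real.log_exp] at h1
    have e3 : (m : ℝ) * (Real.log 2 * (2 - Real.pi * (2 / Real.pi - Q J))) = 2 * κ * m * Q J := by
      rw [hκ]
      field_simp
      ring
    rw [e3] at h1
    have h2 : 2 * κ * m * Q i ≤ 2 * κ * m * Q J :=
      mul_le_mul_of_nonneg_left (hQm (by omega)) (by positivity)
    linarith only [h1, h2, hΛc]
  · intro j
    exact Real.log_nonpos (hyp _).le (yy_le_one' hb.le _)
  · have h1 := H664.yy_ge hb.le (2 ^ (i0 + a))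
    have h2 := Real.log_le_log (Real.exp_pos _) h1
    rw [Real.log_exp] at h2
    refine le_trans ?_ h2
    rw [hc', neg_le_neg_iff]
    refine mul_le_mul_of_nonneg_right ?_ (by linarith only [hlg])
    linarith only [hbbc]
  · exact le_trans (by linarith only [hN0]) (le_max_left _ _)
  · exact max_eq_right (by linarith only [hN0, hδ])
  · exact max_le (by linarith only [hN]) hd0.le

end Vale.Agent.P159.UJ.H282.Ex
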