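import Vale.Agent.P159.H253.Loc

/-!
# The tests in a block of a given side, with a general baseline

`RPL b L Y0 C1` is the lower bound of the form of the block of side `L` on the pyramids.  The test
theorems of `H253` are used only at one side.
-/

set_option linter.all false

open MeasureTheory
open scoped BigOperators

namespace Vale.Agent.P159.UJ.H253.Ex

open H282

/-- (RP) at one side: the lower bound of the form of the block of side `L` on pyramids -/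
def RPL (b : ℝ) (L : ℕ) (Y0 C1 : ℝ) : Prop := ∀ (r : ℕ) (q : ℤ × ℤ), 1 ≤ r → 2 ∣ r →
  (r : ℤ) ≤ q.1 → q.1 + r ≤ L → (r : ℤ) ≤ q.2 → q.2 + r ≤ L →
    Y0 * (4 * (r : ℝ) ^ 2) - C1 * (r * Real.sqrt r) ≤ qc b L 0 (rs L 0 (pyr r q)) 0

/-- **`vS` of a pyramid** -/
theorem vS_pyrL {b Y0 C1 : ℝ} (hb : 0 < b) (hY0 : 0 ≤ Y0) {L t N M : ℕ} (hR : RPL b L Y0 C1)
    (ht : 1 ≤ t) (hM1 : 1 ≤ M) (hev : 2 ∣ t * M) (hM : M ≤ N) {p : ℤ × ℤ}
    (h1 : (t * N : ℕ) ≤ p.1) (h2 : p.1 + (t * N : ℕ) ≤ L) (h3 : (t * N : ℕ) ≤ p.2)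
    (h4 : p.2 + (t * N : ℕ) ≤ L) (hst : Y0 ≤ stiff t b) :
    vS b L (fm t p (bk N)) (pyr (t * M) p) ≤ (stiff t b - Y0) * (4 * ((t * M : ℕ) : ℝ) ^ 2) +
      8 * b * t * ((t * M : ℕ) : ℝ) +
      C1 * (((t * M : ℕ) : ℝ) * Real.sqrt ((t * M : ℕ) : ℝ)) := by
  classical
  have hF : Fam L (fm t p (bk N)) := fm_fam ht (Finset.Subset.refl _) h1 h2 h3 h4
  have hMN : t * M ≤ t * N := Nat.mul_le_mul_left t hM
  have hMN' : ((t * M : ℕ) : ℤ) ≤ ((t * N : ℕ) : ℤ) := by exact_mod_cast hMN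
  have hV := hR (t * M) p (Nat.mul_pos ht hM1) hev (by omega) (by omega) (by omega) (by omega)
  have hn := nS_pyr hF (t * M) p
  have hbd := vS_bound (L := L) hb ht
    (S := fm t p (bk N)) (bad := fm t p ((bk N).filter fun k => nn k = M))
    (fm_mono (Finset.filter_subset _ _)) hF
    (fun q hq => by
      rw [mem_fm] at hq
      obtain ⟨k, -, rfl⟩ := hq
      rfl)
    (g := pyr (t * M) p) (W := 1) (Y0 := Y0)
    (err := C1 * (((t * M : ℕ) : ℝ) * Real.sqrt ((t * M : ℕ) : ℝ)))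
    (fun q _ z _ s => abs_pyr _ _ _ _)
    (fun q hq hq' => by
      rw [mem_fm] at hq
      obtain ⟨k, hk, rfl⟩ := hq
      apply pyr_cst ht
      intro hc
      apply hq'
      rw [mem_fm]
      exact ⟨k, Finset.mem_filter.2 ⟨hk, hc⟩, rfl⟩)
    (by
      rw [cut_pyr ht hM]
      have := mul_le_mul_of_nonneg_left hn hY0
      linarith only [this, hV])
  refine hbd.trans ?_
  have hc : ((fm t p ((bk N).filter fun k => nn k = M)).card : ℝ) ≤ 4 * M := by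
    exact_mod_cast (fm_card _ _ _).trans (rim_card M (bk N))
  have a1 := mul_le_mul_of_nonneg_left hn (sub_nonneg.2 hst)
  have a2 : 2 * b * (t : ℝ) ^ 2 * 1 ^ 2 * ((fm t p ((bk N).filter fun k => nn k = M)).card : ℝ) ≤
      2 * b * (t : ℝ) ^ 2 * 1 ^ 2 * (4 * M) := mul_le_mul_of_nonneg_left hc (by positivity)
  have a3 : 2 * b * (t : ℝ) ^ 2 * 1 ^ 2 * (4 * M) = 8 * b * t * ((t * M : ℕ) : ℝ) := by
    push_cast; ring
  linarith only [a1, a2, a3]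

/-- **`vS` of the frustum** -/
theorem vS_frL {b Y0 C1 : ℝ} (hb : 0 < b) (hY0 : 0 ≤ Y0) (hC1 : 0 ≤ C1) {L t m : ℕ}
    (hR : RPL b L Y0 C1) (ht : 1 ≤ t) (hm : 1 ≤ m) (hev : 2 ∣ t * m) {p : ℤ × ℤ} (hp : Pos L (t * m) p)
    (hst : Y0 ≤ stiff t b) :
    vS b L (Sq1 t m p) (fr t m p) ≤ 40 * (stiff t b - Y0) + 48 * b / m +
      10 * C1 / Real.sqrt ((t * m : ℕ) : ℝ) := by
  have hF := hp.fam ht
  have hres : vS b L (Sq1 t m p) (fr t m p) = vS b L (fm t p (bk (2 * m))) (fr t m p) := by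
    refine vS_restrict hF (Sq1_sub t m p) ?_
    intro q hq hq' z hz s
    rw [mem_fm] at hq
    obtain ⟨k, hk, rfl⟩ := hq
    apply fr_zero
    by_contra hc
    push Not at hc
    apply hq'
    unfold Sq1 Ks
    rw [mem_fm]
    refine ⟨k, Finset.mem_filter.2 ⟨hk, ?_, ?_⟩, rfl⟩
    · exact nn_idx' ht hz hc.1
    · exact nn_idx ht hz hc.2.le
  have hρ1 : 1 ≤ t * m := Nat.mul_pos ht hm
  have hev2 : 2 ∣ t * (2 * m) := ⟨t * m, by ring⟩
  obtain ⟨h1, h2, h3, h4⟩ := hp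
  have e1 : ((t * (2 * m) : ℕ) : ℤ) ≤ ((10 * (t * m) : ℕ) : ℤ) := by
    have : t * (2 * m) ≤ 10 * (t * m) := by nlinarith
    exact_mod_cast this
  have v2 := vS_pyrL (L := L) (N := 2 * m) (M := 2 * m) hb hY0 hR ht (by omega) hev2 le_rfl
    (p := p) (by omega) (by omega) (by omega) (by omega) hst
  have v1 := vS_pyrL (L := L) (N := 2 * m) (M := m) hb hY0 hR ht hm hev (by omega)
    (p := p) (by omega) (by omega) (by omega) (by omega) hst
  have hsub := vS_sub_le hb.le hF (pyr (t * (2 * m)) p) (pyr (t * m) p)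
  rw [hres]
  unfold fr
  rw [vS_smul]
  obtain ⟨ρ, hρ⟩ : ∃ ρ : ℝ, ρ = ((t * m : ℕ) : ℝ) := ⟨_, rfl⟩
  have hρ0 : 1 ≤ ρ := by rw [hρ]; exact_mod_cast hρ1
  have e2 : ((t * (2 * m) : ℕ) : ℝ) = 2 * ρ := by rw [hρ]; push_cast; ring
  rw [e2] at v2
  rw [← hρ] at v1 ⊢
  have hm0 : (0 : ℝ) < m := by exact_mod_cast hm
  have ht0 : (0 : ℝ) < t := by exact_mod_cast ht
  have htm : (t : ℝ) = ρ / m := by rw [hρ]; push_cast; field_simp
  have hsq := sqrt_mul_le (c := 2) (d := 2) (r := ρ) (by norm_num) (by norm_num) (by linarith)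
  obtain ⟨x, hx⟩ : ∃ x : ℝ, x = Real.sqrt ρ := ⟨_, rfl⟩
  have hx0 : 0 < x := by rw [hx]; exact Real.sqrt_pos.2 (by linarith)
  have hxx : x * x = ρ := by rw [hx]; exact Real.mul_self_sqrt (by linarith)
  rw [← hx] at v1 hsq ⊢
  have c1 : C1 * (2 * ρ * Real.sqrt (2 * ρ)) ≤ C1 * (2 * ρ * (2 * x)) := by
    refine mul_le_mul_of_nonneg_left (mul_le_mul_of_nonneg_left hsq (by linarith)) hC1
  have key : 2 * vS b L (fm t p (bk (2 * m))) (pyr (t * (2 * m)) p) +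
      2 * vS b L (fm t p (bk (2 * m))) (pyr (t * m) p) ≤
      ρ ^ 2 * (40 * (stiff t b - Y0) + 48 * b / m + 10 * C1 / x) := by
    have e3 : ρ ^ 2 * (40 * (stiff t b - Y0) + 48 * b / m + 10 * C1 / x) =
        40 * (stiff t b - Y0) * ρ ^ 2 + 48 * b * (ρ / m) * ρ + 10 * C1 * ρ * x := by
      rw [← hxx]
      field_simp
    rw [e3, ← htm]
    linarith only [v1, v2, c1]
  have h5 : 0 < ρ := by linarith
  calc (1 / ρ) ^ 2 * vS b L (fm t p (bk (2 * m))) (pyr (t * (2 * m)) p + (-1 : ℝ) • pyr (t * m) p)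
      ≤ (1 / ρ) ^ 2 * (ρ ^ 2 * (40 * (stiff t b - Y0) + 48 * b / m + 10 * C1 / x)) :=
        mul_le_mul_of_nonneg_left (hsub.trans key) (by positivity)
    _ = _ := by field_simp

/-- **deficits on the squares of the test** -/
theorem D_frL {b Y0 C1 : ℝ} (hb : 0 < b) (hY0 : 0 ≤ Y0) (hC1 : 0 ≤ C1) {L t m : ℕ}
    (hR : RPL b L Y0 C1) (ht : 1 ≤ t) (hm : 1 ≤ m) {p : ℤ × ℤ} (hp : Pos L (t * m) p)
    (hst : Y0 ≤ stiff t b) :
    ∑ q ∈ Sq1 t m p, Ev b L 0 (dfc b q.1 q.2 (hh + vv)) +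
        ∑ q ∈ Sq1 t m p, Ev b L 0 (dfc b q.1 q.2 (hh + (-1 : ℝ) • vv)) ≤
      ((t * m : ℕ) : ℝ) ^ 2 * (512 * (stiff t b - Y0) + 128 * b / m +
        48 * C1 / Real.sqrt ((t * m : ℕ) : ℝ)) := by
  obtain ⟨h1, h2, h3, h4⟩ := hp
  have e8 : t * (8 * m) = 8 * (t * m) := by ring
  have hev8 : 2 ∣ t * (8 * m) := ⟨4 * (t * m), by ring⟩
  have hρ1 : 1 ≤ t * m := Nat.mul_pos ht hm
  obtain ⟨ρ, hρ⟩ : ∃ ρ : ℝ, ρ = ((t * m : ℕ) : ℝ) := ⟨_, rfl⟩
  have hρ0 : 1 ≤ ρ := by rw [hρ]; exact_mod_cast hρ1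
  have hm0 : (0 : ℝ) < m := by exact_mod_cast hm
  have ht0 : (0 : ℝ) < t := by exact_mod_cast ht
  have htm : (t : ℝ) = ρ / m := by rw [hρ]; push_cast; field_simp
  have hsq := sqrt_mul_le (c := 8) (d := 3) (r := ρ) (by norm_num) (by norm_num) (by linarith)
  obtain ⟨x, hx⟩ : ∃ x : ℝ, x = Real.sqrt ρ := ⟨_, rfl⟩
  have hx0 : 0 < x := by rw [hx]; exact Real.sqrt_pos.2 (by linarith)
  have hxx : x * x = ρ := by rw [hx]; exact Real.mul_self_sqrt (by linarith)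
  have e8' : ((t * (8 * m) : ℕ) : ℝ) = 8 * ρ := by rw [hρ, e8]; push_cast; ring
  -- one auxiliary pyramid
  have aux : ∀ p' : ℤ × ℤ, ((t * (8 * m) : ℕ) : ℤ) ≤ p'.1 → p'.1 + ((t * (8 * m) : ℕ) : ℤ) ≤ L →
      ((t * (8 * m) : ℕ) : ℤ) ≤ p'.2 → p'.2 + ((t * (8 * m) : ℕ) : ℤ) ≤ L →
      vS b L (fm t p' (bk (8 * m))) (pyr (t * (8 * m)) p') ≤
        ρ ^ 2 * (256 * (stiff t b - Y0) + 64 * b / m + 24 * C1 / x) := by
    intro p' g1 g2 g3 g4
    have v := vS_pyrL (L := L) (N := 8 * m) (M := 8 * m) hb hY0 hR ht (by omega) hev8 le_rfl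
      (p := p') g1 g2 g3 g4 hst
    rw [e8'] at v
    rw [← hx] at hsq
    have c1 : C1 * (8 * ρ * Real.sqrt (8 * ρ)) ≤ C1 * (8 * ρ * (3 * x)) := by
      refine mul_le_mul_of_nonneg_left (mul_le_mul_of_nonneg_left hsq (by linarith)) hC1
    have e3 : ρ ^ 2 * (256 * (stiff t b - Y0) + 64 * b / m + 24 * C1 / x) =
        256 * (stiff t b - Y0) * ρ ^ 2 + 64 * b * (ρ / m) * ρ + 24 * C1 * ρ * x := by
      rw [← hxx]
      field_simp
    rw [e3, ← htm]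
    linarith only [v, c1]
  obtain ⟨M2, hM2⟩ : ∃ M2 : ℤ, M2 = ((2 * m : ℕ) : ℤ) := ⟨_, rfl⟩
  have hcor : (t : ℤ) * M2 = 2 * ((t * m : ℕ) : ℤ) := by rw [hM2]; push_cast; ring
  -- the first auxiliary pyramid
  obtain ⟨p1, hp1⟩ : ∃ p1 : ℤ × ℤ, p1 = p - cor t (M2, M2) := ⟨_, rfl⟩
  obtain ⟨p2, hp2⟩ : ∃ p2 : ℤ × ℤ, p2 = p - cor t (-M2, M2) := ⟨_, rfl⟩
  have c11 : p1.1 = p.1 - 2 * ((t * m : ℕ) : ℤ) := by
    rw [hp1, Prod.fst_sub]; unfold cor; simp only; rw [hcor]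
  have c12 : p1.2 = p.2 - 2 * ((t * m : ℕ) : ℤ) := by
    rw [hp1, Prod.snd_sub]; unfold cor; simp only; rw [hcor]
  have c21 : p2.1 = p.1 + 2 * ((t * m : ℕ) : ℤ) := by
    rw [hp2, Prod.fst_sub]; unfold cor; simp only; rw [mul_neg, hcor]; ring
  have c22 : p2.2 = p.2 - 2 * ((t * m : ℕ) : ℤ) := by
    rw [hp2, Prod.snd_sub]; unfold cor; simp only; rw [hcor]
  have e10 : ((10 * (t * m) : ℕ) : ℤ) = 10 * ((t * m : ℕ) : ℤ) := by push_cast; ring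
  have e8z : ((t * (8 * m) : ℕ) : ℤ) = 8 * ((t * m : ℕ) : ℤ) := by push_cast; ring
  rw [e10] at h1 h2 h3 h4
  have hF1 : Fam L (fm t p1 (bk (8 * m))) :=
    fm_fam ht (Finset.Subset.refl _) (by rw [e8z, c11]; omega) (by rw [e8z, c11]; omega)
      (by rw [e8z, c12]; omega) (by rw [e8z, c12]; omega)
  have hF2 : Fam L (fm t p2 (bk (8 * m))) :=
    fm_fam ht (Finset.Subset.refl _) (by rw [e8z, c21]; omega) (by rw [e8z, c21]; omega)
      (by rw [e8z, c22]; omega) (by rw [e8z, c22]; omega)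
  have a1 := aux p1 (by rw [e8z, c11]; omega) (by rw [e8z, c11]; omega)
      (by rw [e8z, c12]; omega) (by rw [e8z, c12]; omega)
  have a2 := aux p2 (by rw [e8z, c21]; omega) (by rw [e8z, c21]; omega)
      (by rw [e8z, c22]; omega) (by rw [e8z, c22]; omega)
  have hk1 : ∀ k : ℤ × ℤ, p + cor t k = p1 + cor t (k + (M2, M2)) := by
    intro k
    rw [cor_add, hp1]
    abel
  have hk2 : ∀ k : ℤ × ℤ, p + cor t k = p2 + cor t (k + (-M2, M2)) := by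
    intro k
    rw [cor_add, hp2]
    abel
  have hin : ∀ k ∈ Ks m, (-M2 ≤ k.1 ∧ k.1 < M2) ∧ (-M2 ≤ k.2 ∧ k.2 < M2) := by
    intro k hk
    unfold Ks at hk
    rw [Finset.mem_filter, mem_bk] at hk
    rw [hM2]
    exact hk.1
  have hM8 : ((8 * m : ℕ) : ℤ) = 4 * M2 := by rw [hM2]; push_cast; ring
  have hM0 : 1 ≤ M2 := by rw [hM2]; push_cast; omega
  -- signs and positions of the shifted indices
  have f1 : ∀ k ∈ Ks m, nn (k + (M2, M2)) < ((8 * m : ℕ) : ℤ) ∧ sg (k + (M2, M2)).1 = 1 ∧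
      sg (k + (M2, M2)).2 = 1 := by
    intro k hk
    obtain ⟨⟨b1, b2⟩, b3, b4⟩ := hin k hk
    rw [hM8]
    unfold nn sg
    simp only [Prod.fst_add, Prod.snd_add]
    rw [if_pos (by omega), if_pos (by omega)]
    exact ⟨by omega, by rw [if_pos (by omega)], by rw [if_pos (by omega)]⟩
  have f2 : ∀ k ∈ Ks m, nn (k + (-M2, M2)) < ((8 * m : ℕ) : ℤ) ∧ sg (k + (-M2, M2)).1 = -1 ∧
      sg (k + (-M2, M2)).2 = 1 := by
    intro k hk
    obtain ⟨⟨b1, b2⟩, b3, b4⟩ := hin k hk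
    rw [hM8]
    unfold nn sg
    simp only [Prod.fst_add, Prod.snd_add]
    rw [if_neg (by omega), if_pos (by omega)]
    exact ⟨by omega, by rw [if_neg (by omega)], by rw [if_pos (by omega)]⟩
  have d1 : ∑ q ∈ Sq1 t m p, Ev b L 0 (dfc b q.1 q.2 (hh + (-1 : ℝ) • vv)) ≤
      vS b L (fm t p1 (bk (8 * m))) (pyr (t * (8 * m)) p1) := by
    refine dfc_aux hb.le hF1 ?_ (k := fun q => hh + (-1 : ℝ) • vv) ?_
    · intro q hq
      unfold Sq1 at hq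
      rw [mem_fm] at hq ⊢
      obtain ⟨k, hk, rfl⟩ := hq
      exact ⟨k + (M2, M2), bk_of_nn (f1 k hk).1.le, by rw [hk1 k]⟩
    · intro q hq
      unfold Sq1 at hq
      rw [mem_fm] at hq
      obtain ⟨k, hk, rfl⟩ := hq
      obtain ⟨g1, g2, g3⟩ := f1 k hk
      left
      show rs t (p + cor t k) _ = _
      rw [hk1 k, pyr_in ht g1, g2, g3]
      simp
  have d2 : ∑ q ∈ Sq1 t m p, Ev b L 0 (dfc b q.1 q.2 (hh + vv)) ≤
      vS b L (fm t p2 (bk (8 * m))) (pyr (t * (8 * m)) p2) := by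
    refine dfc_aux hb.le hF2 ?_ (k := fun q => hh + vv) ?_
    · intro q hq
      unfold Sq1 at hq
      rw [mem_fm] at hq ⊢
      obtain ⟨k, hk, rfl⟩ := hq
      exact ⟨k + (-M2, M2), bk_of_nn (f2 k hk).1.le, by rw [hk2 k]⟩
    · intro q hq
      unfold Sq1 at hq
      rw [mem_fm] at hq
      obtain ⟨k, hk, rfl⟩ := hq
      obtain ⟨g1, g2, g3⟩ := f2 k hk
      left
      show rs t (p + cor t k) _ = _
      rw [hk2 k, pyr_in ht g1, g2, g3]
      simp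
  rw [← hρ, ← hx]
  have e9 : ρ ^ 2 * (512 * (stiff t b - Y0) + 128 * b / m + 48 * C1 / x) =
      2 * (ρ ^ 2 * (256 * (stiff t b - Y0) + 64 * b / m + 24 * C1 / x)) := by ring
  rw [e9]
  linarith only [a1, a2, d1, d2]

/-- **test theorem for one test and one vortex** -/
theorem test_locL (B : ℝ) (hB : 0 < B) : ∃ C s0 m0 : ℝ, 0 ≤ C ∧ 8 ≤ m0 ∧ ∀ b : ℝ, 0 < b → b ≤ B →
    ∀ Y0 C1 : ℝ, 0 ≤ Y0 → 0 ≤ C1 → ∀ (L t m : ℕ) (P : ℂ) (w p : ℤ × ℤ), RPL b L Y0 C1 → 1 ≤ t →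
      Loc L (t * m) P w p → 2 ∣ t * m → m0 ≤ m → s0 ≤ ((t * m : ℕ) : ℝ) → Y0 ≤ stiff t b →
      ∀ v : ℝ, ((4 * nn (w - p) ≤ ((t * m : ℕ) : ℤ) ∧ v = 2 * Real.pi * stiff t b) ∨
        (9 * ((t * m : ℕ) : ℤ) ≤ 4 * nn (w - p) ∧ v = 0)) →
      ∃ G : Ginf → ℝ, Continuous G ∧ (∀ x, 0 ≤ G x) ∧
        (∀ x, 1 < |H282.TT b (Sq1 t m p) (fr t m p) (x + ang L P) - v| → 1 ≤ G x) ∧
        Ev b L 0 G ≤ C * (1 + C1) * ((stiff t b - Y0) + 1 / m +
          1 / Real.sqrt ((t * m : ℕ) : ℝ)) := by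
  obtain ⟨C0, s1, hC0, hs1, hgeo⟩ := H529.geo_inc'
  obtain ⟨C, hC, hT⟩ := test_T B hB
  refine ⟨720 + 32768 * C0 ^ 2 + (864 * B + 8192 * B * C0 ^ 2 +
    4 * C * (4608 * C0 ^ 2 + 608 * C0)) + (180 + 3072 * C0 ^ 2), max (4 * s1) (192 * B * C0),
    max 8 (4 * C0), by positivity, le_max_left _ _, ?_⟩
  intro b hb hbB Y0 C1 hY0 hC1 L t m P w p hR ht hloc hev hm hs hst v hv
  have hm8 : (8 : ℝ) ≤ m := (le_max_left _ _).trans hm
  have hm8' : 8 ≤ m := by exact_mod_cast hm8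
  have hmC : 4 * C0 ≤ m := (le_max_right _ _).trans hm
  have hs4 : 4 * s1 ≤ ((t * m : ℕ) : ℝ) := (le_max_left _ _).trans hs
  have hsB : 192 * B * C0 ≤ ((t * m : ℕ) : ℝ) := (le_max_right _ _).trans hs
  have hw : 4 * nn (w - p) ≤ ((t * m : ℕ) : ℤ) ∨ 9 * ((t * m : ℕ) : ℤ) ≤ 4 * nn (w - p) := by
    rcases hv with hv | hv
    · exact Or.inl hv.1
    · exact Or.inr hv.1
  have hbd := fun q hq => hloc.inc_bd hgeo ht hm8' hs4 hw (q := q) hq
  obtain ⟨ρ, hρ⟩ : ∃ ρ : ℝ, ρ = ((t * m : ℕ) : ℝ) := ⟨_, rfl⟩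
  have hm0 : (0 : ℝ) < m := by linarith
  have ht0 : (0 : ℝ) < t := by exact_mod_cast ht
  have hρtm : ρ = t * m := by rw [hρ]; push_cast; ring
  have hρ0 : 0 < ρ := by rw [hρtm]; positivity
  have htm : (t : ℝ) = ρ / m := by rw [hρtm]; field_simp
  have hC00 : 0 < C0 := by linarith
  have hF := hloc.pos.fam1 ht
  have hV := vS_frL hb hY0 hC1 hR ht (by omega) hev hloc.pos hst
  have hD := D_frL hb hY0 hC1 hR ht (by omega) hloc.pos hst
  have hcirc := hloc.circ ht (by omega) (fun q hq => (hbd q hq).2.1)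
  rw [← hρ] at hV hD hcirc hsB hbd ⊢
  obtain ⟨x, hx⟩ : ∃ x : ℝ, x = Real.sqrt ρ := ⟨_, rfl⟩
  have hx0 : 0 < x := by rw [hx]; exact Real.sqrt_pos.2 hρ0
  rw [← hx] at hV hD ⊢
  obtain ⟨S, hS⟩ : ∃ S : ℝ, S = stiff t b - Y0 := ⟨_, rfl⟩
  have hS0 : 0 ≤ S := by rw [hS]; linarith
  rw [← hS] at hV hD ⊢
  obtain ⟨G, G1, G2, G3, G4⟩ := hT b hb hbB L t (Sq1 t m p) (bad1 t m p) ht (bad1_sub t m p) hF
    (fun q hq => Sq1_side hq) (ang L P) (AA L P) (fr t m p) (2 / ρ) (4 * C0 / ρ)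
    (16 * C0 * t / ρ ^ 2) (40 * S + 48 * b / m + 10 * C1 / x)
    (ρ ^ 2 * (512 * S + 128 * b / m + 48 * C1 / x)) (1 / 2) (by norm_num) (by positivity)
    (by positivity) (by positivity)
    (by
      rw [htm]
      have : ρ / m * (4 * C0 / ρ) = 4 * C0 / m := by field_simp
      rw [this, div_le_one hm0]
      exact hmC)
    (fun q hq => (hbd q hq).1) (fun q hq => (hbd q hq).2.1) (fun q hq => (hbd q hq).2.2)
    (fun q hq z _ s => by rw [hρ]; exact fr_abs t m p s z)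
    (fun q hq hq' => by rw [hρ]; exact fr_cst' ht hq hq') hV hD
  refine ⟨G, G1, G2, ?_, G4.trans ?_⟩
  · intro y hy
    apply G3
    -- the value of the mean
    have hval : |stiff t b * nS (Sq1 t m p) (fr t m p) (AA L P) - v| ≤ 1 / 2 := by
      have hst0 := stiff_nonneg' hb.le ht
      have hstb := h3_stiff_le hb ht
      have h1 : v = stiff t b * (2 * Real.pi * (((psi (t * (2 * m)) (w - p) : ℝ) -
          psi (t * m) (w - p)) / ρ)) := by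
        rcases hv with ⟨h2, h3⟩ | ⟨h2, h3⟩
        · rw [psi_in (by
            have hnn := nn_pos (w - p)
            omega), ← hρ, div_self hρ0.ne', h3]
          ring
        · rw [psi_out (by
            have : ((t * (2 * m) : ℕ) : ℤ) = 2 * ((t * m : ℕ) : ℤ) := by push_cast; ring
            omega), h3]
          simp
      rw [h1, ← mul_sub, abs_mul, abs_of_nonneg hst0]
      calc _ ≤ B * (24 * (4 * C0 / ρ)) :=
            mul_le_mul (hstb.trans hbB) hcirc (abs_nonneg _) hB.le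
        _ = (96 * B * C0) / ρ := by ring
        _ ≤ 1 / 2 := by
            rw [div_le_iff₀ hρ0]
            linarith
    have h4 := abs_add_le (H282.TT b (Sq1 t m p) (fr t m p) (y + ang L P) -
      stiff t b * nS (Sq1 t m p) (fr t m p) (AA L P))
      (stiff t b * nS (Sq1 t m p) (fr t m p) (AA L P) - v)
    rw [sub_add_sub_cancel] at h4
    linarith
  · have c1 : ((Sq1 t m p).card : ℝ) ≤ 16 * (m : ℝ) ^ 2 := by exact_mod_cast Sq1_card t m p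
    have c2 : ((bad1 t m p).card : ℝ) ≤ 12 * (m : ℝ) := by exact_mod_cast bad1_card t m p
    have hm1 : (1 : ℝ) ≤ m := by linarith
    have d1 : ((Sq1 t m p).card : ℝ) * ((t : ℝ) ^ 2 * (16 * C0 * t / ρ ^ 2) ^ 2 +
        (t : ℝ) ^ 3 * (2 / ρ) * (4 * C0 / ρ) ^ 2 + (t : ℝ) ^ 2 * (2 / ρ) * (16 * C0 * t / ρ ^ 2)) ≤
        (4608 * C0 ^ 2 + 512 * C0) / m := by
      refine (mul_le_mul_of_nonneg_right c1 (by positivity)).trans ?_
      have e1 : 16 * (m : ℝ) ^ 2 * ((t : ℝ) ^ 2 * (16 * C0 * t / ρ ^ 2) ^ 2 +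
        (t : ℝ) ^ 3 * (2 / ρ) * (4 * C0 / ρ) ^ 2 + (t : ℝ) ^ 2 * (2 / ρ) * (16 * C0 * t / ρ ^ 2)) =
          (4096 * C0 ^ 2 / m + (512 * C0 ^ 2 + 512 * C0)) / m := by
        rw [htm]
        field_simp
        ring
      rw [e1]
      apply div_le_div_of_nonneg_right _ hm0.le
      have : 4096 * C0 ^ 2 / m ≤ 4096 * C0 ^ 2 := div_le_self (by positivity) hm1
      linarith
    have d2 : ((bad1 t m p).card : ℝ) * ((t : ℝ) ^ 2 * (2 / ρ) * (4 * C0 / ρ)) ≤ 96 * C0 / m := by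
      refine (mul_le_mul_of_nonneg_right c2 (by positivity)).trans (le_of_eq ?_)
      rw [htm]
      field_simp
      ring
    have d3 : (4 * C0 / ρ) ^ 2 * (ρ ^ 2 * (512 * S + 128 * b / m + 48 * C1 / x)) =
        16 * C0 ^ 2 * (512 * S + 128 * b / m + 48 * C1 / x) := by
      field_simp
      norm_num
    have d4 := add_le_add d1 d2
    have d5 := mul_le_mul_of_nonneg_left d4 hC
    have d6 : C * ((4608 * C0 ^ 2 + 512 * C0) / m + 96 * C0 / m) =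
        C * (4608 * C0 ^ 2 + 608 * C0) / m := by ring
    rw [d6] at d5
    rw [d3]
    have k1 : 4 / (1 / 2 : ℝ) ^ 2 = 16 := by norm_num
    have k2 : 2 / (1 / 2 : ℝ) = 4 := by norm_num
    rw [k1, k2]
    have hb1 : b / m ≤ B / m := div_le_div_of_nonneg_right hbB hm0.le
    have f1 : 48 * b / m ≤ 48 * B / m := div_le_div_of_nonneg_right (by linarith) hm0.le
    have f2 : 128 * b / m ≤ 128 * B / m := div_le_div_of_nonneg_right (by linarith) hm0.le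
    have f3 := mul_le_mul_of_nonneg_left f2 (show 0 ≤ 16 * C0 ^ 2 by positivity)
    have g1 : (0 : ℝ) ≤ 1 / m := by positivity
    have g2 : (0 : ℝ) ≤ 1 / x := by positivity
    obtain ⟨K, hK⟩ : ∃ K : ℝ, K = 720 + 32768 * C0 ^ 2 + (864 * B + 8192 * B * C0 ^ 2 +
      4 * C * (4608 * C0 ^ 2 + 608 * C0)) + (180 + 3072 * C0 ^ 2) := ⟨_, rfl⟩
    have u1 : 720 + 32768 * C0 ^ 2 ≤ K := by
      rw [hK]
      have : 0 ≤ 864 * B + 8192 * B * C0 ^ 2 + 4 * C * (4608 * C0 ^ 2 + 608 * C0) := by positivity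
      nlinarith only [this, sq_nonneg C0]
    have u2 : 864 * B + 8192 * B * C0 ^ 2 + 4 * C * (4608 * C0 ^ 2 + 608 * C0) ≤ K := by
      rw [hK]
      nlinarith only [sq_nonneg C0]
    have u3 : 180 + 3072 * C0 ^ 2 ≤ K := by
      rw [hK]
      have : 0 ≤ 864 * B + 8192 * B * C0 ^ 2 + 4 * C * (4608 * C0 ^ 2 + 608 * C0) := by positivity
      nlinarith only [this, sq_nonneg C0]
    rw [← hK]
    have hK0 : 0 ≤ K := le_trans (by positivity) u1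
    have w1 := mul_le_mul_of_nonneg_right u1 hS0
    have w2 := mul_le_mul_of_nonneg_right u2 g1
    have w3 := mul_le_mul_of_nonneg_right u3 (show 0 ≤ C1 * (1 / x) by positivity)
    have w4 : 0 ≤ K * C1 * (S + 1 / m) := by positivity
    have w5 : 0 ≤ K * (1 / x) := by positivity
    have t1 : 16 * (40 * S + 48 * b / m + 10 * C1 / x) + 4 * ((40 * S + 48 * b / m +
        10 * C1 / x) / 2 + 16 * C0 ^ 2 * (512 * S + 128 * b / m + 48 * C1 / x) +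
        C * (4608 * C0 ^ 2 + 608 * C0) / m) ≤
        (720 + 32768 * C0 ^ 2) * S + (864 * B + 8192 * B * C0 ^ 2 +
        4 * C * (4608 * C0 ^ 2 + 608 * C0)) * (1 / m) + (180 + 3072 * C0 ^ 2) *
        (C1 * (1 / x)) := by
      have r1 : (720 + 32768 * C0 ^ 2) * S + (864 * B + 8192 * B * C0 ^ 2 +
        4 * C * (4608 * C0 ^ 2 + 608 * C0)) * (1 / m) + (180 + 3072 * C0 ^ 2) *
        (C1 * (1 / x)) = 16 * (40 * S + 48 * B / m + 10 * C1 / x) + 4 * ((40 * S + 48 * B / m +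
        10 * C1 / x) / 2 + (16 * C0 ^ 2 * (512 * S + 48 * C1 / x) + 16 * C0 ^ 2 * (128 * B / m)) +
        C * (4608 * C0 ^ 2 + 608 * C0) / m) := by ring
      rw [r1]
      linarith only [f1, f3]
    linarith only [t1, d5, w1, w2, w3, w4, w5]

end Vale.Agent.P159.UJ.H253.Ex
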