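import Vale.Agent.P159.H282.ExOver
import Vale.Agent.P159.H282.OneG

/-!
# One group of scales, with a general baseline
-/

set_option linter.all false

open MeasureTheory Filter Topology
open scoped BigOperators

namespace Vale.Agent.P159.UJ.H282.Ex

/-- Abel summation of the logarithmic term -/
theorem sum_log_le' {x : ℕ → ℝ} (n : ℕ) (hx : ∀ k, k ≤ n + 1 → 0 ≤ x k) :
    ∑ k ∈ Finset.range (n + 1), (x k - x (k + 1)) * Real.log ((k : ℝ) + 3) +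
      x (n + 1) * Real.log ((n : ℝ) + 3) ≤
      (Real.log 3 + 1) * ∑ k ∈ Finset.range (n + 1), x k := by
  have h := sum_log_le (x := fun k => max (x k) 0) (fun k => le_max_right _ _) n
  have e : ∀ k, k ≤ n + 1 → max (x k) 0 = x k := fun k hk => max_eq_left (hx k hk)
  rw [e (n + 1) le_rfl] at h
  have e1 : ∑ k ∈ Finset.range (n + 1), (max (x k) 0 - max (x (k + 1)) 0) *
      Real.log ((k : ℝ) + 3) =
      ∑ k ∈ Finset.range (n + 1), (x k - x (k + 1)) * Real.log ((k : ℝ) + 3) := by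
    refine Finset.sum_congr rfl fun k hk => ?_
    rw [Finset.mem_range] at hk
    rw [e k (by omega), e (k + 1) (by omega)]
  have e2 : ∑ k ∈ Finset.range (n + 1), max (x k) 0 = ∑ k ∈ Finset.range (n + 1), x k := by
    refine Finset.sum_congr rfl fun k hk => ?_
    rw [Finset.mem_range] at hk
    rw [e k (by omega)]
  rw [e1, e2] at h
  exact h

/-- **one group of scales** -/
theorem one_groupL (B : ℝ) (hB : 0 < B) : ∃ c0 s0 : ℝ, 0 < c0 ∧ 2 ≤ s0 ∧ ∀ b : ℝ, 0 < b → b ≤ B →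
    ∀ (l0 a n : ℕ) (Y0 : ℝ), 1 ≤ l0 → 1 ≤ a → 4 ≤ n → s0 ≤ ((l0 * 2 ^ a : ℕ) : ℝ) →
    (∀ k, k ≤ n → Y0 ≤ stiff (l0 * 2 ^ k) b) →
    ∑ k ∈ Finset.range n, (stiff (l0 * 2 ^ k) b - Y0) ≤ 1 →
    ∀ {κ : Type*} (I : Finset (ℕ × ℕ)), (∀ w ∈ I, w.1 < 2 ^ (n - 3) ∧ w.2 < 2 ^ (n - 3)) →
    ∀ (Q : ℕ × ℕ → Finset κ) (Tq : κ → Ginf → ℝ) (c : ℕ × ℕ → κ → ℝ),
    (∀ w ∈ I, ∀ q ∈ Q w, Continuous (Tq q)) →
    (∀ w ∈ I, ∀ q ∈ Q w, ∀ x, Tq q (-x) = -Tq q x) →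
    (∀ w ∈ I, ∀ q ∈ Q w, ∀ p ∈ H529.gt l0 a n w.1 w.2, ∀ x y,
      Tq q (x + PB p.1 p.2 y) = Tq q x) →
    (∀ w ∈ I, ∀ w' ∈ I, w ≠ w' → ∃ q, q ∈ Q w ∧ q ∈ Q w' ∧ 3 ≤ |c w q - c w' q|) →
    ∀ (ε : ℕ × ℕ → κ → ℝ),
    (∀ w ∈ I, ∀ q ∈ Q w, ∃ G : Ginf → ℝ, Continuous G ∧ (∀ x, 0 ≤ G x) ∧
      (∀ x, 1 < |Tq q (x + H529.alq (l0 * 2 ^ a) n w.1 w.2) - c w q| → 1 ≤ G x) ∧
      Ev b (l0 * 2 ^ a * 2 ^ n) 0 G ≤ ε w q) →
    (∀ w ∈ I, ∑ q ∈ Q w, ε w q ≤ 1 / 4) →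
    c0 * (I.card / 4 ^ n) * Real.exp (n * (Real.log 2 * (2 - Real.pi * Y0))) *
      yy b (l0 * 2 ^ a) ≤ yy b (l0 * 2 ^ a * 2 ^ n) := by
  obtain ⟨C, s0, hC, hs0, hgr⟩ := H529.graded_all B hB
  have hpi := Real.pi_pos
  have hlog2 : 0 < Real.log 2 := Real.log_pos one_lt_two
  obtain ⟨D, hD⟩ : ∃ D, D = Real.pi * Real.log 2 + 2 * Real.pi * (Real.log 3 + 1) + C := ⟨_, rfl⟩
  refine ⟨1 / 2 * Real.exp (-D), s0, by positivity, hs0, ?_⟩
  intro b hb hbB l0 a n Y0 hl ha hn hs hst hsum κ I hI Q Tq c hc hodd hsk hsep ε hG hε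
  obtain ⟨s, hsd⟩ : ∃ s, s = l0 * 2 ^ a := ⟨_, rfl⟩
  have hs1 : 2 ≤ s := by
    have : (2 : ℝ) ≤ ((l0 * 2 ^ a : ℕ) : ℝ) := hs0.trans hs
    rw [hsd]
    exact_mod_cast this
  have hL4 : 4 ≤ s * 2 ^ n := by
    have h1 : 2 ^ 4 ≤ 2 ^ n := Nat.pow_le_pow_right (by norm_num) hn
    nlinarith only [h1, hs1]
  have h1 := over_tests hb.le (L := s * 2 ^ n) I (fun w => H529.gt l0 a n w.1 w.2) (by
      intro w hw
      rw [hsd]
      exact H529.gt_tl hl) (ang (s * 2 ^ n) 0) (fun w => H529.alq s n w.1 w.2) (by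
      intro w hw z hz
      refine H529.alq_bdry hL4 w.1 w.2 ?_
      unfold inB at hz
      intro h2
      apply hz
      show z - 0 ∈ (inner (s * 2 ^ n) : Set (ℤ × ℤ))
      rw [sub_zero]
      exact h2) Q Tq c hc hodd hsk hsep ε (by
      intro w hw q hq
      rw [hsd]
      exact hG w hw q hq) hε
  -- the energy
  have h2 : ∀ w ∈ I, Real.exp (-D) / 4 ^ n * Real.exp (n * (Real.log 2 * (2 - Real.pi * Y0))) *
      yy b s ≤
      ∏ p ∈ H529.gt l0 a n w.1 w.2, WB b p.1 p.2 (H529.alq s n w.1 w.2) / WB b p.1 p.2 0 := by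
    intro w hw
    have h3 := hgr b hb hbB l0 a n w.1 w.2 hl ha hn (hI w hw).1 (hI w hw).2 hs
    rw [← hsd] at h3
    refine le_trans (mul_le_mul_of_nonneg_right ?_ (yy_nonneg b _)) h3
    obtain ⟨x, hx⟩ : ∃ x : ℕ → ℝ, x = fun k => stiff (l0 * 2 ^ k) b - Y0 := ⟨_, rfl⟩
    have hx0 : ∀ k, k ≤ n → 0 ≤ x k := fun k hk => by rw [hx]; exact sub_nonneg.2 (hst k hk)
    have e1 : ∑ k ∈ Finset.range n, stiff (l0 * 2 ^ k) b =
        ∑ k ∈ Finset.range n, x k + n * Y0 := by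
      rw [hx]
      simp only [Finset.sum_sub_distrib, Finset.sum_const, Finset.card_range, nsmul_eq_mul]
      ring
    have e2 : ∑ k ∈ Finset.range n, (stiff (l0 * 2 ^ k) b - stiff (l0 * 2 ^ (k + 1)) b) *
        Real.log ((k : ℝ) + 3) = ∑ k ∈ Finset.range n, (x k - x (k + 1)) *
        Real.log ((k : ℝ) + 3) := by
      refine Finset.sum_congr rfl fun k _ => ?_
      rw [hx]
      ring
    have hsx : ∑ k ∈ Finset.range n, x k ≤ 1 := by rw [hx]; exact hsum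
    have h4 : ∑ k ∈ Finset.range n, (x k - x (k + 1)) * Real.log ((k : ℝ) + 3) ≤
        Real.log 3 + 1 := by
      obtain ⟨m, rfl⟩ : ∃ m, n = m + 1 := ⟨n - 1, by omega⟩
      have h5 := sum_log_le' m hx0
      have h6 : 0 ≤ x (m + 1) * Real.log ((m : ℝ) + 3) :=
        mul_nonneg (hx0 _ le_rfl) (Real.log_nonneg (by
          have := Nat.cast_nonneg (α := ℝ) m
          linarith only [this]))
      have h7 : (Real.log 3 + 1) * ∑ k ∈ Finset.range (m + 1), x k ≤ (Real.log 3 + 1) * 1 := by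
        refine mul_le_mul_of_nonneg_left hsx ?_
        have := Real.log_nonneg (show (1 : ℝ) ≤ 3 by norm_num)
        linarith only [this]
      linarith only [h5, h6, h7]
    have e3 : (4 : ℝ) ^ n = Real.exp (n * (2 * Real.log 2)) := by
      have : Real.log 4 = 2 * Real.log 2 := by
        rw [show (4 : ℝ) = 2 ^ 2 by norm_num, Real.log_pow]; norm_num
      rw [← this, mul_comm, Real.exp_mul, Real.exp_log (by norm_num), Real.rpow_natCast]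
    rw [e3, ← Real.exp_sub, ← Real.exp_add, Real.exp_le_exp, e1, e2, hD]
    have h8 := mul_le_mul_of_nonneg_left hsx (show 0 ≤ Real.pi * Real.log 2 by positivity)
    have h9 := mul_le_mul_of_nonneg_left h4 (show 0 ≤ 2 * Real.pi by positivity)
    have h10 : Real.pi * Real.log 2 * (∑ k ∈ Finset.range n, x k + n * Y0) =
        Real.pi * Real.log 2 * ∑ k ∈ Finset.range n, x k +
          n * (Real.log 2 * (Real.pi * Y0)) := by ring
    have h11 : (n : ℝ) * (Real.log 2 * (2 - Real.pi * Y0)) = n * (2 * Real.log 2) -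
        n * (Real.log 2 * (Real.pi * Y0)) := by ring
    rw [h10, h11]
    linarith only [h8, h9]
  have h3 : (I.card : ℝ) * (Real.exp (-D) / 4 ^ n *
      Real.exp (n * (Real.log 2 * (2 - Real.pi * Y0))) * yy b s) ≤
      ∑ w ∈ I, ∏ p ∈ H529.gt l0 a n w.1 w.2, WB b p.1 p.2 (H529.alq s n w.1 w.2) /
        WB b p.1 p.2 0 := by
    rw [← nsmul_eq_mul, ← Finset.sum_const]
    exact Finset.sum_le_sum h2
  rw [← hsd]
  have e4 : WB b (s * 2 ^ n) 0 (ang (s * 2 ^ n) 0) / WB b (s * 2 ^ n) 0 0 = yy b (s * 2 ^ n) := rfl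
  rw [← e4]
  refine le_trans ?_ h1
  have e5 : 1 / 2 * Real.exp (-D) * (I.card / 4 ^ n) *
      Real.exp (n * (Real.log 2 * (2 - Real.pi * Y0))) * yy b s =
      1 / 2 * ((I.card : ℝ) * (Real.exp (-D) / 4 ^ n *
        Real.exp (n * (Real.log 2 * (2 - Real.pi * Y0))) * yy b s)) := by ring
  rw [e5]
  linarith only [h3]

end Vale.Agent.P159.UJ.H282.Ex
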