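import Vale.Agent.P159.H253.Grp2
import Vale.Agent.P159.H282.ExOneG
import Vale.Agent.P159.H282.ExFr

/-!
# The theorem on one group of scales, with a general baseline
-/

set_option linter.all false

open MeasureTheory
open scoped BigOperators

namespace Vale.Agent.P159.UJ.H253.Ex

open H282

/-- **separation** -/
theorem sep_testsL {b : ℝ} {l0 s n : ℕ} (hs : 1 ≤ s) (hn : 12 ≤ n)
    (hst : ∀ κ, 4 ≤ κ → κ ≤ n - 6 → 3 / (2 * Real.pi) ≤ stiff (tt l0 κ) b) {w w' : ℕ × ℕ}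
    (hw : w ∈ Posn n) (hw' : w' ∈ Posn n) (hne : w ≠ w') :
    ∃ q, q ∈ Qs s n w ∧ q ∈ Qs s n w' ∧ 3 ≤ |ctg b l0 s w q - ctg b l0 s w' q| := by
  obtain ⟨⟨a1, a2⟩, a3, a4⟩ := mem_Posn hn hw
  obtain ⟨⟨b1, b2⟩, b3, b4⟩ := mem_Posn hn hw'
  obtain ⟨d, hd⟩ : ∃ d : ℕ, d = ((w'.1 : ℤ) - w.1).natAbs + ((w'.2 : ℤ) - w.2).natAbs := ⟨_, rfl⟩
  have hd64 : 64 ≤ d := by
    have h1 : w.1 ≠ w'.1 ∨ w.2 ≠ w'.2 := by
      by_contra hc
      push Not at hc
      exact hne (Prod.ext hc.1 hc.2)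
    obtain ⟨x1, hx1⟩ := a3
    obtain ⟨x2, hx2⟩ := a4
    obtain ⟨y1, hy1⟩ := b3
    obtain ⟨y2, hy2⟩ := b4
    rcases h1 with h1 | h1 <;> omega
  have hpow : 2 ^ (n - 5) = 2 * 2 ^ (n - 6) := by
    have h : n - 5 = 1 + (n - 6) := by omega
    rw [h, pow_add]
    norm_num
  have hdn : d < 2 ^ (n - 5) := by omega
  obtain ⟨κ, k1, k2, k3, k4⟩ := exists_scale hd64 hdn (by omega)
  obtain ⟨h, hgh⟩ := gg_even s k1
  have hg1 := gg_pos (κ := κ) hs
  have hh : 1 ≤ h := by omega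
  obtain ⟨u1, hu1⟩ := near_grid (X := XX s w.1) hh
  obtain ⟨u2, hu2⟩ := near_grid (X := XX s w.2) hh
  rw [← hgh] at hu1 hu2
  have hin : nn (dd s κ w (u1, u2)) ≤ gg s κ - 1 := by
    rw [nn_n1]
    unfold dd
    simp only
    omega
  -- the other vortex
  obtain ⟨v, hv⟩ : ∃ v : ℤ × ℤ, v = ((s : ℤ) * ((w'.1 : ℤ) - w.1), (s : ℤ) * ((w'.2 : ℤ) - w.2)) :=
    ⟨_, rfl⟩
  have hdd : dd s κ w' (u1, u2) = dd s κ w (u1, u2) + v := by
    rw [hv]
    unfold dd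
    apply Prod.ext
    · have := XX_sub s w.1 w'.1
      simp only [Prod.fst_add]
      linarith
    · have := XX_sub s w.2 w'.2
      simp only [Prod.snd_add]
      linarith
  have hvn : |v.1| + |v.2| = (s : ℤ) * d := by
    rw [hv, hd]
    simp only
    rw [abs_mul, abs_mul, Int.abs_natCast]
    push_cast
    ring
  obtain ⟨t1, t2⟩ := nn_tri (dd s κ w (u1, u2)) v
  rw [← hdd, hvn] at t1 t2
  have hρ := rho_gg s k1
  have m1 : (s : ℤ) * (5 * 2 ^ κ) ≤ s * (2 * d) := by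
    refine mul_le_mul_of_nonneg_left ?_ (by omega)
    exact_mod_cast k3
  have m2 : (s : ℤ) * (2 * d) ≤ s * (10 * 2 ^ κ) := by
    refine mul_le_mul_of_nonneg_left ?_ (by omega)
    exact_mod_cast k4.le
  push_cast at hρ
  have m3 : 10 * gg s κ ≤ (s : ℤ) * d := by linarith
  have m4 : (s : ℤ) * d ≤ 20 * gg s κ := by linarith
  have hnn0 := nn_pos (dd s κ w (u1, u2))
  have ho1 : 9 * gg s κ ≤ nn (dd s κ w' (u1, u2)) := by linarith
  have ho2 : nn (dd s κ w' (u1, u2)) ≤ 32 * gg s κ := by linarith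
  refine ⟨⟨κ, (u1, u2)⟩, Qs_mem hs ⟨k1, k2⟩ (Or.inl (by
    show nn (dd s κ w (u1, u2)) ≤ gg s κ
    omega)), Qs_mem hs ⟨k1, k2⟩ (Or.inr ⟨ho1, ho2⟩), ?_⟩
  have c1 : ctg b l0 s w ⟨κ, (u1, u2)⟩ = 2 * Real.pi * stiff (tt l0 κ) b := by
    unfold ctg
    rw [if_pos]
    show nn (dd s κ w (u1, u2)) ≤ gg s κ
    omega
  have c2 : ctg b l0 s w' ⟨κ, (u1, u2)⟩ = 0 := by
    unfold ctg
    rw [if_neg]
    show ¬ nn (dd s κ w' (u1, u2)) ≤ gg s κ
    omega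
  rw [c1, c2, sub_zero]
  refine le_trans ?_ (le_abs_self _)
  have h1 := mul_le_mul_of_nonneg_left (hst κ k1 k2) (show 0 ≤ 2 * Real.pi by positivity)
  have h2 : 2 * Real.pi * (3 / (2 * Real.pi)) = 3 := by field_simp
  linarith

/-- the bound of the failure probability of one test -/
noncomputable def epk (b K Y0 : ℝ) (l0 a : ℕ) (κ : ℕ) : ℝ :=
  K * ((stiff (tt l0 κ) b - Y0) + 1 / (mm a κ : ℝ) +
    1 / Real.sqrt ((tt l0 κ * mm a κ : ℕ) : ℝ))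

/-- **sum over the scales** -/
theorem sum_eps {b K c1 Y0 : ℝ} (hK : 0 ≤ K) {l0 a' n : ℕ} (hl : 1 ≤ l0)
    (hst : ∀ k, k ≤ n → Y0 ≤ stiff (l0 * 2 ^ k) b)
    (hsum : ∑ k ∈ Finset.range n, (stiff (l0 * 2 ^ k) b - Y0) ≤ c1) (w : ℕ × ℕ) :
    ∑ q ∈ Qs (l0 * 2 ^ (2 * a')) n w, epk b K Y0 l0 (2 * a') q.1 ≤
      4489 * K * (3 * c1 + 64 / 2 ^ a') := by
  have hx0 : ∀ k, k ≤ n → 0 ≤ stiff (l0 * 2 ^ k) b - Y0 := fun k hk => sub_nonneg.2 (hst k hk)
  have hnn : ∀ κ ∈ Finset.Icc 4 (n - 6), 0 ≤ epk b K Y0 l0 (2 * a') κ := by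
    intro κ hκ
    have hκ' := Finset.mem_Icc.1 hκ
    unfold epk
    have := hx0 (lam κ) (by have := lam_lt hκ'.1; omega)
    unfold tt
    positivity
  refine (sum_Qs hnn).trans ?_
  rw [mul_assoc]
  refine mul_le_mul_of_nonneg_left ?_ (by norm_num)
  unfold epk
  rw [← Finset.mul_sum]
  refine mul_le_mul_of_nonneg_left ?_ hK
  rw [Finset.sum_add_distrib, Finset.sum_add_distrib]
  have h1 : ∑ κ ∈ Finset.Icc 4 (n - 6), (stiff (tt l0 κ) b - Y0) ≤ 3 * c1 := by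
    have h2 := sum_lam (N := n - 6) (n := n) (by omega)
      (f := fun k => max (stiff (l0 * 2 ^ k) b - Y0) 0) (fun k => le_max_right _ _)
    have h3 : ∑ κ ∈ Finset.Icc 4 (n - 6), (stiff (tt l0 κ) b - Y0) ≤
        ∑ κ ∈ Finset.Icc 4 (n - 6), max (stiff (l0 * 2 ^ lam κ) b - Y0) 0 :=
      Finset.sum_le_sum fun κ _ => le_max_left _ _
    have h4 : ∑ k ∈ Finset.range n, max (stiff (l0 * 2 ^ k) b - Y0) 0 =
        ∑ k ∈ Finset.range n, (stiff (l0 * 2 ^ k) b - Y0) :=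
      Finset.sum_congr rfl fun k hk => max_eq_left (hx0 k (Finset.mem_range.1 hk).le)
    rw [h4] at h2
    refine (h3.trans h2).trans ?_
    exact mul_le_mul_of_nonneg_left hsum (by norm_num)
  have h2 : ∑ κ ∈ Finset.Icc 4 (n - 6), 1 / (mm (2 * a') κ : ℝ) ≤ 60 / 2 ^ a' := by
    have h3 : ∑ κ ∈ Finset.Icc 4 (n - 6), 1 / (mm (2 * a') κ : ℝ) ≤
        ∑ κ ∈ Finset.Icc 4 (n - 6), 10 / 2 ^ (2 * a') * (1 / ((lam κ : ℝ) + 1) ^ 2) := by
      refine Finset.sum_le_sum fun κ hκ => ?_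
      exact mm_inv (2 * a') (Finset.mem_Icc.1 hκ).1
    refine h3.trans ?_
    have h4 := sum_lam (N := n - 6) (n := n) (by omega)
      (f := fun k => 1 / ((k : ℝ) + 1) ^ 2) (fun k => by positivity)
    have h5 := H529.sum_inv_sq_le n
    rw [← Finset.mul_sum]
    have h6 : (0 : ℝ) ≤ 10 / 2 ^ (2 * a') := by positivity
    have h7 : ∑ κ ∈ Finset.Icc 4 (n - 6), 1 / ((lam κ : ℝ) + 1) ^ 2 ≤ 6 := by
      linarith
    calc _ ≤ 10 / 2 ^ (2 * a') * (6 : ℝ) := mul_le_mul_of_nonneg_left h7 h6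
      _ = 60 / 2 ^ (2 * a') := by ring
      _ ≤ _ := by
          apply div_le_div_of_nonneg_left (by norm_num) (by positivity)
          exact pow_le_pow_right₀ (by norm_num) (by omega)
  have h3 : ∑ κ ∈ Finset.Icc 4 (n - 6), 1 / Real.sqrt ((tt l0 κ * mm (2 * a') κ : ℕ) : ℝ) ≤
      4 / 2 ^ a' := by
    have h4 : ∑ κ ∈ Finset.Icc 4 (n - 6), 1 / Real.sqrt ((tt l0 κ * mm (2 * a') κ : ℕ) : ℝ) ≤
        ∑ κ ∈ Finset.Icc 4 (n - 6), 1 / 2 ^ a' * (5 / 7 : ℝ) ^ κ := by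
      refine Finset.sum_le_sum fun κ hκ => ?_
      rw [tt_mm l0 (2 * a') (Finset.mem_Icc.1 hκ).1]
      apply inv_sqrt_le
      rw [pow_mul]
      calc 4 ^ a' = 1 * (2 ^ 2) ^ a' := by norm_num
        _ ≤ l0 * (2 ^ 2) ^ a' := Nat.mul_le_mul_right _ hl
    refine h4.trans ?_
    rw [← Finset.mul_sum]
    have h5 : ∑ κ ∈ Finset.Icc 4 (n - 6), (5 / 7 : ℝ) ^ κ ≤ 7 / 2 := by
      refine le_trans ?_ (geom_le (n - 6 + 1))
      refine Finset.sum_le_sum_of_subset_of_nonneg ?_ fun κ _ _ => by positivity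
      intro κ hκ
      rw [Finset.mem_Icc] at hκ
      rw [Finset.mem_range]
      omega
    calc _ ≤ 1 / 2 ^ a' * (7 / 2 : ℝ) := mul_le_mul_of_nonneg_left h5 (by positivity)
      _ = 7 / 2 / 2 ^ a' := by ring
      _ ≤ _ := div_le_div_of_nonneg_right (by norm_num) (by positivity)
  have e : (64 : ℝ) / 2 ^ a' = 60 / 2 ^ a' + 4 / 2 ^ a' := by ring
  rw [e]
  linarith

/-- **ONE GROUP of scales**: if the sum of the excesses of the stiffness over the scales of the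
group is small, the vortex ratio drops at most by a constant factor -/
theorem groupL (B C1 : ℝ) (hB : 0 < B) (hC1 : 0 ≤ C1) : ∃ (c1 c0 : ℝ) (a : ℕ), 0 < c1 ∧ 0 < c0 ∧
    1 ≤ a ∧ ∀ b : ℝ, 0 < b → b ≤ B → ∀ (l0 n : ℕ) (Y0 : ℝ), 1 ≤ l0 → 12 ≤ n →
      3 / (2 * Real.pi) ≤ Y0 → RPL b (l0 * 2 ^ a * 2 ^ n) Y0 C1 →
      (∀ k, k ≤ n → Y0 ≤ stiff (l0 * 2 ^ k) b) →
      ∑ k ∈ Finset.range n, (stiff (l0 * 2 ^ k) b - Y0) ≤ c1 →
      c0 * Real.exp (n * (Real.log 2 * (2 - Real.pi * Y0))) * yy b (l0 * 2 ^ a) ≤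
        yy b (l0 * 2 ^ a * 2 ^ n) := by
  obtain ⟨C, s0, m0, hC, hm0, hT⟩ := test_locL B hB
  obtain ⟨c0, s1, hc0, hs1, hG⟩ := H282.Ex.one_groupL B hB
  obtain ⟨K, hK⟩ : ∃ K : ℝ, K = C * (1 + C1) + 1 := ⟨_, rfl⟩
  have hK1 : 1 ≤ K := by
    rw [hK]
    have : 0 ≤ C * (1 + C1) := by positivity
    linarith
  obtain ⟨a', ha'⟩ := pow_unbounded_of_one_lt (max (max m0 (max s0 s1)) (8 * 4489 * K * 64))
    (one_lt_two (α := ℝ))
  have h2m : m0 ≤ 2 ^ a' := ((le_max_left _ _).trans (le_max_left _ _)).trans ha'.le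
  have h2s : s0 ≤ 2 ^ a' :=
    (((le_max_left _ _).trans (le_max_right _ _)).trans (le_max_left _ _)).trans ha'.le
  have h2s1 : s1 ≤ 2 ^ a' :=
    (((le_max_right _ _).trans (le_max_right _ _)).trans (le_max_left _ _)).trans ha'.le
  have h2K : 8 * 4489 * K * 64 ≤ 2 ^ a' := (le_max_right _ _).trans ha'.le
  have ha3 : 3 ≤ a' := by
    by_contra hc
    have h1 : (2 : ℝ) ^ a' ≤ 2 ^ 2 := pow_le_pow_right₀ (by norm_num) (by omega)
    linarith
  refine ⟨min 1 (1 / (24 * 4489 * K)), c0 * (1 / 4 ^ 12), 2 * a', lt_min one_pos (by positivity),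
    by positivity, by omega, ?_⟩
  intro b hb hbB l0 n Y0 hl hn hY0 hR hst hsum
  have hpi := Real.pi_pos
  have hY00 : 0 ≤ Y0 := le_trans (by positivity) hY0
  obtain ⟨s, hs⟩ : ∃ s, s = l0 * 2 ^ (2 * a') := ⟨_, rfl⟩
  have hpa : (2 : ℝ) ^ a' ≤ 2 ^ (2 * a') := pow_le_pow_right₀ (by norm_num) (by omega)
  have hs_ge : (2 : ℝ) ^ (2 * a') ≤ ((l0 * 2 ^ (2 * a') : ℕ) : ℝ) := by
    have : 2 ^ (2 * a') ≤ l0 * 2 ^ (2 * a') := Nat.le_mul_of_pos_left _ (by omega)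
    exact_mod_cast this
  have hs1' : 1 ≤ l0 * 2 ^ (2 * a') := Nat.mul_pos hl (by positivity)
  have hpow : 2 ^ (n - 6) ≤ 2 ^ (n - 3) := Nat.pow_le_pow_right (by norm_num) (by omega)
  have hsum1 : ∑ k ∈ Finset.range n, (stiff (l0 * 2 ^ k) b - Y0) ≤ 1 :=
    hsum.trans (min_le_left _ _)
  have hsum2 : ∑ k ∈ Finset.range n, (stiff (l0 * 2 ^ k) b - Y0) ≤
      1 / (24 * 4489 * K) := hsum.trans (min_le_right _ _)
  have key := hG b hb hbB l0 (2 * a') n Y0 hl (by omega) (by omega)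
    ((h2s1.trans hpa).trans hs_ge) hst hsum1 (Posn n) (by
      intro w hw
      have h := (mem_Posn hn hw).1
      exact ⟨lt_of_lt_of_le h.1 hpow, lt_of_lt_of_le h.2 hpow⟩)
    (Qs (l0 * 2 ^ (2 * a')) n) (Tq b l0 (2 * a') n) (ctg b l0 (l0 * 2 ^ (2 * a')))
    (fun w _ q _ => H282.TT_cont b _ _)
    (fun w _ q _ x => H282.TT_neg b _ _ x)
    (fun w hw q hq => skel_tests hl (by omega) hn (mem_Posn hn hw).1 hq)
    (fun w hw w' hw' hne => sep_testsL hs1' hn (fun κ k1 k2 => hY0.trans (hst (lam κ) (by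
      have := lam_lt k1; omega))) hw hw' hne)
    (fun w q => epk b K Y0 l0 (2 * a') q.1)
    (by
      intro w hw q hq
      have hloc := loc_Qs hl (by omega) (by omega) (mem_Posn hn hw).1 hq
      obtain ⟨⟨k1, k2⟩, hu⟩ := mem_Qs hq
      have htm := tt_mm l0 (2 * a') k1
      have ht1 : 1 ≤ tt l0 q.1 := Nat.mul_pos hl (by positivity)
      have hlam := lam_lt k1
      have hev : 2 ∣ tt l0 q.1 * mm (2 * a') q.1 := by
        unfold mm
        refine Dvd.dvd.mul_left ?_ _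
        exact dvd_pow_self 2 (by omega)
      have hmm : m0 ≤ (mm (2 * a') q.1 : ℝ) := by
        have h1 : (2 : ℝ) ^ (2 * a') ≤ (mm (2 * a') q.1 : ℝ) := by
          exact_mod_cast mm_ge (2 * a') k1
        exact (h2m.trans hpa).trans h1
      have hss : s0 ≤ ((tt l0 q.1 * mm (2 * a') q.1 : ℕ) : ℝ) := by
        rw [htm]
        have h1 : l0 * 2 ^ (2 * a') ≤ l0 * 2 ^ (2 * a') * 2 ^ q.1 :=
          Nat.le_mul_of_pos_right _ (by positivity)
        have h2 : ((l0 * 2 ^ (2 * a') : ℕ) : ℝ) ≤ ((l0 * 2 ^ (2 * a') * 2 ^ q.1 : ℕ) : ℝ) := by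
          exact_mod_cast h1
        exact ((h2s.trans hpa).trans hs_ge).trans h2
      have hρg := rho_gg (l0 * 2 ^ (2 * a')) k1
      obtain ⟨G, G1, G2, G3, G4⟩ := hT b hb hbB Y0 C1 hY00 hC1
        (l0 * 2 ^ (2 * a') * 2 ^ n) (tt l0 q.1) (mm (2 * a') q.1)
        (H529.PP (l0 * 2 ^ (2 * a')) w.1 w.2) (H529.qq0 (l0 * 2 ^ (2 * a')) n w.1 w.2)
        (apx (l0 * 2 ^ (2 * a')) n q.1 q.2) hR ht1 hloc hev hmm hss (hst (lam q.1) (by omega))
        (ctg b l0 (l0 * 2 ^ (2 * a')) w q) (by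
          rw [qq0_apx, htm, hρg]
          unfold ctg
          rcases hu with hu | hu
          · left
            rw [if_pos hu]
            exact ⟨by omega, rfl⟩
          · right
            have hg1 := gg_pos (κ := q.1) hs1'
            rw [if_neg (by omega)]
            exact ⟨by omega, rfl⟩)
      refine ⟨G, G1, G2, G3, G4.trans ?_⟩
      unfold epk
      refine mul_le_mul_of_nonneg_right ?_ ?_
      · rw [hK]; linarith
      · have := sub_nonneg.2 (hst (lam q.1) (by omega))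
        unfold tt
        positivity)
    (by
      intro w hw
      refine (sum_eps (by linarith) hl hst hsum2 w).trans ?_
      have hK0 : 0 < K := by linarith
      have e1 : 4489 * K * (3 * (1 / (24 * 4489 * K))) = 1 / 8 := by
        field_simp
        norm_num
      have e2 : 4489 * K * (64 / 2 ^ a') ≤ 1 / 8 := by
        rw [mul_div_assoc', div_le_iff₀ (by positivity)]
        linarith
      rw [mul_add, e1]
      linarith)
  rw [Posn_card hn] at key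
  exact key

end Vale.Agent.P159.UJ.H253.Ex
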