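import Vale.Agent.P159.H282.Conv
import Vale.Agent.P159.H282.ExGrp
import Vale.Agent.P159.H856.Pf5

/-!
# The lower bound on pyramids from the finite size pyramid inequality
-/

set_option linter.all false

open MeasureTheory Filter Topology
open scoped BigOperators

namespace Vale.Agent.P159.UJ.H282.Ex

open H253 (nn_pos n1 nn_n1 n1_nonneg rim_card in_card)
open H253.Ex (RPL)

/-- the lower bound of the form of the block of side `L` on the bond pyramids -/
def PyrL (b : ℝ) (L : ℕ) (Y0 E : ℝ) : Prop := ∀ (x0 y0 : ℤ) (p : ℕ), 1 ≤ p → (p : ℤ) ≤ x0 →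
  x0 + p ≤ L → (p : ℤ) ≤ y0 → y0 + p ≤ L →
  (Y0 - E / Real.sqrt p) * (1 / 2 * ∑ z ∈ uc L 0, ∑ t : Bool × Bool, H856.pyr x0 y0 p t z ^ 2) ≤
    qc b L 0 (rs L 0 (H856.pyr x0 y0 p)) 0

/-- **half-bond pyramids from bond pyramids** -/
theorem rpL_of {b Y0 E : ℝ} (hb : 0 < b) (hY0 : 0 ≤ Y0) (hE : 0 ≤ E) {L : ℕ}
    (h : PyrL b L Y0 E) : RPL b L Y0 (32 * Y0 + 24 * b + 56 * E) := by
  classical
  intro r q hr _ h1 h2 h3 h4
  obtain ⟨K, hK⟩ : ∃ K : Fld, K = H856.pyr q.1 q.2 r := ⟨_, rfl⟩
  obtain ⟨g, hg⟩ : ∃ g : Fld, g = H253.pyr r q := ⟨_, rfl⟩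
  have hQK := h q.1 q.2 r hr h1 h2 h3 h4
  rw [← hK] at hQK
  have hdiff : ∀ z t, g t z + K t z = 0 ∨ (|g t z + K t z| ≤ 1 ∧ Exc r (z - q)) := by
    intro z t
    rw [hg, hK]
    exact pyr_diff r q z t
  have hg1 : ∀ z t, |g t z| ≤ 1 := fun z t => by rw [hg]; exact H253.abs_pyr r q t z
  -- number of exceptional cells
  have hexc : ((((uc L 0).filter fun z => Exc r (z - q)).card : ℕ) : ℝ) ≤ 12 * r := by
    have e1 := exc_card r ((uc L 0).image fun z => z - q)
    have e2 : ((uc L 0).filter fun z => Exc r (z - q)).card ≤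
        (((uc L 0).image fun z => z - q).filter fun k => Exc r k).card := by
      refine Finset.card_le_card_of_injOn (fun z => z - q) ?_ ?_
      · intro z hz
        rw [Finset.mem_coe, Finset.mem_filter] at hz ⊢
        exact ⟨Finset.mem_image_of_mem _ hz.1, hz.2⟩
      · intro z _ z' _ hzz
        exact sub_left_injective hzz
    have e3 := e2.trans e1
    exact_mod_cast e3
  have hincard : ((((uc L 0).filter fun z => H253.nn (z - q) < (r : ℤ)).card : ℕ) : ℝ) ≤
      2 * (r : ℝ) ^ 2 := by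
    have e1 := in_card r ((uc L 0).image fun z => z - q)
    have e2 : ((uc L 0).filter fun z => H253.nn (z - q) < (r : ℤ)).card ≤
        (((uc L 0).image fun z => z - q).filter fun k => H253.nn k < (r : ℤ)).card := by
      refine Finset.card_le_card_of_injOn (fun z => z - q) ?_ ?_
      · intro z hz
        rw [Finset.mem_coe, Finset.mem_filter] at hz ⊢
        exact ⟨Finset.mem_image_of_mem _ hz.1, hz.2⟩
      · intro z _ z' _ hzz
        exact sub_left_injective hzz
    have e3 : ((uc L 0).filter fun z => H253.nn (z - q) < (r : ℤ)).card ≤ 2 * r ^ 2 := by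
      refine e2.trans (le_trans (le_of_eq ?_) e1)
      congr 1
    exact_mod_cast e3
  -- the difference
  have hD : ∑ z ∈ uc L 0, ∑ t : Bool × Bool, (g t z + K t z) ^ 2 ≤ 48 * r := by
    have e1 : ∀ z ∈ uc L 0, ∑ t : Bool × Bool, (g t z + K t z) ^ 2 ≤
        if Exc r (z - q) then 4 else 0 := by
      intro z _
      split_ifs with hz
      · calc ∑ t : Bool × Bool, (g t z + K t z) ^ 2 ≤ ∑ _t : Bool × Bool, (1 : ℝ) := by
              refine Finset.sum_le_sum fun t _ => ?_
              rcases hdiff z t with h5 | ⟨h5, -⟩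
              · rw [h5]; norm_num
              · rw [← sq_abs]; exact pow_le_one₀ (abs_nonneg _) h5
          _ = 4 := by simp [Fintype.card_prod, Fintype.card_bool]
      · refine le_of_eq (Finset.sum_eq_zero fun t _ => ?_)
        rcases hdiff z t with h5 | ⟨-, h5⟩
        · rw [h5]; norm_num
        · exact absurd h5 hz
    refine (Finset.sum_le_sum e1).trans ?_
    rw [← Finset.sum_filter, Finset.sum_const, nsmul_eq_mul]
    linarith only [hexc]
  -- the norm of the bond pyramid
  have hN : 4 * (r : ℝ) ^ 2 - 28 * r ≤ 1 / 2 * ∑ z ∈ uc L 0, ∑ t : Bool × Bool, K t z ^ 2 := by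
    have e1 : ∀ z ∈ uc L 0, (if H253.nn (z - q) < (r : ℤ) then (4 : ℝ) else 0) -
        (if Exc r (z - q) then 4 else 0) ≤ ∑ t : Bool × Bool, K t z ^ 2 := by
      intro z _
      by_cases hz : Exc r (z - q)
      · rw [if_pos hz]
        have e2 : 0 ≤ ∑ t : Bool × Bool, K t z ^ 2 := Finset.sum_nonneg fun t _ => sq_nonneg _
        split_ifs <;> linarith only [e2]
      · rw [if_neg hz, sub_zero]
        split_ifs with h5
        · have e2 : ∀ t, K t z ^ 2 = 1 := by
            intro t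
            rcases hdiff z t with h6 | ⟨-, h6⟩
            · have e3 : K t z = -(g t z) := by linarith only [h6]
              rw [e3, neg_sq, hg]
              unfold H253.pyr H253.pv H253.ph
              split_ifs
              · push_cast
                rw [neg_sq, ← sq_abs, H253.abs_sgR]; norm_num
              · rw [← sq_abs, H253.abs_sgR]; norm_num
            · exact absurd h6 hz
          simp_rw [e2]
          simp [Fintype.card_prod, Fintype.card_bool]
        · exact Finset.sum_nonneg fun t _ => sq_nonneg _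
    have e2 := Finset.sum_le_sum e1
    rw [Finset.sum_sub_distrib, ← Finset.sum_filter, ← Finset.sum_filter, Finset.sum_const,
      Finset.sum_const, nsmul_eq_mul, nsmul_eq_mul] at e2
    have e3 : 2 * (r : ℝ) * (r - 1) ≤
        ((uc L 0).filter fun z => H253.nn (z - q) < (r : ℤ)).card := by
      have := in_card_low hr h1 h2 h3 h4
      convert this using 2
    linarith only [e2, e3, hexc]
  have hN2 : 1 / 2 * ∑ z ∈ uc L 0, ∑ t : Bool × Bool, K t z ^ 2 ≤ 8 * (r : ℝ) ^ 2 + 48 * r := by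
    have e1 : ∀ z ∈ uc L 0, ∑ t : Bool × Bool, K t z ^ 2 ≤
        2 * ∑ t : Bool × Bool, (g t z + K t z) ^ 2 +
          2 * (if H253.nn (z - q) < (r : ℤ) then (4 : ℝ) else 0) := by
      intro z _
      have e2 : ∑ t : Bool × Bool, g t z ^ 2 =
          if H253.nn (z - q) < (r : ℤ) then (4 : ℝ) else 0 := by
        have := H253.pyr_sq r q z
        rw [← hg] at this
        rw [← this]
        exact Finset.sum_congr rfl fun t _ => by ring
      rw [← e2, Finset.mul_sum, Finset.mul_sum, ← Finset.sum_add_distrib]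
      refine Finset.sum_le_sum fun t _ => ?_
      nlinarith only [sq_nonneg (2 * g t z + K t z)]
    have e2 := Finset.sum_le_sum e1
    rw [Finset.sum_add_distrib, ← Finset.mul_sum, ← Finset.mul_sum, ← Finset.sum_filter,
      Finset.sum_const, nsmul_eq_mul] at e2
    linarith only [e2, hD, hincard]
  -- conclusion
  have hrR : (1 : ℝ) ≤ r := by exact_mod_cast hr
  have hr0 : (0 : ℝ) < r := by linarith only [hrR]
  obtain ⟨x, hx⟩ : ∃ x, x = Real.sqrt r := ⟨_, rfl⟩
  have hx1 : 1 ≤ x := by rw [hx]; exact Real.one_le_sqrt.2 hrR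
  have hx0 : 0 < x := by linarith only [hx1]
  have hxx : x * x = r := by rw [hx]; exact Real.mul_self_sqrt hr0.le
  have hq := qc_diff hb.le (rs L 0 (g + K)) (rs L 0 K) (ε := 1 / x) (by positivity)
  have e1 : rs L 0 (g + K) + (-1 : ℝ) • rs L 0 K = rs L 0 g := by
    rw [rs_add]
    module
  rw [e1] at hq
  have hQD : qc b L 0 (rs L 0 (g + K)) 0 ≤ 24 * b * r := by
    have e2 := qc_zero_le hb.le L 0 (rs L 0 (g + K))
    rw [sum_rs 0 (g + K) (fun x => x ^ 2)] at e2
    have e3 : ∑ z ∈ uc L 0, ∑ t : Bool × Bool, (g + K) t z ^ 2 =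
        ∑ z ∈ uc L 0, ∑ t : Bool × Bool, (g t z + K t z) ^ 2 := rfl
    rw [e3] at e2
    have e4 := mul_le_mul_of_nonneg_left hD (show 0 ≤ b / 2 by positivity)
    linarith only [e2, e4]
  have hQK2 : Y0 * (4 * (r : ℝ) ^ 2 - 28 * r) ≤ qc b L 0 (rs L 0 K) 0 + 56 * E * (r * x) := by
    rw [← hx] at hQK
    have i1 := mul_le_mul_of_nonneg_left hN hY0
    have i2 := mul_le_mul_of_nonneg_left hN2 (show 0 ≤ E / x by positivity)
    have i3 : E / x * (8 * (r : ℝ) ^ 2 + 48 * r) ≤ 56 * E * (r * x) := by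
      have : 8 * (r : ℝ) ^ 2 + 48 * r ≤ 56 * (r * x) * x := by
        rw [mul_assoc 56, mul_assoc (r : ℝ), hxx]
        nlinarith only [hrR]
      calc E / x * (8 * (r : ℝ) ^ 2 + 48 * r) ≤ E / x * (56 * (r * x) * x) :=
            mul_le_mul_of_nonneg_left this (by positivity)
        _ = _ := by field_simp
    rw [sub_mul] at hQK
    linarith only [hQK, i1, i2, i3]
  have e5 : 0 ≤ 1 - 1 / x := by
    rw [sub_nonneg, div_le_one hx0]
    exact hx1
  have h6 := mul_le_mul_of_nonneg_left hQK2 e5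
  have h6' : (1 - 1 / x) * (56 * E * (r * x)) ≤ 56 * E * (r * x) := by
    have : 0 ≤ 1 / x * (56 * E * (r * x)) := by positivity
    linarith only [this]
  have h7 : qc b L 0 (rs L 0 (g + K)) 0 / (1 / x) ≤ 24 * b * (r * x) := by
    rw [div_div_eq_mul_div, div_one]
    have := mul_le_mul_of_nonneg_right hQD hx0.le
    linarith only [this]
  have h8 : (1 - 1 / x) * (Y0 * (4 * (r : ℝ) ^ 2 - 28 * r)) ≥
      Y0 * (4 * (r : ℝ) ^ 2) - 32 * Y0 * (r * x) := by
    have e6 : (1 - 1 / x) * (Y0 * (4 * (r : ℝ) ^ 2 - 28 * r)) =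
        Y0 * (4 * (r : ℝ) ^ 2) - 28 * Y0 * r - 4 * Y0 * ((r : ℝ) ^ 2 / x) +
          28 * Y0 * (r / x) := by
      field_simp
      ring
    have e7 : (r : ℝ) ^ 2 / x = r * x := by
      rw [div_eq_iff hx0.ne', mul_assoc, hxx]
      ring
    have e8 : 0 ≤ Y0 * (r / x) := by positivity
    have e9 : Y0 * r ≤ Y0 * (r * x) := by
      refine mul_le_mul_of_nonneg_left ?_ hY0
      nlinarith only [hx1, hr0]
    rw [e6, e7]
    linarith only [e8, e9]
  rw [mul_add] at h6
  rw [← hg, ← hx]
  linarith only [hq, h6, h6', h7, h8]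

/-- the finite size pyramid inequality in the letters of the block -/
theorem pyrL_of {b : ℝ} (hb : 0 < b) {Λ LB L : ℕ} (hΛ : 1 ≤ Λ) (hL : 96 * Λ ^ 4 * LB ≤ L) :
    PyrL b LB (stiff L b - 40 * b / Real.sqrt Λ) (40 * b) := by
  intro x0 y0 p hp h1 h2 h3 h4
  have h := H856.pyrf hb hp hΛ (LB := LB) (L := L) (q := 0) (x0 := x0) (y0 := y0)
    (by simp only [Prod.fst_zero]; omega) (by simp only [Prod.fst_zero]; omega)
    (by simp only [Prod.snd_zero]; omega) (by simp only [Prod.snd_zero]; omega) hL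
  rw [← H856.qG_blk_qc, H856.uc_eq_blk, ← H856.nG_blk]
  refine le_trans (le_of_eq ?_) h
  ring

end Vale.Agent.P159.UJ.H282.Ex
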