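import Vale.Agent.P159.H282.ExB
import Vale.Agent.P159.H856.Ex3
import Vale.Agent.P159.T1.NC.Main

/-!
# Upper bound of the correlation length from an upper bound of the stiffness at the critical point
-/

set_option linter.all false

open Filter Topology
open scoped BigOperators

namespace Vale.Agent.P159.UJ.H282.Ex

theorem rpow_tendsto {s : ℝ} (hs : 0 < s) : Tendsto (fun w : ℝ => w ^ s) atTop atTop :=
  tendsto_rpow_atTop hs

/-- numbers -/
theorem ev_num {e c2 A : ℝ} (he : 0 < e) (hc2 : 0 < c2) (N1 : ℕ) :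
    ∀ᶠ w : ℝ in atTop, 1 ≤ w ∧ 2 / c2 ≤ w ^ (e / 2) ∧ 1 + Real.log (2 / c2 * w) ≤ w ^ e ∧
      (N1 : ℝ) ≤ w ^ (1 + 3 * e) ∧ A ≤ w ^ e ∧ c2 / 2 ≤ w := by
  have h1 : ∀ᶠ w : ℝ in atTop, 1 ≤ w := eventually_ge_atTop 1
  have h2 : ∀ᶠ w : ℝ in atTop, 2 / c2 ≤ w ^ (e / 2) :=
    (rpow_tendsto (by positivity)).eventually_ge_atTop _
  have h4 : ∀ᶠ w : ℝ in atTop, (N1 : ℝ) ≤ w ^ (1 + 3 * e) :=
    (rpow_tendsto (by positivity)).eventually_ge_atTop _
  have h5 : ∀ᶠ w : ℝ in atTop, A ≤ w ^ e :=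
    (rpow_tendsto he).eventually_ge_atTop _
  have h6 : ∀ᶠ w : ℝ in atTop, c2 / 2 ≤ w := eventually_ge_atTop _
  have h3 : ∀ᶠ w : ℝ in atTop, 1 + Real.log (2 / c2 * w) ≤ w ^ e := by
    have a1 : ∀ᶠ w : ℝ in atTop, 2 * (1 + Real.log (2 / c2)) ≤ w ^ e :=
      (rpow_tendsto he).eventually_ge_atTop _
    have a2 : ∀ᶠ w : ℝ in atTop, Real.log w ≤ 1 / 2 * w ^ e := by
      have := (isLittleO_log_rpow_atTop he).bound (show (0 : ℝ) < 1 / 2 by norm_num)
      filter_upwards [this, eventually_ge_atTop (1 : ℝ)] with w hw hw1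
      rw [Real.norm_of_nonneg (Real.log_nonneg hw1),
        Real.norm_of_nonneg (Real.rpow_nonneg (by linarith only [hw1]) _)] at hw
      exact hw
    filter_upwards [a1, a2, h1] with w b1 b2 b3
    rw [Real.log_mul (by positivity) (by linarith only [b3])]
    linarith only [b1, b2]
  filter_upwards [h1, h2, h3, h4, h5, h6] with w b1 b2 b3 b4 b5 b6
  exact ⟨b1, b2, b3, b4, b5, b6⟩

/-- **upper bound of the correlation length**, from the upper bound of the sum of the excesses of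
the stiffness at the critical point -/
theorem xi_up (hL : ∀ e : ℝ, 0 < e → ∀ᶠ N : ℕ in atTop,
      ∑ j ∈ Finset.range N, (stiff (2 ^ j) bCrit - 2 / Real.pi) ≤ (N : ℝ) ^ e)
    {ε : ℝ} (hε : 0 < ε) : ∃ η : ℝ, 0 < η ∧ ∀ b : ℝ, bCrit - η < b → b < bCrit →
      Real.log (corrLength b) ≤ (1 / (bCrit - b)) ^ (1 + ε) := by
  have hbc0 : 0 < bCrit := Vale.Agent.P159.H170.bCrit_pos
  have hpi := Real.pi_pos
  have hhel : helicity bCrit = 2 / Real.pi := Vale.Agent.P159.TM.Frame.T1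
  obtain ⟨e, he⟩ : ∃ e, e = min ε 1 / 6 := ⟨_, rfl⟩
  have he0 : 0 < e := by rw [he]; have := lt_min hε one_pos; positivity
  have he1 : e ≤ 1 / 6 := by rw [he]; have := min_le_right ε 1; linarith only [this]
  have heε : 6 * e ≤ ε := by rw [he]; have := min_le_left ε 1; linarith only [this]
  obtain ⟨C, d, hC, hd, hexit⟩ := exit_b
  obtain ⟨K0, htop⟩ := Vale.Agent.P159.H856.nc_exit_of NC.sharpNC hhel hd
  obtain ⟨K, hK⟩ : ∃ K, K = max K0 0 := ⟨_, rfl⟩
  have hKK : K0 ≤ K := by rw [hK]; exact le_max_left _ _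
  have hK0 : 0 ≤ K := by rw [hK]; exact le_max_right _ _
  obtain ⟨c2, hc20, htr⟩ := Vale.Agent.P159.H856.transv
  obtain ⟨N1, hN1⟩ := eventually_atTop.1 (hL e he0)
  obtain ⟨A, hA⟩ : ∃ A, A = 4 + C * (2 / c2) * 3 := ⟨_, rfl⟩
  have hA0 : 0 < A := by rw [hA]; positivity
  obtain ⟨w0, hw0⟩ := eventually_atTop.1 (ev_num (A := 2 * (A + 1) + K) he0 hc20 (N1 + 1))
  obtain ⟨w1, hw1⟩ : ∃ w1, w1 = max (max w0 1) (2 / bCrit) := ⟨_, rfl⟩
  have hw1a : w0 ≤ w1 := by rw [hw1]; exact (le_max_left _ _).trans (le_max_left _ _)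
  have hw1b : 1 ≤ w1 := by rw [hw1]; exact (le_max_right _ _).trans (le_max_left _ _)
  have hw1c : 2 / bCrit ≤ w1 := by rw [hw1]; exact le_max_right _ _
  refine ⟨1 / w1, by positivity, ?_⟩
  intro b hb1 hb2
  obtain ⟨t, ht⟩ : ∃ t, t = bCrit - b := ⟨_, rfl⟩
  have ht0 : 0 < t := by rw [ht]; linarith only [hb2]
  have ht2 : t < 1 / w1 := by linarith only [ht, hb1]
  obtain ⟨w, hw⟩ : ∃ w, w = 1 / t := ⟨_, rfl⟩
  have hww : w1 ≤ w := by
    rw [hw, le_div_iff₀ ht0]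
    rw [lt_div_iff₀ (by linarith only [hw1b])] at ht2
    linarith only [ht2, mul_comm t w1]
  have hwt : w * t = 1 := by rw [hw]; field_simp
  have hb : 0 < b := by
    have h1 : 2 / bCrit ≤ w := hw1c.trans hww
    rw [hw, div_le_div_iff₀ hbc0 ht0] at h1
    linarith only [h1, ht, hbc0]
  obtain ⟨n1, n2, n3, n4, n5, n6⟩ := hw0 w (hw1a.trans hww)
  have hwp : 0 < w := by linarith only [n1]
  -- the scale of the exit
  obtain ⟨N0, hN0⟩ : ∃ N0, N0 = ⌈w ^ (1 + 3 * e)⌉₊ := ⟨_, rfl⟩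
  have hN0a : w ^ (1 + 3 * e) ≤ N0 := by rw [hN0]; exact Nat.le_ceil _
  have hN0b : (N0 : ℝ) ≤ w ^ (1 + 3 * e) + 1 := by
    rw [hN0]; exact (Nat.ceil_lt_add_one (Real.rpow_nonneg hwp.le _)).le
  have hw13 : 1 ≤ w ^ (1 + 3 * e) := Real.one_le_rpow n1 (by positivity)
  have hN0c : (N0 : ℝ) ≤ 2 * w ^ (1 + 3 * e) := by linarith only [hN0b, hw13]
  have hN0N : N1 ≤ N0 := by
    have h1 : ((N1 + 1 : ℕ) : ℝ) ≤ N0 := n4.trans hN0a
    have h2 : N1 + 1 ≤ N0 := by exact_mod_cast h1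
    omega
  have hN0p : (0 : ℝ) < N0 := by linarith only [hN0a, hw13]
  have hx0 : ∀ j, 0 ≤ stiff (2 ^ j) bCrit - 2 / Real.pi := fun j => by
    have := Vale.Agent.P159.H177.helicity_le hbc0.le (l := 2 ^ j) Nat.one_le_two_pow
    rw [hhel] at this
    linarith only [this]
  have hT := hN1 N0 hN0N
  -- the excess at the critical point on the scale `N0`
  have hX : stiff (2 ^ N0) bCrit - 2 / Real.pi ≤ c2 * t / 2 := by
    have h1 : (N0 : ℝ) * (stiff (2 ^ N0) bCrit - 2 / Real.pi) ≤ (N0 : ℝ) ^ e := by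
      refine le_trans ?_ hT
      rw [← nsmul_eq_mul, ← Finset.card_range N0, ← Finset.sum_const, Finset.card_range]
      refine Finset.sum_le_sum fun j hj => ?_
      have := stiff_anti2 hbc0.le (Finset.mem_range.1 hj).le
      linarith only [this]
    have h2 : stiff (2 ^ N0) bCrit - 2 / Real.pi ≤ (N0 : ℝ) ^ (e - 1) := by
      rw [Real.rpow_sub hN0p, Real.rpow_one, le_div_iff₀ hN0p]
      linarith only [h1, mul_comm (N0 : ℝ) (stiff (2 ^ N0) bCrit - 2 / Real.pi)]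
    have h3 : (N0 : ℝ) ^ (e - 1) ≤ (w ^ (1 + 3 * e)) ^ (e - 1) :=
      Real.rpow_le_rpow_of_nonpos (by linarith only [hw13]) hN0a (by linarith only [he1])
    have h4 : (w ^ (1 + 3 * e)) ^ (e - 1) ≤ w ^ (-(1 + e / 2)) := by
      rw [← Real.rpow_mul hwp.le]
      apply Real.rpow_le_rpow_of_exponent_le n1
      nlinarith only [he0, he1]
    have h5 : w ^ (-(1 + e / 2)) = t * (w ^ (e / 2))⁻¹ := by
      rw [neg_add, Real.rpow_add hwp, Real.rpow_neg hwp.le, Real.rpow_one, Real.rpow_neg hwp.le]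
      congr 1
      rw [hw]
      simp
    have h6 : (w ^ (e / 2))⁻¹ ≤ c2 / 2 := by
      rw [inv_le_comm₀ (by positivity) (by positivity)]
      refine le_trans (le_of_eq ?_) n2
      rw [inv_div]
    have h7 := mul_le_mul_of_nonneg_left h6 ht0.le
    rw [← h5] at h7
    linarith only [h2, h3, h4, h7]
  -- exit
  obtain ⟨δ, hδ⟩ : ∃ δ, δ = c2 * t / 2 := ⟨_, rfl⟩
  have hδ0' : 0 < δ := by rw [hδ]; positivity
  have hδ1 : δ ≤ 1 := by
    rw [hδ]
    have := mul_le_mul_of_nonneg_right n6 ht0.le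
    linarith only [this, hwt]
  have hδi : 1 / δ = 2 / c2 * w := by rw [hδ, hw]; field_simp
  have hst : stiff (2 ^ N0) b ≤ 2 / Real.pi - δ := by
    have h1 := htr b hb hb2.le (2 ^ N0) Nat.one_le_two_pow
    rw [← ht] at h1
    linarith only [h1, hX, hδ]
  obtain ⟨N, hN⟩ : ∃ N : ℕ, N = ⌊A * w ^ (1 + 4 * e)⌋₊ + 1 := ⟨_, rfl⟩
  have hNa : A * w ^ (1 + 4 * e) < N := by
    rw [hN]; push_cast; exact Nat.lt_floor_add_one _
  have hNb : (N : ℝ) ≤ A * w ^ (1 + 4 * e) + 1 := by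
    rw [hN]; push_cast
    have := Nat.floor_le (show 0 ≤ A * w ^ (1 + 4 * e) by positivity)
    linarith only [this]
  have hTs : ∑ j ∈ Finset.range N0, max (stiff (2 ^ j) b - 2 / Real.pi) 0 ≤ 2 * w ^ (3 * e) := by
    have h1 : ∑ j ∈ Finset.range N0, max (stiff (2 ^ j) b - 2 / Real.pi) 0 ≤
        ∑ j ∈ Finset.range N0, (stiff (2 ^ j) bCrit - 2 / Real.pi) := by
      refine Finset.sum_le_sum fun j _ => max_le ?_ (hx0 j)
      have := Vale.Agent.P159.H873.stiff_monotoneOn (l := 2 ^ j) Nat.one_le_two_pow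
        (Set.mem_Ici.2 hb.le) (Set.mem_Ici.2 hbc0.le) hb2.le
      linarith only [this]
    have h2 : (N0 : ℝ) ^ e ≤ (2 * w ^ (1 + 3 * e)) ^ e :=
      Real.rpow_le_rpow hN0p.le hN0c he0.le
    have h3 : (2 * w ^ (1 + 3 * e)) ^ e ≤ 2 * w ^ (3 * e) := by
      rw [Real.mul_rpow (by norm_num) (Real.rpow_nonneg hwp.le _)]
      refine mul_le_mul ?_ ?_ (by positivity) (by norm_num)
      · calc (2 : ℝ) ^ e ≤ 2 ^ (1 : ℝ) := Real.rpow_le_rpow_of_exponent_le (by norm_num)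
              (by linarith only [he1])
          _ = 2 := Real.rpow_one _
      · rw [← Real.rpow_mul hwp.le]
        apply Real.rpow_le_rpow_of_exponent_le n1
        nlinarith only [he0, he1]
    exact ((h1.trans hT).trans h2).trans h3
  have hst2 : stiff (2 ^ N) b ≤ 2 / Real.pi - d := by
    by_contra hcon
    push Not at hcon
    have h1 := hexit b hb hb2.le N0 N δ hδ0' hδ1 hst hcon.le
    rw [hδi] at h1
    have h2 : (1 + Real.log (2 / c2 * w)) *
        (1 + ∑ j ∈ Finset.range N0, max (stiff (2 ^ j) b - 2 / Real.pi) 0) ≤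
        w ^ e * (3 * w ^ (3 * e)) := by
      have h3 : 1 ≤ w ^ (3 * e) := Real.one_le_rpow n1 (by positivity)
      have h4 : 0 ≤ ∑ j ∈ Finset.range N0, max (stiff (2 ^ j) b - 2 / Real.pi) 0 :=
        Finset.sum_nonneg fun j _ => le_max_right _ _
      refine mul_le_mul n3 (by linarith only [hTs, h3]) (by linarith only [h4])
        (Real.rpow_nonneg hwp.le _)
    have h3 : C * (2 / c2 * w) * (1 + Real.log (2 / c2 * w)) *
        (1 + ∑ j ∈ Finset.range N0, max (stiff (2 ^ j) b - 2 / Real.pi) 0) ≤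
        C * (2 / c2) * 3 * w ^ (1 + 4 * e) := by
      have h4 := mul_le_mul_of_nonneg_left h2 (show 0 ≤ C * (2 / c2 * w) by positivity)
      have e1 : w ^ (1 + 4 * e) = w * (w ^ e * w ^ (3 * e)) := by
        rw [← Real.rpow_add hwp, show 1 + 4 * e = 1 + (e + 3 * e) by ring, Real.rpow_add hwp,
          Real.rpow_one]
      rw [e1]
      refine le_trans (le_of_eq (by ring)) (h4.trans (le_of_eq (by ring)))
    have h4 : w ^ (1 + 3 * e) ≤ w ^ (1 + 4 * e) :=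
      Real.rpow_le_rpow_of_exponent_le n1 (by linarith only [he0])
    have h5 : A * w ^ (1 + 4 * e) = 4 * w ^ (1 + 4 * e) + C * (2 / c2) * 3 * w ^ (1 + 4 * e) := by
      rw [hA]; ring
    linarith only [h1, h3, h4, h5, hNa, hN0c]
  -- the correlation length
  have hxi := htop b hb hb2 (2 ^ N) Nat.one_le_two_pow hst2
  have hlogL : Real.log ((2 ^ N : ℕ) : ℝ) ≤ N := by
    rw [Nat.cast_pow, Real.log_pow]
    push_cast
    have h2 := Real.log_two_lt_d9
    have h3 := Nat.cast_nonneg (α := ℝ) N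
    nlinarith only [h2, h3]
  have hw14 : 1 ≤ w ^ (1 + 4 * e) := Real.one_le_rpow n1 (by positivity)
  have hfin : Real.log (corrLength b) ≤ (2 * (A + 1) + K) * w ^ (1 + 4 * e) := by
    have h1 := mul_le_mul_of_nonneg_left hw14 hK0
    linarith only [hxi, hlogL, hNb, hw14, hKK, h1]
  have hfin2 : (2 * (A + 1) + K) * w ^ (1 + 4 * e) ≤ w ^ (1 + 5 * e) := by
    have e1 : w ^ (1 + 5 * e) = w ^ e * w ^ (1 + 4 * e) := by
      rw [← Real.rpow_add hwp]; congr 1; ring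
    rw [e1]
    exact mul_le_mul_of_nonneg_right n5 (by linarith only [hw14])
  have hfin3 : w ^ (1 + 5 * e) ≤ w ^ (1 + ε) :=
    Real.rpow_le_rpow_of_exponent_le n1 (by linarith only [heε, he0])
  rw [← ht, ← hw]
  linarith only [hfin, hfin2, hfin3]

end Vale.Agent.P159.UJ.H282.Ex
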