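import Vale.Agent.P159.H282.Over

/-!
# The overlap theorem for events given by tests, with a separation of the targets by three
-/

set_option linter.all false

open MeasureTheory Filter Topology
open scoped BigOperators

namespace Vale.Agent.P159.UJ.H282.Ex

open H733 (Til Skel Dd Rr til_int Dd_skel Dd_cont Rr_cont Rr_pos Rr_neg Rr_mul)

/-! ### events given by tests -/

/-- cut-off function: one on `[-1, 1]`, zero outside `(-3/2, 3/2)` -/
noncomputable def chi (t : ℝ) : ℝ := max 0 (min 1 (3 - 2 * |t|))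

theorem chi_cont : Continuous chi := by
  unfold chi
  exact continuous_const.max (continuous_const.min (continuous_const.sub
    (continuous_const.mul continuous_abs)))

theorem chi_nonneg (t : ℝ) : 0 ≤ chi t := le_max_left _ _

theorem chi_le_one (t : ℝ) : chi t ≤ 1 := max_le zero_le_one (min_le_left _ _)

theorem chi_neg (t : ℝ) : chi (-t) = chi t := by unfold chi; rw [abs_neg]

theorem chi_one {t : ℝ} (h : |t| ≤ 1) : chi t = 1 := by
  unfold chi
  rw [min_eq_left (by linarith only [h]), max_eq_right zero_le_one]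

theorem chi_zero {t : ℝ} (h : 3 / 2 ≤ |t|) : chi t = 0 := by
  unfold chi
  rw [max_eq_left]
  exact (min_le_right _ _).trans (by linarith only [h])

theorem chi_sep {t t' : ℝ} (h : 3 ≤ |t - t'|) : chi t * chi t' = 0 := by
  rcases le_or_gt (3 / 2) |t| with h1 | h1
  · rw [chi_zero h1, zero_mul]
  · have h2 : 3 / 2 ≤ |t'| := by
      have := abs_sub t t'
      linarith only [h, h1, this]
    rw [chi_zero h2, mul_zero]

section tests

variable {κ : Type*}

/-- the cut-off of the event of a displacement -/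
noncomputable def phiQ (Q : Finset κ) (Tq : κ → Ginf → ℝ) (c : κ → ℝ) (al : Ginf) (x : Ginf) : ℝ :=
  ∏ q ∈ Q, (chi (Tq q (x + al) - c q) * chi (Tq q (x - al) + c q))

theorem phiQ_cont {Q : Finset κ} {Tq : κ → Ginf → ℝ} (hT : ∀ q ∈ Q, Continuous (Tq q))
    (c : κ → ℝ) (al : Ginf) : Continuous (phiQ Q Tq c al) := by
  unfold phiQ
  refine continuous_finsetProd _ fun q hq => ?_
  exact (chi_cont.comp (((hT q hq).comp (continuous_id.add continuous_const)).sub
    continuous_const)).mul (chi_cont.comp (((hT q hq).comp (continuous_id.sub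
    continuous_const)).add continuous_const))

theorem phiQ_nonneg (Q : Finset κ) (Tq : κ → Ginf → ℝ) (c : κ → ℝ) (al x : Ginf) :
    0 ≤ phiQ Q Tq c al x :=
  Finset.prod_nonneg fun q _ => mul_nonneg (chi_nonneg _) (chi_nonneg _)

theorem phiQ_le_one (Q : Finset κ) (Tq : κ → Ginf → ℝ) (c : κ → ℝ) (al x : Ginf) :
    phiQ Q Tq c al x ≤ 1 :=
  Finset.prod_le_one (fun q _ => mul_nonneg (chi_nonneg _) (chi_nonneg _)) fun q _ =>
    mul_le_one₀ (chi_le_one _) (chi_nonneg _) (chi_le_one _)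

theorem phiQ_neg {Q : Finset κ} {Tq : κ → Ginf → ℝ} (hT : ∀ q ∈ Q, ∀ x, Tq q (-x) = -Tq q x)
    (c : κ → ℝ) (al x : Ginf) : phiQ Q Tq c al (-x) = phiQ Q Tq c al x := by
  unfold phiQ
  refine Finset.prod_congr rfl fun q hq => ?_
  have e1 : -x + al = -(x - al) := by abel
  have e2 : -x - al = -(x + al) := by abel
  rw [e1, e2, hT q hq, hT q hq, mul_comm]
  congr 1
  · rw [← chi_neg]; congr 1; ring
  · rw [← chi_neg]; congr 1; ring

theorem phiQ_skel {Q : Finset κ} {Tq : κ → Ginf → ℝ} {s : ℕ} {cc : ℤ × ℤ}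
    (hT : ∀ q ∈ Q, ∀ x y, Tq q (x + PB s cc y) = Tq q x) (c : κ → ℝ) (al x y : Ginf) :
    phiQ Q Tq c al (x + PB s cc y) = phiQ Q Tq c al x := by
  unfold phiQ
  refine Finset.prod_congr rfl fun q hq => ?_
  have e1 : x + PB s cc y + al = x + al + PB s cc y := by abel
  have e2 : x + PB s cc y - al = x - al + PB s cc y := by abel
  rw [e1, e2, hT q hq, hT q hq]

/-- the product is at least one minus the number of failures -/
theorem phiQ_low (Q : Finset κ) (Tq : κ → Ginf → ℝ) (hT : ∀ q ∈ Q, ∀ x, Tq q (-x) = -Tq q x)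
    (c : κ → ℝ) (al : Ginf) (G : κ → Ginf → ℝ) (hG0 : ∀ q ∈ Q, ∀ x, 0 ≤ G q x)
    (hG : ∀ q ∈ Q, ∀ x, 1 < |Tq q (x + al) - c q| → 1 ≤ G q x) (x : Ginf) :
    1 - ∑ q ∈ Q, (G q x + G q (-x)) ≤ phiQ Q Tq c al x := by
  have hpos : ∀ q ∈ Q, 0 ≤ G q x + G q (-x) := fun q hq =>
    add_nonneg (hG0 q hq x) (hG0 q hq (-x))
  by_cases h : ∀ q ∈ Q, |Tq q (x + al) - c q| ≤ 1 ∧ |Tq q (x - al) + c q| ≤ 1
  · have h1 : phiQ Q Tq c al x = 1 := by
      unfold phiQ
      refine Finset.prod_eq_one fun q hq => ?_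
      rw [chi_one (h q hq).1, chi_one (h q hq).2, mul_one]
    rw [h1]
    have := Finset.sum_nonneg hpos
    linarith only [this]
  · push Not at h
    obtain ⟨q, hq, h1⟩ := h
    have h2 : 1 ≤ G q x + G q (-x) := by
      rcases le_or_gt |Tq q (x + al) - c q| 1 with h3 | h3
      · have h4 := h1 h3
        have h5 : |Tq q (-x + al) - c q| = |Tq q (x - al) + c q| := by
          have e1 : -x + al = -(x - al) := by abel
          rw [e1, hT q hq, ← abs_neg]
          congr 1
          ring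
        have h6 := hG q hq (-x) (by rw [h5]; exact h4)
        linarith only [h6, hG0 q hq x]
      · have h6 := hG q hq x h3
        linarith only [h6, hG0 q hq (-x)]
    have h3 := Finset.single_le_sum hpos hq
    have h4 := phiQ_nonneg Q Tq c al x
    linarith only [h2, h3, h4]

end tests

/-- **overlap theorem for events given by tests** -/
theorem over_tests {b : ℝ} (hb : 0 ≤ b) {L : ℕ} {ι κ : Type*} (I : Finset ι)
    (T : ι → Finset (ℕ × (ℤ × ℤ))) (hT : ∀ w ∈ I, H529.Tl (T w) L 0) (v : Ginf)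
    (al : ι → Ginf) (hal : ∀ w ∈ I, ∀ z, z ∉ inB L 0 → al w z = v z)
    (Q : ι → Finset κ) (Tq : κ → Ginf → ℝ) (c : ι → κ → ℝ)
    (hc : ∀ w ∈ I, ∀ q ∈ Q w, Continuous (Tq q))
    (hodd : ∀ w ∈ I, ∀ q ∈ Q w, ∀ x, Tq q (-x) = -Tq q x)
    (hs : ∀ w ∈ I, ∀ q ∈ Q w, ∀ a ∈ T w, ∀ x y, Tq q (x + PB a.1 a.2 y) = Tq q x)
    (hsep : ∀ w ∈ I, ∀ w' ∈ I, w ≠ w' → ∃ q, q ∈ Q w ∧ q ∈ Q w' ∧ 3 ≤ |c w q - c w' q|)
    (ε : ι → κ → ℝ)
    (hG : ∀ w ∈ I, ∀ q ∈ Q w, ∃ G : Ginf → ℝ, Continuous G ∧ (∀ x, 0 ≤ G x) ∧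
      (∀ x, 1 < |Tq q (x + al w) - c w q| → 1 ≤ G x) ∧ Ev b L 0 G ≤ ε w q)
    (hε : ∀ w ∈ I, ∑ q ∈ Q w, ε w q ≤ 1 / 4) :
    1 / 2 * ∑ w ∈ I, ∏ a ∈ T w, WB b a.1 a.2 (al w) / WB b a.1 a.2 0 ≤
      WB b L 0 v / WB b L 0 0 := by
  classical
  have h1 := overlap hb I T hT v al hal (fun w => phiQ (Q w) Tq (c w) (al w))
    (fun w hw => phiQ_cont (hc w hw) _ _) (fun w _ x => phiQ_nonneg _ _ _ _ x)
    (fun w hw x => phiQ_neg (hodd w hw) _ _ x)
    (fun w hw a ha x y => phiQ_skel (fun q hq x y => hs w hw q hq a ha x y) _ _ x y) (R := 1) (by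
      intro θ
      by_cases h : ∃ w ∈ I, phiQ (Q w) Tq (c w) (al w) (θ - al w) ≠ 0
      · obtain ⟨w, hw, hne⟩ := h
        have h2 : ∀ w' ∈ I, w' ≠ w → phiQ (Q w') Tq (c w') (al w') (θ - al w') = 0 := by
          intro w' hw' hww
          obtain ⟨q, hq, hq', hsep'⟩ := hsep w hw w' hw' (Ne.symm hww)
          have h3 : chi (Tq q θ - c w q) ≠ 0 := by
            intro h4
            apply hne
            unfold phiQ
            refine Finset.prod_eq_zero hq ?_
            rw [sub_add_cancel, h4, zero_mul]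
          have h5 : chi (Tq q θ - c w' q) = 0 := by
            have h6 : chi (Tq q θ - c w q) * chi (Tq q θ - c w' q) = 0 := by
              refine chi_sep ?_
              have e1 : Tq q θ - c w q - (Tq q θ - c w' q) = -(c w q - c w' q) := by ring
              rw [e1, abs_neg]
              exact hsep'
            rcases mul_eq_zero.1 h6 with h7 | h7
            · exact absurd h7 h3
            · exact h7
          unfold phiQ
          refine Finset.prod_eq_zero hq' ?_
          rw [sub_add_cancel, h5, zero_mul]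
        rw [Finset.sum_eq_single w h2 (fun h => absurd hw h)]
        exact phiQ_le_one _ _ _ _ _
      · push Not at h
        rw [Finset.sum_eq_zero h]
        exact zero_le_one)
  rw [one_mul] at h1
  refine le_trans ?_ h1
  rw [Finset.mul_sum]
  refine Finset.sum_le_sum fun w hw => ?_
  rw [mul_comm]
  refine mul_le_mul_of_nonneg_left ?_ (Finset.prod_nonneg fun a _ =>
    (div_pos (WB_pos _ _ _ _) (WB_pos _ _ _ _)).le)
  -- the probability of the event
  have hG' : ∀ q, ∃ G : Ginf → ℝ, Continuous G ∧ (∀ x, 0 ≤ G x) ∧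
      (q ∈ Q w → ((∀ x, 1 < |Tq q (x + al w) - c w q| → 1 ≤ G x) ∧ Ev b L 0 G ≤ ε w q)) := by
    intro q
    by_cases hq : q ∈ Q w
    · obtain ⟨G, g1, g2, g3, g4⟩ := hG w hw q hq
      exact ⟨G, g1, g2, fun _ => ⟨g3, g4⟩⟩
    · exact ⟨fun _ => 0, continuous_const, fun _ => le_rfl, fun h => absurd h hq⟩
  choose G g1 g2 g3 using hG'
  have hneg : ∀ q, Continuous fun x => G q (-x) := fun q => (g1 q).comp continuous_neg
  have c1 : ∀ q, Continuous fun x => G q x + G q (-x) := fun q => (g1 q).add (hneg q)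
  have c2 : Continuous fun x => ∑ q ∈ Q w, (G q x + G q (-x)) :=
    continuous_finsetSum _ fun q _ => c1 q
  have hlow := Ev_mono (b := b) (L := L) (v := 0) (f := fun x => 1 - ∑ q ∈ Q w, (G q x + G q (-x)))
    (g := phiQ (Q w) Tq (c w) (al w)) (continuous_const.sub c2) (phiQ_cont (hc w hw) _ _)
    (phiQ_low (Q w) Tq (hodd w hw) (c w) (al w) G (fun q _ => g2 q)
      (fun q hq => (g3 q hq).1))
  refine le_trans ?_ hlow
  rw [var_Ev_sub b L continuous_const c2, var_Ev_const,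
    var_Ev_sum b L (Q w) (fun q x => G q x + G q (-x)) c1]
  have h2 : ∑ q ∈ Q w, Ev b L 0 (fun x => G q x + G q (-x)) ≤ ∑ q ∈ Q w, 2 * ε w q := by
    refine Finset.sum_le_sum fun q hq => ?_
    rw [var_Ev_add b L (g1 q) (hneg q), h2_Ev_neg b L (g1 q)]
    have := (g3 q hq).2
    linarith only [this]
  rw [← Finset.mul_sum] at h2
  have h3 := hε w hw
  linarith only [h2, h3]

end Vale.Agent.P159.UJ.H282.Ex
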