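import Mathlib

/-!
# Recursion over dyadic groups of scales

`p`, `q` are the positive and the negative parts of the excess of the stiffness, `l` is the logarithm
of the vortex ratio.  A group of `m` scales starting at `i` is good if
`∑ p + m (q (i + 2 m + A) - q i) ≤ c1`; a good group has gain at least `2 κ m q i - Λ`.  Bad groups
are cut into two halves; the number of bad groups with `m q i < 2 K` is controlled by a potential.
-/

set_option linter.all false

open scoped BigOperators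

namespace Vale.Agent.P159.UJ.H282.Ex

/-- capped potential -/
noncomputable def Fc (K m s : ℝ) : ℝ := min (s * m) (4 * K)

/-- potential of a group -/
noncomputable def Hc (p q : ℕ → ℝ) (K : ℝ) (r i m : ℕ) : ℝ :=
  ∑ k ∈ Finset.range m, p (i + k) + (Fc K m (q (i + r * m)) - Fc K m (q i))

/-- total potential of a group and of its parts -/
noncomputable def Uc (p q : ℕ → ℝ) (K : ℝ) (r : ℕ) : ℕ → ℕ → ℝ
  | 0, i => Hc p q K r i 12
  | (k + 1), i => Hc p q K r i (12 * 2 ^ (k + 1)) + (Uc p q K r k i +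
      Uc p q K r k (i + 12 * 2 ^ k))

section

variable {p q : ℕ → ℝ} {K : ℝ} {r : ℕ}

theorem Fc_mono (K : ℝ) {m s s' : ℝ} (hm : 0 ≤ m) (h : s ≤ s') : Fc K m s ≤ Fc K m s' :=
  min_le_min (mul_le_mul_of_nonneg_right h hm) le_rfl

theorem Fc_nonneg {K m s : ℝ} (hK : 0 ≤ K) (hm : 0 ≤ m) (hs : 0 ≤ s) : 0 ≤ Fc K m s :=
  le_min (by positivity) (by positivity)

theorem Fc_le (K m s : ℝ) : Fc K m s ≤ 4 * K := min_le_right _ _

theorem Hc_nonneg (hp : ∀ j, 0 ≤ p j) (hqm : Monotone q) (i m : ℕ) : 0 ≤ Hc p q K r i m := by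
  unfold Hc
  have h1 : 0 ≤ ∑ k ∈ Finset.range m, p (i + k) := Finset.sum_nonneg fun k _ => hp _
  have h2 := Fc_mono K (m := (m : ℝ)) (Nat.cast_nonneg m) (hqm (Nat.le_add_right i (r * m)))
  linarith only [h1, h2]

theorem Uc_nonneg (hp : ∀ j, 0 ≤ p j) (hqm : Monotone q) (k i : ℕ) : 0 ≤ Uc p q K r k i := by
  induction k generalizing i with
  | zero => exact Hc_nonneg hp hqm _ _
  | succ k ih =>
    unfold Uc
    have := Hc_nonneg (K := K) (r := r) hp hqm i (12 * 2 ^ (k + 1))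
    have h1 := ih i
    have h2 := ih (i + 12 * 2 ^ k)
    linarith only [this, h1, h2]

/-- a bad group has a large potential -/
theorem Hc_ge {c1 : ℝ} {A : ℕ} (hp : ∀ j, 0 ≤ p j) (hqm : Monotone q) (hc1 : 0 < c1)
    (hK : c1 ≤ 4 * K) {i m : ℕ} (hr : 2 * m + A ≤ r * m) (hm : (m : ℝ) * q i < 2 * K)
    (hbad : c1 < ∑ k ∈ Finset.range m, p (i + k) + m * (q (i + 2 * m + A) - q i)) :
    c1 / 2 ≤ Hc p q K r i m := by
  unfold Hc
  have h0 : 0 ≤ ∑ k ∈ Finset.range m, p (i + k) := Finset.sum_nonneg fun k _ => hp _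
  have h2 := Fc_mono K (m := (m : ℝ)) (Nat.cast_nonneg m) (hqm (Nat.le_add_right i (r * m)))
  by_cases h1 : c1 / 2 ≤ ∑ k ∈ Finset.range m, p (i + k)
  · linarith only [h1, h2]
  · push Not at h1
    have h3 : c1 / 2 ≤ m * (q (i + 2 * m + A) - q i) := by linarith only [h1, hbad]
    have h4 : q (i + 2 * m + A) ≤ q (i + r * m) := hqm (by omega)
    have h5 := mul_le_mul_of_nonneg_left h4 (Nat.cast_nonneg (α := ℝ) m)
    have h6 : Fc K m (q i) = q i * m := by
      unfold Fc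
      rw [min_eq_left]
      linarith only [hm, mul_comm (m : ℝ) (q i), h0, hc1, hK]
    have h7 : Fc K m (q i) + c1 / 2 ≤ Fc K m (q (i + r * m)) := by
      rw [h6]
      unfold Fc
      apply le_min
      · linarith only [h3, h5]
      · linarith only [hm, hK]
    linarith only [h0, h7]

/-- **the recursion** -/
theorem rec_step {l : ℕ → ℝ} {Λ κ c1 d : ℝ} {A i0 : ℕ} (hp : ∀ j, 0 ≤ p j) (hpa : Antitone p)
    (hq0 : ∀ j, 0 ≤ q j) (hqm : Monotone q) (hc1 : 0 < c1) (hK : c1 ≤ 4 * K) (hΛ : 0 ≤ Λ)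
    (hκ : 0 ≤ κ) (hKΛ : Λ ≤ κ * K) (hd : d ≤ c1 / 24) (hp0 : p i0 ≤ c1 / 24) (hr : A + 2 ≤ r)
    (hG : ∀ i m : ℕ, i0 ≤ i → 12 ≤ m → q (i + 2 * m + A) ≤ d →
      ∑ k ∈ Finset.range m, p (i + k) + m * (q (i + 2 * m + A) - q i) ≤ c1 →
      2 * κ * m * q i - Λ ≤ l (i + m) - l i) (k : ℕ) :
    ∀ i, i0 ≤ i → q (i + 2 * (12 * 2 ^ k) + A) ≤ d →
      κ * ((12 * 2 ^ k : ℕ) : ℝ) * q i - Λ * (if ((12 * 2 ^ k : ℕ) : ℝ) * q i < K then 1 else 0) -
        4 * Λ / c1 * Uc p q K r k i ≤ l (i + 12 * 2 ^ k) - l i := by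
  have hU0 : ∀ k i, 0 ≤ 4 * Λ / c1 * Uc p q K r k i := fun k i =>
    mul_nonneg (by positivity) (Uc_nonneg hp hqm k i)
  -- good groups
  have hgood : ∀ k i, i0 ≤ i → q (i + 2 * (12 * 2 ^ k) + A) ≤ d →
      ∑ j ∈ Finset.range (12 * 2 ^ k), p (i + j) +
        ((12 * 2 ^ k : ℕ) : ℝ) * (q (i + 2 * (12 * 2 ^ k) + A) - q i) ≤ c1 →
      κ * ((12 * 2 ^ k : ℕ) : ℝ) * q i - Λ * (if ((12 * 2 ^ k : ℕ) : ℝ) * q i < K then 1 else 0) -
        4 * Λ / c1 * Uc p q K r k i ≤ l (i + 12 * 2 ^ k) - l i := by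
    intro k i hi hqd hg
    have h1 := hG i (12 * 2 ^ k) hi (Nat.le_mul_of_pos_right _ (by positivity)) hqd hg
    have h2 := hU0 k i
    obtain ⟨x, hx⟩ : ∃ x : ℝ, x = ((12 * 2 ^ k : ℕ) : ℝ) * q i := ⟨_, rfl⟩
    have hx0 : 0 ≤ x := by rw [hx]; exact mul_nonneg (Nat.cast_nonneg _) (hq0 i)
    rw [mul_assoc (2 * κ), ← hx] at h1
    rw [mul_assoc κ, ← hx]
    have h3 := mul_nonneg hκ hx0
    split_ifs with h4
    · linarith only [h1, h2, h3]
    · push Not at h4
      have h5 := mul_le_mul_of_nonneg_left h4 hκ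
      linarith only [h1, h2, h5, hKΛ]
  induction k with
  | zero =>
    intro i hi hqd
    refine hgood 0 i hi hqd ?_
    rw [pow_zero, mul_one] at hqd ⊢
    have h1 : ∑ j ∈ Finset.range 12, p (i + j) ≤ ∑ _j ∈ Finset.range 12, c1 / 24 :=
      Finset.sum_le_sum fun j _ => (hpa (by omega : i0 ≤ i + j)).trans hp0
    rw [Finset.sum_const, Finset.card_range, nsmul_eq_mul] at h1
    have h2 := hq0 i
    push_cast at h1 ⊢
    linarith only [h1, h2, hqd, hd]
  | succ k ih =>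
    intro i hi hqd
    by_cases hb : ∑ j ∈ Finset.range (12 * 2 ^ (k + 1)), p (i + j) +
        ((12 * 2 ^ (k + 1) : ℕ) : ℝ) * (q (i + 2 * (12 * 2 ^ (k + 1)) + A) - q i) ≤ c1
    · exact hgood (k + 1) i hi hqd hb
    · push Not at hb
      have hpow : 12 * 2 ^ (k + 1) = 12 * 2 ^ k + 12 * 2 ^ k := by rw [pow_succ]; ring
      have i1 := ih i hi ((hqm (by omega)).trans hqd)
      have i2 := ih (i + 12 * 2 ^ k) (by omega) ((hqm (by omega)).trans hqd)
      have e1 : i + 12 * 2 ^ k + 12 * 2 ^ k = i + 12 * 2 ^ (k + 1) := by omega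
      rw [e1] at i2
      obtain ⟨m, hm⟩ : ∃ m : ℝ, m = ((12 * 2 ^ k : ℕ) : ℝ) := ⟨_, rfl⟩
      have hm0 : 0 ≤ m := by rw [hm]; exact Nat.cast_nonneg _
      have e2 : ((12 * 2 ^ (k + 1) : ℕ) : ℝ) = 2 * m := by rw [hm, hpow]; push_cast; ring
      rw [← hm] at i1 i2
      have hqi : q i ≤ q (i + 12 * 2 ^ k) := hqm (Nat.le_add_right _ _)
      have hqi' := mul_le_mul_of_nonneg_left hqi hm0
      have hqi'' := mul_le_mul_of_nonneg_left hqi' hκ
      have hU : Uc p q K r (k + 1) i = Hc p q K r i (12 * 2 ^ (k + 1)) + (Uc p q K r k i +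
        Uc p q K r k (i + 12 * 2 ^ k)) := rfl
      have hH0 := Hc_nonneg (K := K) (r := r) hp hqm i (12 * 2 ^ (k + 1))
      rw [e2, hU, mul_add, mul_add]
      have hχ : 0 ≤ Λ * (if 2 * m * q i < K then 1 else 0 : ℝ) :=
        mul_nonneg hΛ (by split_ifs <;> norm_num)
      by_cases hmK : m * q i < K
      · have hHc := Hc_ge (r := r) (A := A) hp hqm hc1 hK (i := i) (m := 12 * 2 ^ (k + 1)) (by
          have h3 : (A + 2) * (12 * 2 ^ (k + 1)) ≤ r * (12 * 2 ^ (k + 1)) :=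
            Nat.mul_le_mul_right _ hr
          have h4 : A * 1 ≤ A * (12 * 2 ^ (k + 1)) := Nat.mul_le_mul_left _ (by
            have : 0 < 2 ^ (k + 1) := by positivity
            omega)
          rw [add_mul] at h3
          omega) (by rw [e2]; linarith only [hmK]) hb
        have h3 : 2 * Λ ≤ 4 * Λ / c1 * Hc p q K r i (12 * 2 ^ (k + 1)) := by
          have h4 := mul_le_mul_of_nonneg_left hHc (show 0 ≤ 4 * Λ / c1 by positivity)
          refine le_trans (le_of_eq ?_) h4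
          field_simp
          ring
        have h5 : Λ * (if m * q i < K then 1 else 0 : ℝ) ≤ Λ := by
          split_ifs <;> linarith only [hΛ]
        have h6 : Λ * (if m * q (i + 12 * 2 ^ k) < K then 1 else 0 : ℝ) ≤ Λ := by
          split_ifs <;> linarith only [hΛ]
        linarith only [i1, i2, h3, h5, h6, hχ, hqi'']
      · have h6 : ¬ m * q (i + 12 * 2 ^ k) < K := by
          push Not at hmK ⊢
          linarith only [hmK, hqi']
        rw [if_neg hmK] at i1
        rw [if_neg h6] at i2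
        have h3 : 0 ≤ 4 * Λ / c1 * Hc p q K r i (12 * 2 ^ (k + 1)) :=
          mul_nonneg (by positivity) hH0
        linarith only [i1, i2, h3, hχ, hqi'']

theorem tele {f : ℕ → ℝ} {D : ℝ} (h0 : ∀ w, 0 ≤ f w) (hD : ∀ w, f w ≤ D) (r J : ℕ) :
    ∑ w ∈ Finset.range J, (f (w + r) - f w) ≤ r * D := by
  have h1 : ∀ J, ∑ w ∈ Finset.range J, (f (w + r) - f w) =
      ∑ w ∈ Finset.range r, (f (w + J) - f w) := by
    intro J
    induction J with
    | zero => simp
    | succ J ih =>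
      rw [Finset.sum_range_succ, ih]
      have h2 : ∑ w ∈ Finset.range r, (f (w + (J + 1)) - f w) -
          ∑ w ∈ Finset.range r, (f (w + J) - f w) = f (J + r) - f J := by
        rw [← Finset.sum_sub_distrib]
        have h3 := Finset.sum_range_sub (fun w => f (w + J)) r
        rw [zero_add, add_comm r J] at h3
        rw [← h3]
        refine Finset.sum_congr rfl fun w _ => ?_
        have : w + (J + 1) = w + 1 + J := by ring
        rw [this]
        ring
      linarith only [h2]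
  rw [h1]
  calc ∑ w ∈ Finset.range r, (f (w + J) - f w) ≤ ∑ _w ∈ Finset.range r, D :=
        Finset.sum_le_sum fun w _ => by linarith only [h0 w, hD (w + J)]
    _ = r * D := by rw [Finset.sum_const, Finset.card_range, nsmul_eq_mul]

theorem sum_blocks (f : ℕ → ℝ) (m J : ℕ) :
    ∑ w ∈ Finset.range J, ∑ k ∈ Finset.range m, f (w * m + k) =
      ∑ j ∈ Finset.range (J * m), f j := by
  induction J with
  | zero => simp
  | succ J ih =>
    rw [Finset.sum_range_succ, ih, Nat.succ_mul, Finset.sum_range_add]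

theorem Hc_sum (hK : 0 ≤ K) (hq0 : ∀ j, 0 ≤ q j) (i m J : ℕ) :
    ∑ w ∈ Finset.range J, Hc p q K r (i + w * m) m ≤
      ∑ j ∈ Finset.range (J * m), p (i + j) + r * (4 * K) := by
  unfold Hc
  rw [Finset.sum_add_distrib]
  have h1 : ∑ w ∈ Finset.range J, ∑ k ∈ Finset.range m, p (i + w * m + k) =
      ∑ j ∈ Finset.range (J * m), p (i + j) := by
    rw [← sum_blocks (fun j => p (i + j)) m J]
    refine Finset.sum_congr rfl fun w _ => Finset.sum_congr rfl fun k _ => ?_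
    rw [add_assoc]
  have h2 := tele (f := fun w => Fc K m (q (i + w * m))) (D := 4 * K)
    (fun w => Fc_nonneg hK (Nat.cast_nonneg m) (hq0 _)) (fun w => Fc_le _ _ _) r J
  have h3 : ∑ w ∈ Finset.range J, (Fc K m (q (i + w * m + r * m)) - Fc K m (q (i + w * m))) =
      ∑ w ∈ Finset.range J, (Fc K m (q (i + (w + r) * m)) - Fc K m (q (i + w * m))) := by
    refine Finset.sum_congr rfl fun w _ => ?_
    rw [add_mul, add_assoc]
  rw [h1, h3]
  exact add_le_add le_rfl h2

theorem sum_two (g : ℕ → ℝ) (M : ℕ) :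
    ∑ w ∈ Finset.range (2 * M), g w = ∑ w ∈ Finset.range M, (g (2 * w) + g (2 * w + 1)) := by
  induction M with
  | zero => simp
  | succ M ih =>
    have : 2 * (M + 1) = 2 * M + 1 + 1 := by ring
    rw [this, Finset.sum_range_succ, Finset.sum_range_succ, ih, Finset.sum_range_succ]
    ring

/-- **sum of the potentials** -/
theorem Uc_sum (hK : 0 ≤ K) (hq0 : ∀ j, 0 ≤ q j) (k : ℕ) : ∀ i M : ℕ,
    ∑ w ∈ Finset.range M, Uc p q K r k (i + w * (12 * 2 ^ k)) ≤
      (k + 1) * (∑ j ∈ Finset.range (M * (12 * 2 ^ k)), p (i + j) + r * (4 * K)) := by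
  induction k with
  | zero =>
    intro i M
    have h := Hc_sum (p := p) (r := r) hK hq0 i 12 M
    simp only [pow_zero, mul_one, Nat.cast_zero, zero_add, one_mul]
    exact h
  | succ k ih =>
    intro i M
    have h1 := Hc_sum (p := p) (r := r) hK hq0 i (12 * 2 ^ (k + 1)) M
    have h2 := ih i (2 * M)
    have e1 : 2 * M * (12 * 2 ^ k) = M * (12 * 2 ^ (k + 1)) := by rw [pow_succ]; ring
    rw [e1, sum_two (fun w => Uc p q K r k (i + w * (12 * 2 ^ k))) M] at h2
    have e2 : ∑ w ∈ Finset.range M, Uc p q K r (k + 1) (i + w * (12 * 2 ^ (k + 1))) =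
        ∑ w ∈ Finset.range M, Hc p q K r (i + w * (12 * 2 ^ (k + 1))) (12 * 2 ^ (k + 1)) +
        ∑ w ∈ Finset.range M, (Uc p q K r k (i + 2 * w * (12 * 2 ^ k)) +
          Uc p q K r k (i + (2 * w + 1) * (12 * 2 ^ k))) := by
      rw [← Finset.sum_add_distrib]
      refine Finset.sum_congr rfl fun w _ => ?_
      have e3 : Uc p q K r (k + 1) (i + w * (12 * 2 ^ (k + 1))) =
        Hc p q K r (i + w * (12 * 2 ^ (k + 1))) (12 * 2 ^ (k + 1)) +
        (Uc p q K r k (i + w * (12 * 2 ^ (k + 1))) +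
        Uc p q K r k (i + w * (12 * 2 ^ (k + 1)) + 12 * 2 ^ k)) := rfl
      rw [e3]
      have e4 : i + w * (12 * 2 ^ (k + 1)) = i + 2 * w * (12 * 2 ^ k) := by rw [pow_succ]; ring
      have e5 : i + w * (12 * 2 ^ (k + 1)) + 12 * 2 ^ k = i + (2 * w + 1) * (12 * 2 ^ k) := by
        rw [pow_succ]; ring
      rw [e5, e4]
    rw [e2]
    push_cast
    linarith only [h1, h2]

end

end Vale.Agent.P159.UJ.H282.Ex
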