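import Vale.Agent.P159.H282.ExCv
import Vale.Agent.P159.T1.NC.Sharp

/-!
# One group of scales: the baseline is at most the stiffness at a larger scale
-/

set_option linter.all false

open MeasureTheory Filter Topology
open scoped BigOperators

namespace Vale.Agent.P159.UJ.H282.Ex

open H253.Ex (RPL)

theorem rpL_mono {b : ℝ} {L : ℕ} {Y0 Y1 C1 C2 : ℝ} (h : RPL b L Y1 C1) (h01 : Y0 ≤ Y1)
    (h12 : C1 ≤ C2) : RPL b L Y0 C2 := by
  intro r q hr h2 h3 h4 h5 h6
  refine le_trans ?_ (h r q hr h2 h3 h4 h5 h6)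
  have h7 : 0 ≤ (r : ℝ) * Real.sqrt r := by positivity
  have h8 := mul_le_mul_of_nonneg_right h12 h7
  have h9 := mul_le_mul_of_nonneg_right h01 (show 0 ≤ 4 * (r : ℝ) ^ 2 by positivity)
  linarith only [h8, h9]

theorem succ_le_two_pow (m : ℕ) : ((m : ℝ) + 1) ≤ 2 ^ m := by
  have : m + 1 ≤ 2 ^ m := Nat.lt_two_pow_self
  exact_mod_cast this

/-- **ONE GROUP of scales.** -/
theorem groupY (B : ℝ) (hB : 0 < B) : ∃ (c1 c0 : ℝ) (a A : ℕ), 0 < c1 ∧ 0 < c0 ∧ 1 ≤ a ∧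
    ∀ b : ℝ, 0 < b → b ≤ B → ∀ (l0 n : ℕ) (Y : ℝ), 1 ≤ l0 → 12 ≤ n →
      7 / (4 * Real.pi) ≤ Y → Y ≤ stiff (l0 * 2 ^ (2 * n + A)) b →
      ∑ k ∈ Finset.range n, (stiff (l0 * 2 ^ k) b - Y) ≤ c1 →
      c0 * Real.exp (n * (Real.log 2 * (2 - Real.pi * Y))) *
        yy b (l0 * 2 ^ a) ≤ yy b (l0 * 2 ^ a * 2 ^ n) := by
  have hpi := Real.pi_pos
  obtain ⟨c1, c0, a, hc1, hc0, ha, hG⟩ := H253.Ex.groupL B (32 * B + 24 * B + 56 * (40 * B)) hB
    (by positivity)
  obtain ⟨A', hA'⟩ := pow_unbounded_of_one_lt (640 * B / c1 + 160 * Real.pi * B)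
    (one_lt_two (α := ℝ))
  have h2A : (0 : ℝ) < 2 ^ A' := by positivity
  have hA1 : 640 * B / c1 ≤ 2 ^ A' := by
    have : 0 ≤ 160 * Real.pi * B := by positivity
    linarith only [hA', this]
  have hA2 : 160 * Real.pi * B ≤ 2 ^ A' := by
    have : 0 ≤ 640 * B / c1 := by positivity
    linarith only [hA', this]
  refine ⟨c1 / 2, c0, a, a + 8 * A' + 7, by positivity, hc0, ha, ?_⟩
  intro b hb hbB l0 n Y hl hn hY hYS hdrop
  obtain ⟨m, hm⟩ : ∃ m, m = n / 8 := ⟨_, rfl⟩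
  obtain ⟨L, hL⟩ : ∃ L, L = l0 * 2 ^ (2 * n + (a + 8 * A' + 7)) := ⟨_, rfl⟩
  rw [← hL] at hYS
  obtain ⟨R, hR⟩ : ∃ R : ℝ, R = 2 ^ (A' + m) := ⟨_, rfl⟩
  have hR0 : 0 < R := by rw [hR]; positivity
  have hsq : Real.sqrt ((4 ^ (A' + m) : ℕ) : ℝ) = R := by
    have : ((4 ^ (A' + m) : ℕ) : ℝ) = R * R := by
      rw [hR, ← mul_pow]
      push_cast
      norm_num
    rw [this, Real.sqrt_mul_self hR0.le]
  have hLB : 96 * (4 ^ (A' + m)) ^ 4 * (l0 * 2 ^ a * 2 ^ n) ≤ L := by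
    have e1 : (4 ^ (A' + m)) ^ 4 = 2 ^ (8 * A' + 8 * m) := by
      rw [show (4 : ℕ) = 2 ^ 2 by norm_num, ← pow_mul, ← pow_mul]
      congr 1
      ring
    rw [e1, hL]
    have e2 : 2 ^ (8 * A' + 8 * m) ≤ 2 ^ (8 * A' + n) :=
      Nat.pow_le_pow_right (by norm_num) (by omega)
    have e3 : l0 * 2 ^ (2 * n + (a + 8 * A' + 7)) =
        128 * 2 ^ (8 * A' + n) * (l0 * 2 ^ a * 2 ^ n) := by
      have : 2 * n + (a + 8 * A' + 7) = 7 + (8 * A' + n) + a + n := by ring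
      rw [this, pow_add, pow_add, pow_add]
      ring
    rw [e3]
    refine Nat.mul_le_mul_right _ (Nat.mul_le_mul (by norm_num) e2)
  have hP := pyrL_of hb (Λ := 4 ^ (A' + m)) (LB := l0 * 2 ^ a * 2 ^ n) (L := L)
    (Nat.one_le_pow _ _ (by norm_num)) hLB
  rw [hsq] at hP
  obtain ⟨er, her⟩ : ∃ er, er = 40 * b / R := ⟨_, rfl⟩
  rw [← her] at hP
  have her0 : 0 ≤ er := by rw [her]; positivity
  have hR1 : (2 : ℝ) ^ A' ≤ R := by
    rw [hR]; exact pow_le_pow_right₀ (by norm_num) (by omega)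
  have her1 : er ≤ 1 / (4 * Real.pi) := by
    rw [her, div_le_div_iff₀ hR0 (by positivity)]
    have h1 : 160 * Real.pi * b ≤ 160 * Real.pi * B :=
      mul_le_mul_of_nonneg_left hbB (by positivity)
    linarith only [h1, hA2, hR1]
  have her2 : n * er ≤ c1 / 2 := by
    have h1 : (n : ℝ) ≤ 8 * (m + 1) := by
      have : n ≤ 8 * (m + 1) := by omega
      exact_mod_cast this
    have h2 := succ_le_two_pow m
    have h3 : R = 2 ^ A' * 2 ^ m := by rw [hR, pow_add]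
    have h4 : (n : ℝ) / R ≤ 8 / 2 ^ A' := by
      rw [h3, div_le_div_iff₀ (by positivity) (by positivity)]
      have h5 : (n : ℝ) ≤ 8 * 2 ^ m := by linarith only [h1, h2]
      have h6 := mul_le_mul_of_nonneg_right h5 h2A.le
      linarith only [h6]
    have h5 : n * er = 40 * b * (n / R) := by rw [her]; ring
    rw [h5]
    have h6 : 40 * b * (n / R) ≤ 40 * B * (8 / 2 ^ A') :=
      mul_le_mul (by linarith only [hbB]) h4 (by positivity) (by positivity)
    refine h6.trans ?_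
    rw [mul_div_assoc', div_le_iff₀ h2A]
    rw [div_le_iff₀ hc1] at hA1
    linarith only [hA1]
  have hSb : stiff L b ≤ b := h3_stiff_le hb (by rw [hL]; exact Nat.mul_pos hl (by positivity))
  have hY0 : 3 / (2 * Real.pi) ≤ Y - er := by
    have e1 : 7 / (4 * Real.pi) = 3 / (2 * Real.pi) + 1 / (4 * Real.pi) := by field_simp; norm_num
    linarith only [hY, her1, e1]
  have hY00 : 0 ≤ Y - er := le_trans (by positivity) hY0
  have hY01 : Y - er ≤ stiff L b - er := by linarith only [hYS]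
  have hRP := rpL_mono (Y0 := Y - er) (C2 := 32 * B + 24 * B + 56 * (40 * B))
    (rpL_of hb (hY00.trans hY01) (show 0 ≤ 40 * b by positivity) hP) hY01
    (by linarith only [hSb, hbB, her0])
  have hmono : ∀ k, k ≤ n → stiff L b ≤ stiff (l0 * 2 ^ k) b := by
    intro k hk
    rw [hL]
    exact NC.stiff_anti_pow hb.le hl (by norm_num) (by omega)
  have key := hG b hb hbB l0 n (Y - er) hl hn hY0 hRP
    (fun k hk => by linarith only [hmono k hk, her0, hYS]) (by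
      have h1 : ∑ k ∈ Finset.range n, (stiff (l0 * 2 ^ k) b - (Y - er)) =
          ∑ k ∈ Finset.range n, (stiff (l0 * 2 ^ k) b - Y) + n * er := by
        simp only [Finset.sum_sub_distrib, Finset.sum_const, Finset.card_range, nsmul_eq_mul]
        ring
      rw [h1]
      linarith only [hdrop, her2])
  refine le_trans ?_ key
  refine mul_le_mul_of_nonneg_right (mul_le_mul_of_nonneg_left ?_ hc0.le) (yy_nonneg b _)
  rw [Real.exp_le_exp]
  refine mul_le_mul_of_nonneg_left (mul_le_mul_of_nonneg_left ?_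
    (Real.log_nonneg (by norm_num))) (Nat.cast_nonneg _)
  have := mul_nonneg hpi.le her0
  linarith only [this]

end Vale.Agent.P159.UJ.H282.Ex
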