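import Vale.Agent.P159.H282.Conv
import Vale.Agent.P159.H253.Low
import Vale.Agent.P159.H856.Fin

/-!
# The stiffness at a coupling with helicity modulus `2 / π`
-/

open Filter Topology
open scoped BigOperators

namespace Vale.Agent.P159.UJ.H282

/-- the lower bound for the forms of the blocks on the diamond pyramids -/
theorem pyrLe {b : ℝ} (hb : 0 < b) : PyrLe b (helicity b) := by
  intro L x0 y0 p hp h1 h2 h3 h4
  exact Vale.Agent.P159.H856.pyr_le hb hp h1 h2 h3 h4

/-- lower bound of the vortex ratio, growth of the sum of the excesses of the stiffness -/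
theorem fin_low {b : ℝ} (hb : 0 < b) (hhel : helicity b = 2 / Real.pi) :
    (∃ c C3 : ℝ, 0 < c ∧ 0 < C3 ∧
      ∀ n, c * Real.exp (-(C3 * ∑ i ∈ Finset.range n, xs b i)) ≤ yy b (2 ^ n)) ∧
    ∃ κ : ℝ, 0 < κ ∧ ∀ᶠ N : ℕ in atTop, κ * Real.log N ≤ ∑ i ∈ Finset.range N, xs b i := by
  have hY : 0 ≤ helicity b := by rw [hhel]; positivity
  exact H253.low hb (by positivity) hhel (rpb_of hb hY (pyrLe hb))

end Vale.Agent.P159.UJ.H282
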