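import Mathlib

/-!
# Sides of the test squares as a function of the scale
-/

open scoped BigOperators

namespace Vale.Agent.P159.UJ.H282

/-- level of the test squares at the scale `κ`: the greatest `l` with
`(l + 1)² 2^l ≤ 10 · 2^κ` -/
def lam (κ : ℕ) : ℕ := Nat.findGreatest (fun l => (l + 1) ^ 2 * 2 ^ l ≤ 10 * 2 ^ κ) (κ + 4)

theorem lam_le (κ : ℕ) : (lam κ + 1) ^ 2 * 2 ^ lam κ ≤ 10 * 2 ^ κ := by
  have h := Nat.findGreatest_spec (P := fun l => (l + 1) ^ 2 * 2 ^ l ≤ 10 * 2 ^ κ) (m := 0)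
    (n := κ + 4) (Nat.zero_le _) (by
      have : 1 ≤ 2 ^ κ := Nat.one_le_two_pow
      simp only [zero_add, one_pow, pow_zero, mul_one]
      omega)
  exact h

theorem lam_lt (κ : ℕ) : 10 * 2 ^ κ < (lam κ + 2) ^ 2 * 2 ^ (lam κ + 1) := by
  by_contra hc
  push Not at hc
  have h1 : lam κ + 1 ≤ κ + 4 := by
    by_contra h2
    have h3 : lam κ = κ + 4 := by
      have := Nat.findGreatest_le (P := fun l => (l + 1) ^ 2 * 2 ^ l ≤ 10 * 2 ^ κ) (κ + 4)
      unfold lam at h2 ⊢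
      omega
    have h4 := lam_le κ
    rw [h3, pow_add] at h4
    have h5 : 1 ≤ 2 ^ κ := Nat.one_le_two_pow
    have h6 : 1 ≤ (κ + 4 + 1) ^ 2 := Nat.one_le_pow _ _ (by omega)
    nlinarith only [h4, h5, h6]
  have h2 := Nat.le_findGreatest (P := fun l => (l + 1) ^ 2 * 2 ^ l ≤ 10 * 2 ^ κ) h1 hc
  have h3 : lam κ + 1 ≤ lam κ := h2
  omega

/-- the same value of the level for at most three scales -/
theorem lam_mult {κ κ' : ℕ} (h : lam κ = lam κ') : κ' ≤ κ + 2 := by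
  by_contra hc
  push Not at hc
  have h1 := lam_lt κ'
  have h2 := lam_le κ
  rw [← h] at h1
  have h3 : 2 ^ (κ + 3) ≤ 2 ^ κ' := Nat.pow_le_pow_right (by norm_num) hc
  have h4 : (lam κ + 2) ^ 2 * 2 ^ (lam κ + 1) ≤ 8 * ((lam κ + 1) ^ 2 * 2 ^ lam κ) := by
    have h5 : (lam κ + 2) ^ 2 ≤ 4 * (lam κ + 1) ^ 2 := by nlinarith only [Nat.zero_le (lam κ)]
    calc (lam κ + 2) ^ 2 * 2 ^ (lam κ + 1) ≤ 4 * (lam κ + 1) ^ 2 * 2 ^ (lam κ + 1) :=
          Nat.mul_le_mul_right _ h5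
      _ = _ := by rw [pow_succ]; ring
  have h6 : 2 ^ (κ + 3) = 8 * 2 ^ κ := by rw [pow_add]; ring
  omega

/-- monotonicity of the level -/
theorem lam_mono {κ κ' : ℕ} (h : κ ≤ κ') : lam κ ≤ lam κ' := by
  have h1 := lam_le κ
  have h2 : 2 ^ κ ≤ 2 ^ κ' := Nat.pow_le_pow_right (by norm_num) h
  have h3 : lam κ ≤ κ' + 4 := (Nat.findGreatest_le (κ + 4)).trans (by omega)
  exact Nat.le_findGreatest (P := fun l => (l + 1) ^ 2 * 2 ^ l ≤ 10 * 2 ^ κ') h3
    (h1.trans (Nat.mul_le_mul_left _ h2))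

/-- for `κ ≥ 4` the level is below the scale -/
theorem lam_lt_self {κ : ℕ} (h : 4 ≤ κ) : lam κ < κ := by
  by_contra hc
  push Not at hc
  have h1 := lam_le κ
  have h2 : 2 ^ κ ≤ 2 ^ lam κ := Nat.pow_le_pow_right (by norm_num) hc
  have h3 : 25 ≤ (lam κ + 1) ^ 2 := by nlinarith only [h, hc]
  have h4 : 1 ≤ 2 ^ κ := Nat.one_le_two_pow
  nlinarith only [h1, h2, h3, h4]

/-- sums over the scales are bounded by sums over the levels -/
theorem sum_lam {f : ℕ → ℝ} (hf : ∀ n, 0 ≤ f n) (K : Finset ℕ) {n : ℕ}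
    (hK : ∀ κ ∈ K, lam κ < n) :
    ∑ κ ∈ K, f (lam κ) ≤ 3 * ∑ l ∈ Finset.range n, f l := by
  classical
  have h1 : ∑ κ ∈ K, f (lam κ) =
      ∑ l ∈ Finset.range n, ∑ κ ∈ K.filter (fun κ => lam κ = l), f (lam κ) := by
    rw [Finset.sum_fiberwise_of_maps_to]
    intro κ hκ
    exact Finset.mem_range.2 (hK κ hκ)
  rw [h1, Finset.mul_sum]
  refine Finset.sum_le_sum fun l _ => ?_
  have h2 : ∑ κ ∈ K.filter (fun κ => lam κ = l), f (lam κ) =
      (K.filter (fun κ => lam κ = l)).card * f l := by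
    rw [← nsmul_eq_mul, ← Finset.sum_const]
    exact Finset.sum_congr rfl fun κ hκ => by rw [(Finset.mem_filter.1 hκ).2]
  rw [h2]
  refine mul_le_mul_of_nonneg_right ?_ (hf l)
  have h3 : (K.filter (fun κ => lam κ = l)).card ≤ 3 := by
    by_cases hne : (K.filter (fun κ => lam κ = l)).Nonempty
    · obtain ⟨m, hm⟩ : ∃ m, m = (K.filter (fun κ => lam κ = l)).min' hne := ⟨_, rfl⟩
      have hmem : m ∈ K.filter (fun κ => lam κ = l) := by rw [hm]; exact Finset.min'_mem _ _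
      have hsub : K.filter (fun κ => lam κ = l) ⊆ Finset.Icc m (m + 2) := by
        intro κ hκ
        have h4 : m ≤ κ := by rw [hm]; exact Finset.min'_le _ _ hκ
        have h5 : lam m = lam κ := by
          rw [(Finset.mem_filter.1 hmem).2, (Finset.mem_filter.1 hκ).2]
        exact Finset.mem_Icc.2 ⟨h4, lam_mult h5⟩
      have h6 := Finset.card_le_card hsub
      rw [Nat.card_Icc] at h6
      omega
    · rw [Finset.not_nonempty_iff_eq_empty] at hne
      rw [hne]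
      simp
  exact_mod_cast h3

/-- ratio of the side of the test squares and the scale -/
theorem lam_ratio (κ : ℕ) : (2 : ℝ) ^ lam κ / 2 ^ κ ≤ 10 / ((lam κ : ℝ) + 1) ^ 2 := by
  rw [div_le_div_iff₀ (by positivity) (by positivity)]
  have h : (((lam κ + 1) ^ 2 * 2 ^ lam κ : ℕ) : ℝ) ≤ ((10 * 2 ^ κ : ℕ) : ℝ) := by
    exact_mod_cast lam_le κ
  push_cast at h
  linarith only [h]

theorem sum_sq_inv (n : ℕ) : ∑ k ∈ Finset.range n, 1 / ((k : ℝ) + 1) ^ 2 ≤ 2 := by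
  have key : ∀ n : ℕ, ∑ k ∈ Finset.range (n + 1), 1 / ((k : ℝ) + 1) ^ 2 ≤ 2 - 1 / ((n : ℝ) + 1) := by
    intro n
    induction n with
    | zero => simp; norm_num
    | succ n ih =>
      rw [Finset.sum_range_succ]
      have h : 1 / (((n + 1 : ℕ) : ℝ) + 1) ^ 2 ≤
          1 / ((n : ℝ) + 1) - 1 / (((n + 1 : ℕ) : ℝ) + 1) := by
        have hn : (0 : ℝ) ≤ n := n.cast_nonneg
        push_cast
        rw [div_sub_div _ _ (by positivity) (by positivity), div_le_div_iff₀ (by positivity)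
          (by positivity)]
        nlinarith only [hn]
      linarith only [ih, h]
  cases n with
  | zero => simp
  | succ n =>
    have h1 : (0 : ℝ) ≤ 1 / ((n : ℝ) + 1) := by positivity
    linarith only [key n, h1]

/-- the ratios are summable over the scales -/
theorem sum_ratio (K : Finset ℕ) : ∑ κ ∈ K, (2 : ℝ) ^ lam κ / 2 ^ κ ≤ 60 := by
  classical
  obtain ⟨n, hn⟩ : ∃ n, ∀ κ ∈ K, lam κ < n := by
    refine ⟨K.sup lam + 1, fun κ hκ => ?_⟩
    have := Finset.le_sup (f := lam) hκ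
    omega
  have h1 : ∑ κ ∈ K, (2 : ℝ) ^ lam κ / 2 ^ κ ≤ ∑ κ ∈ K, 10 * (1 / ((lam κ : ℝ) + 1) ^ 2) := by
    refine Finset.sum_le_sum fun κ _ => (lam_ratio κ).trans (le_of_eq ?_)
    ring
  have h2 := sum_lam (f := fun l => 10 * (1 / ((l : ℝ) + 1) ^ 2)) (fun l => by positivity) K hn
  rw [← Finset.mul_sum (Finset.range n)] at h2
  have h3 := sum_sq_inv n
  linarith only [h1, h2, h3]

end Vale.Agent.P159.UJ.H282
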