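import Vale.Agent.P159.H513.Cor2
import Vale.Agent.P159.H859.NeuE
import Vale.Agent.P159.H462.In3

/-!
P159 / LINKW with the sharp error (helper282), part 1: **the block stiffness bounds the neutral self
energy from below, mode by mode**: on every torus of side `n l`, at every mass,
`Pin(k) ≥ E / ((1 + h) stiff l + (1 + 1/h) 16 b l² E)`, `E = EE k`, `k ≠ 0`.
-/

set_option linter.all false

open MeasureTheory Filter Topology Matrix Finset

namespace Vale.Agent.P159.H282.Ls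

open Vale.Agent.P159
open Vale.Agent.P159.H37 (qf Gm Pik wt)
open Vale.Agent.P159.TM.SpecC (Tor wT)
open Vale.Agent.P159.TM.H859 (dirE)
open Vale.Agent.P159.TM.H764 (cN sN dt EE)
open Vale.Agent.P159.H864 (lapM TI sym)
open Vale.Agent.P159.H513 (gF dvT_gF dvT_smul nC_gF dirE_gF sum_oK_le Sl nC oK dvT qf_lapM')
open Vale.Agent.P159.H963 (Neu MF ntr nM nwt Gn Gnh Pin ntr_of_neu qf_ntr_neu neu_cN neu_sN mf_smul
  ti_Gn qf_Gn_neu)

variable {N l n : ℕ} [NeZero N] {b t : ℝ}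

/-- the neutral covariance with gradient fields: `J = t ψ + a (-Δ) ψ`, `ψ` neutral -/
theorem gmn_grad (hN : N = n * l) (hb : 0 ≤ b) (hl : 1 ≤ l) (ht : 0 < t)
    (J ψ : Tor N → ℝ) (a : ℝ) (hψ : Neu ψ) (hJ : J = t • ψ + a • (lapM *ᵥ ψ)) {η : ℝ}
    (hη : 0 < η) :
    qf (Gm (nwt N b t 0)) J ≤ t * ∑ x, ψ x ^ 2 + (1 + η) * (stiff l b * (a ^ 2 * dirE ψ)) +
      (1 + 1 / η) * (16 * b * (l : ℝ) ^ 2 * (a ^ 2 * ∑ x, (lapM *ᵥ ψ) x ^ 2)) := by
  have h := H859.gmn_blocks hN hb hl (mf_smul (N := N) ht) 0 J ψ (fun x t => a * gF ψ x t)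
    (fun x => by
      rw [ntr_of_neu _ _ hψ, Matrix.smul_mulVec, Matrix.one_mulVec, hJ, dvT_smul, dvT_gF]
      rfl) hη
  rw [qf_ntr_neu _ _ hψ, H37.qf_smul_one] at h
  refine h.trans ?_
  have h1 : nC (fun x t => a * gF ψ x t) = a ^ 2 * dirE ψ := by
    rw [← nC_gF]
    unfold nC
    rw [Finset.mul_sum]
    exact Finset.sum_congr rfl fun x _ => by ring
  have h2 := sum_oK_le hN hl (fun x t => a * gF ψ x t)
  have h3 : ∀ t, dirE (fun x => a * gF ψ x t) = a ^ 2 * dirE (fun x => gF ψ x t) := by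
    intro t
    unfold dirE
    rw [Finset.mul_sum]
    exact Finset.sum_congr rfl fun x _ => by ring
  rw [h3, h3, ← mul_add, dirE_gF] at h2
  rw [h1]
  have h4 : 0 ≤ 1 + 1 / η := by positivity
  have h5 := mul_le_mul_of_nonneg_left (mul_le_mul_of_nonneg_left h2 hb) h4
  linarith

/-- **the block stiffness bounds the neutral covariance mode by mode** -/
theorem gnh_le (hN : N = n * l) (hb : 0 < b) (hl : 1 ≤ l) (ht : 0 < t) {η : ℝ} (hη : 0 < η)
    {k : Tor N} (hk : k ≠ 0) :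
    Gnh N b t k ≤ (t + EE k / Sl b η l (EE k))⁻¹ := by
  have hE : 0 < EE k := H462.EE_pos hk
  have hstiff : 0 ≤ stiff l b := UJ.h3_stiff_nonneg hb hl
  have hl0 : (0 : ℝ) < l := by exact_mod_cast hl
  have hS : 0 < Sl b η l (EE k) := by unfold Sl; positivity
  obtain ⟨S, hSd⟩ : ∃ S : ℝ, S = Sl b η l (EE k) := ⟨_, rfl⟩
  rw [← hSd] at hS ⊢
  obtain ⟨r, hr⟩ : ∃ r : ℝ, r = t + EE k / S := ⟨_, rfl⟩
  have hr0 : 0 < r := by rw [hr]; positivity
  rw [← hr]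
  have key : ∀ v : Tor N → ℝ, Neu v → lapM *ᵥ v = EE k • v →
      qf (Gn N b t) v ≤ r⁻¹ * ∑ x, v x ^ 2 := by
    intro v hv hv2
    have hv' : Neu (r⁻¹ • v) := by
      unfold Neu at hv ⊢
      simp only [Pi.smul_apply, smul_eq_mul, ← Finset.mul_sum, hv, mul_zero]
    rw [qf_Gn_neu N b t hv]
    have h := gmn_grad hN hb.le hl ht v (r⁻¹ • v) S⁻¹ hv' (by
      rw [Matrix.mulVec_smul, hv2, smul_smul, smul_smul, smul_smul, ← add_smul]
      have : t * r⁻¹ + S⁻¹ * r⁻¹ * EE k = 1 := by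
        rw [hr]
        field_simp
      have h2 : t * r⁻¹ + S⁻¹ * (r⁻¹ * EE k) = 1 := by rw [← this]; ring
      first
        | rw [this, one_smul]
        | rw [h2, one_smul]) hη
    refine h.trans (le_of_eq ?_)
    have e1 : ∑ x, (r⁻¹ • v) x ^ 2 = r⁻¹ ^ 2 * ∑ x, v x ^ 2 := by
      rw [Finset.mul_sum]
      refine Finset.sum_congr rfl fun x _ => ?_
      simp only [Pi.smul_apply, smul_eq_mul]
      ring
    have e2 : dirE (r⁻¹ • v) = r⁻¹ ^ 2 * (EE k * ∑ x, v x ^ 2) := by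
      rw [← qf_lapM', H37.qf_smul, H37.qf_eq, hv2, dotProduct_smul, smul_eq_mul]
      congr 2
      unfold dotProduct
      exact Finset.sum_congr rfl fun x _ => by ring
    have e3 : ∑ x, (lapM *ᵥ (r⁻¹ • v)) x ^ 2 = r⁻¹ ^ 2 * (EE k ^ 2 * ∑ x, v x ^ 2) := by
      rw [Matrix.mulVec_smul, hv2, Finset.mul_sum, Finset.mul_sum]
      refine Finset.sum_congr rfl fun x _ => ?_
      simp only [Pi.smul_apply, smul_eq_mul]
      ring
    rw [e1, e2, e3]
    have e4 : (1 + η) * (stiff l b * (S⁻¹ ^ 2 * (r⁻¹ ^ 2 * (EE k * ∑ x, v x ^ 2)))) +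
        (1 + 1 / η) * (16 * b * (l : ℝ) ^ 2 * (S⁻¹ ^ 2 * (r⁻¹ ^ 2 *
          (EE k ^ 2 * ∑ x, v x ^ 2)))) =
        S * (S⁻¹ ^ 2 * (r⁻¹ ^ 2 * (EE k * ∑ x, v x ^ 2))) := by
      rw [hSd]
      unfold Sl
      ring
    have e5 : t + S⁻¹ * EE k = r := by
      rw [hr]
      ring
    have e6 : S * (S⁻¹ ^ 2 * (r⁻¹ ^ 2 * (EE k * ∑ x, v x ^ 2))) =
        r⁻¹ ^ 2 * (S⁻¹ * EE k) * ∑ x, v x ^ 2 := by
      field_simp
    rw [add_assoc, e4, e6]
    have e7 : t * (r⁻¹ ^ 2 * ∑ x, v x ^ 2) + r⁻¹ ^ 2 * (S⁻¹ * EE k) * ∑ x, v x ^ 2 =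
        r⁻¹ ^ 2 * (t + S⁻¹ * EE k) * ∑ x, v x ^ 2 := by ring
    rw [e7, e5]
    field_simp
  have hl1 : lapM *ᵥ (fun x : Tor N => cN (dt k x)) = EE k • fun x : Tor N => cN (dt k x) := by
    rw [H864.ti_lapM.mulVec_cN k, H864.sym_lapM]
  have hl2 : lapM *ᵥ (fun x : Tor N => sN (dt k x)) = EE k • fun x : Tor N => sN (dt k x) := by
    rw [H864.ti_lapM.mulVec_sN k, H864.sym_lapM]
  unfold H963.Gnh
  exact H963.sym_le_of_waves (ti_Gn hb.le ht) (key _ (neu_cN hk) hl1) (key _ (neu_sN k) hl2)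

/-- **lower bound of the neutral self energy by the block stiffness** -/
theorem pin_stiff (hN : N = n * l) (hb : 0 < b) (hl : 1 ≤ l) (ht : 0 < t) {η : ℝ} (hη : 0 < η)
    {k : Tor N} (hk : k ≠ 0) :
    EE k / Sl b η l (EE k) ≤ Pin N b t k := by
  have hE : 0 < EE k := H462.EE_pos hk
  have h := gnh_le hN hb hl ht hη hk
  have h0 := H963.Gnh_pos (N := N) hb ht hk
  have hstiff : 0 ≤ stiff l b := UJ.h3_stiff_nonneg hb hl
  have hl0 : (0 : ℝ) < l := by exact_mod_cast hl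
  have hS : 0 < Sl b η l (EE k) := by unfold Sl; positivity
  have h2 : t + EE k / Sl b η l (EE k) ≤ (Gnh N b t k)⁻¹ := by
    rw [le_inv_comm₀ (by positivity) h0]
    exact h
  unfold H963.Pin
  linarith

/-- one mode: `a E - P ≤ 4 (g E + B E²)` -/
theorem blk_mode {a E P S h B g : ℝ} (hE : 0 < E) (ha1 : 0 < a) (ha2 : a ≤ 2)
    (hSl : 0 < (1 + h) * S + B * E) (hP : E / ((1 + h) * S + B * E) ≤ P)
    (hg : (1 + h) * S ≤ 1 / a + g) (hg0 : 0 ≤ g) (hB : 0 ≤ B) :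
    a * E - P ≤ 4 * (g * E + B * E ^ 2) := by
  obtain ⟨q, hq⟩ : ∃ q, q = g + B * E := ⟨_, rfl⟩
  have hq0 : 0 ≤ q := by rw [hq]; positivity
  have h1 : (1 + h) * S + B * E ≤ 1 / a + q := by rw [hq]; linarith
  have h2 : E / (1 / a + q) ≤ P := (div_le_div_of_nonneg_left hE.le hSl h1).trans hP
  have h3 : a * E - a ^ 2 * q * E ≤ E / (1 / a + q) := by
    have h4 : 0 < 1 / a + q := by positivity
    rw [le_div_iff₀ h4]
    have h5 : (a * E - a ^ 2 * q * E) * (1 / a + q) = E - a ^ 2 * q ^ 2 * E := by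
      field_simp
      ring
    rw [h5]
    have : 0 ≤ a ^ 2 * q ^ 2 * E := by positivity
    linarith
  have h6 : a ^ 2 * q * E ≤ 4 * q * E := by
    have h7 : a ^ 2 ≤ 4 := by nlinarith
    have h8 : 0 ≤ q * E := by positivity
    have := mul_le_mul_of_nonneg_right h7 h8
    linarith
  have h9 : 4 * q * E = 4 * (g * E + B * E ^ 2) := by rw [hq]; ring
  linarith

end Vale.Agent.P159.H282.Ls
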