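import Vale.Agent.P159.H282.Ls1
import Vale.Agent.P159.H972.Lk1

/-!
P159 / LINKW with the sharp error (helper282), part 2: the upper bound of the local form at the start
level, rough modes by the block bound.
-/

set_option linter.all false

open Filter Topology Matrix Finset

namespace Vale.Agent.P159.H282.Ls

open Vale.Agent.P159
open Vale.Agent.P159.H37
open Vale.Agent.P159.TM.H764 (EE hatu)
open Vale.Agent.P159.TM.Spec (V)
open Vale.Agent.P159.TM.SpecC (wT Tor)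
open Vale.Agent.P159.H864 (TI sym hsq hsq_nonneg lapM ti_lapM sym_lapM qf_eq_sum sum_hsq)
open Vale.Agent.P159.H963 (nwt Pin Gn Gnh ti_Gn Gnh_zero Gnh_pos Pin_nonneg)
open Vale.Agent.P159.H462 (hatu_mulVec EE_pos EE_zero)
open Vale.Agent.P159.H692 (Xf Xf_eq PrF Yk Yk_abs hsq_add_le sum_erase_le four_D four_L EE_nn)
open Vale.Agent.P159.H859 (lapz enz gdz Fsu smz pf smz_ne smz_fsu pf_fsu)
open Vale.Agent.P159.H972 (em Fit qf_em sum_em_lap fit_smz enz_smz_up sq_lap enz_two)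

variable {N : ℕ} [NeZero N] {b t a c0 c1 δ η C γ β : ℝ}

/-- one mode -/
lemma mode_up {t a E P C δ hq hg hu η γ β : ℝ} (ht : 0 < t) (hE : 0 < E) (hP : 0 ≤ P)
    (haE : 0 ≤ a * E) (hC : t + a * E ≤ C * (t + P)) (hC1 : 1 ≤ C)
    (hq0 : 0 ≤ hq) (hg0 : 0 ≤ hg) (hu0 : 0 ≤ hu) (hs : hq ≤ 2 * hg + 2 * hu)
    (h4 : a * E - P ≤ δ * E + η / t * E ^ 2) (h5 : a * E - P ≤ γ * E + β * E ^ 2)
    (hδ : 0 ≤ δ) (hη : 0 ≤ η) (hγ : 0 ≤ γ) (hβ : 0 ≤ β) :
    hq * Yk t a E P ≤ C * (δ * (E * hq) + 2 * (η / t) * (E ^ 2 * hg) + 2 * γ * (E * hu) +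
      β * (E ^ 2 * hq)) := by
  have p0 : 0 ≤ δ * (E * hq) := by positivity
  have p1 : 0 ≤ 2 * (η / t) * (E ^ 2 * hg) := by positivity
  have p2 : 0 ≤ 2 * γ * (E * hu) := by positivity
  have p3 : 0 ≤ β * (E ^ 2 * hq) := by positivity
  have pr : 0 ≤ C * (δ * (E * hq) + 2 * (η / t) * (E ^ 2 * hg) + 2 * γ * (E * hu) +
      β * (E ^ 2 * hq)) := mul_nonneg (by linarith) (by linarith)
  by_cases hpos : a * E - P ≤ 0
  · refine le_trans ?_ pr
    refine mul_nonpos_of_nonneg_of_nonpos hq0 ?_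
    unfold H692.Yk
    exact div_nonpos_of_nonpos_of_nonneg
      (mul_nonpos_of_nonneg_of_nonpos (by linarith) hpos) (by linarith)
  · push Not at hpos
    have h3 := Yk_abs (a := a) (E := E) (by linarith : 0 < t + P) (by linarith) hC
    have h6 : Yk t a E P ≤ C * (a * E - P) := by
      refine (le_abs_self _).trans (h3.trans ?_)
      rw [abs_of_pos hpos]
    obtain ⟨m, hm⟩ : ∃ m, m = a * E - P - δ * E - β * E ^ 2 := ⟨_, rfl⟩
    have b0 : 0 ≤ β * E ^ 2 := by positivity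
    have d0 : 0 ≤ δ * E := by positivity
    have m1 : m ≤ η / t * E ^ 2 := by rw [hm]; linarith
    have m2 : m ≤ γ * E := by rw [hm]; linarith
    have k0 : 0 ≤ η / t * E ^ 2 := by positivity
    have k1 : 0 ≤ γ * E := by positivity
    have h7 : hq * m ≤ 2 * hg * (η / t * E ^ 2) + 2 * hu * (γ * E) := by
      by_cases hm0 : 0 ≤ m
      · have e1 := mul_le_mul_of_nonneg_right hs hm0
        have e2 := mul_le_mul_of_nonneg_left m1 (by linarith : 0 ≤ 2 * hg)
        have e3 := mul_le_mul_of_nonneg_left m2 (by linarith : 0 ≤ 2 * hu)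
        linarith
      · have e1 : hq * m ≤ 0 := mul_nonpos_of_nonneg_of_nonpos hq0 (by linarith)
        have e2 : 0 ≤ 2 * hg * (η / t * E ^ 2) := mul_nonneg (by linarith) k0
        have e3 : 0 ≤ 2 * hu * (γ * E) := mul_nonneg (by linarith) k1
        linarith
    have h8 : hq * (a * E - P) ≤ δ * (E * hq) + 2 * (η / t) * (E ^ 2 * hg) + 2 * γ * (E * hu) +
        β * (E ^ 2 * hq) := by
      have e : hq * (a * E - P) = hq * m + δ * (E * hq) + β * (E ^ 2 * hq) := by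
        rw [hm]
        ring
      rw [e]
      linarith
    calc hq * Yk t a E P ≤ hq * (C * (a * E - P)) := mul_le_mul_of_nonneg_left h6 hq0
      _ = C * (hq * (a * E - P)) := by ring
      _ ≤ _ := mul_le_mul_of_nonneg_left h8 (by linarith)

/-- **the upper bound of the local form**: `f = g + u`, smooth part by the flat profile, rough part
by the block bound -/
theorem xf_up (hb : 0 < b) (ht : 0 < t) (h : PrF N b t a c0 c1 δ η) (hc0 : 0 < c0) (ha : 0 ≤ a)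
    (hη : 0 ≤ η) (hδ : 0 ≤ δ) (hC1 : 1 ≤ C) (hC : a ≤ C * c0) (hγ : 0 ≤ γ) (hβ : 0 ≤ β)
    (hbl : ∀ k : V N, k ≠ 0 → a * EE k - Pin N b t k ≤ γ * EE k + β * EE k ^ 2)
    (g u : V N → ℝ) :
    Xf N b t a (g + u) ≤ C * (δ * qf lapM (g + u) + 2 * (η / t) * ∑ x, (lapM *ᵥ g) x ^ 2 +
      2 * γ * qf lapM u + β * ∑ x, (lapM *ᵥ (g + u)) x ^ 2) := by
  rw [Xf_eq hb ht]
  have h1 : ∀ k ∈ univ.erase (0 : V N), hsq (g + u) k * Yk t a (EE k) (Pin N b t k) ≤
      C * (δ * (EE k * hsq (g + u) k) + 2 * (η / t) * (EE k ^ 2 * hsq g k) +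
        2 * γ * (EE k * hsq u k) + β * (EE k ^ 2 * hsq (g + u) k)) := by
    intro k hk
    have hk0 := (Finset.mem_erase.1 hk).1
    have hE := EE_pos hk0
    have hlo := h.lo k hk0
    have hP : 0 ≤ Pin N b t k := (by positivity : 0 ≤ c0 * EE k).trans hlo
    have haE : 0 ≤ a * EE k := mul_nonneg ha hE.le
    have h2 : t + a * EE k ≤ C * (t + Pin N b t k) := by
      have h3 : a * EE k ≤ C * (c0 * EE k) := by
        calc a * EE k ≤ C * c0 * EE k := mul_le_mul_of_nonneg_right hC hE.le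
          _ = _ := by ring
      have h4 : C * (c0 * EE k) ≤ C * Pin N b t k := mul_le_mul_of_nonneg_left hlo (by linarith)
      nlinarith
    have h4 : a * EE k - Pin N b t k ≤ δ * EE k + η / t * EE k ^ 2 := by
      have h5 := (neg_le_abs _).trans (h.fl k hk0)
      have h6 : (δ + η * (EE k / t)) * EE k = δ * EE k + η / t * EE k ^ 2 := by
        field_simp
      linarith
    exact mode_up ht hE hP haE h2 hC1 (hsq_nonneg _ _) (hsq_nonneg _ _) (hsq_nonneg _ _)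
      (hsq_add_le g u k) h4 (hbl k hk0) hδ hη hγ hβ
  refine (mul_le_mul_of_nonneg_left (Finset.sum_le_sum h1)
    (inv_nonneg.2 (H864.N_pos (N := N)).le)).trans ?_
  refine (sum_erase_le ?_).trans (le_of_eq ?_)
  · have := EE_nn (0 : V N)
    have h3 := hsq_nonneg (g + u) (0 : V N)
    have h4 := hsq_nonneg g (0 : V N)
    have h5 := hsq_nonneg u (0 : V N)
    positivity
  · rw [← four_D, ← four_L, ← four_D u, ← four_L]
    simp_rw [← Finset.mul_sum, Finset.sum_add_distrib, ← Finset.mul_sum]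
    ring

/-- **the smoothed pyramid** -/
theorem xf_pyrU {x0 y0 : ℤ} {p s s' : ℕ} (hb : 0 < b) (ht : 0 < t)
    (h : PrF N b t a c0 c1 δ η)
    (hc0 : 0 < c0) (ha : 0 ≤ a) (hη : 0 ≤ η) (hδ : 0 ≤ δ) (hC1 : 1 ≤ C)
    (hC : a ≤ C * c0) (hγ : 0 ≤ γ) (hβ : 0 ≤ β)
    (hbl : ∀ k : V N, k ≠ 0 → a * EE k - Pin N b t k ≤ γ * EE k + β * EE k ^ 2)
    (hp : 1 ≤ p) (hs : 1 ≤ s) (hss : s ≤ s')
    (g1 : (p : ℤ) + s' < x0) (g2 : (p : ℤ) + s' < y0) (g3 : x0 + p < N) (g4 : y0 + p < N) :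
    Xf N b t a (em N (smz s (pf x0 y0 p))) ≤
      C * (δ * (16 * (p : ℝ) ^ 2) + 2 * (η / t) * (128 * p / s') +
        2 * γ * (256 * p * s') + β * (128 * p / s)) := by
  have hss' : (s : ℤ) ≤ s' := by exact_mod_cast hss
  have F1 : Fit N (smz s (pf x0 y0 p)) := fit_smz (by omega) (by omega) g3 g4
  have F2 : Fit N (smz s' (pf x0 y0 p)) := fit_smz g1 g2 g3 g4
  have e : em N (smz s (pf x0 y0 p)) = em N (smz s' (pf x0 y0 p)) +
      em N (fun c => smz s (pf x0 y0 p) c - smz s' (pf x0 y0 p) c) := by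
    funext x
    rw [Pi.add_apply]
    unfold H972.em
    ring
  have h1 := xf_up hb ht h hc0 ha hη hδ hC1 hC hγ hβ hbl (em N (smz s' (pf x0 y0 p)))
    (em N (fun c => smz s (pf x0 y0 p) c - smz s' (pf x0 y0 p) c))
  rw [← e, qf_em F1, sum_em_lap F2, sum_em_lap F1, qf_em (F1.sub F2)] at h1
  refine h1.trans (mul_le_mul_of_nonneg_left ?_ (by linarith))
  have a1 := enz_smz_up x0 y0 hp hs
  have a2 := sq_lap x0 y0 hp (hs.trans hss)
  have a3 := enz_two x0 y0 hp hs hss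
  have a4 := sq_lap x0 y0 hp hs
  have b1 := mul_le_mul_of_nonneg_left a1 hδ
  have b2 := mul_le_mul_of_nonneg_left a2 (by positivity : 0 ≤ 2 * (η / t))
  have b3 := mul_le_mul_of_nonneg_left a3 (by positivity : 0 ≤ 2 * γ)
  have b4 := mul_le_mul_of_nonneg_left a4 hβ
  linarith

/-- **the block bound of the modes in the form used** -/
theorem blk_modes {l n : ℕ} {S x h : ℝ} (hN : N = n * l) (hb : 0 < b) (hl : 1 ≤ l) (ht : 0 < t)
    (ha1 : 0 < a) (ha2 : a ≤ 2) (hh : 0 < h) (hS : (1 + h) * stiff l b ≤ 1 / a + x) (hx : 0 ≤ x)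
    (k : V N) (hk : k ≠ 0) :
    a * EE k - Pin N b t k ≤ 4 * x * EE k +
      4 * ((1 + 1 / h) * (16 * b * (l : ℝ) ^ 2)) * EE k ^ 2 := by
  have hE : 0 < EE k := EE_pos hk
  have hstiff : 0 ≤ stiff l b := UJ.h3_stiff_nonneg hb hl
  have hl0 : (0 : ℝ) < l := by exact_mod_cast hl
  have h1 := pin_stiff (t := t) hN hb hl ht hh hk
  unfold H513.Sl at h1
  have e : (1 + 1 / h) * (16 * b * (l : ℝ) ^ 2 * EE k) =
      (1 + 1 / h) * (16 * b * (l : ℝ) ^ 2) * EE k := by ring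
  rw [e] at h1
  have h2 := blk_mode (a := a) (E := EE k) (P := Pin N b t k) (S := stiff l b) (h := h)
    (B := (1 + 1 / h) * (16 * b * (l : ℝ) ^ 2)) (g := x) hE ha1 ha2 (by positivity) h1 hS hx
    (by positivity)
  linarith

end Vale.Agent.P159.H282.Ls
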