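import Vale.Agent.P159.H282.Ls2
import Vale.Agent.P159.H692.LkV

/-!
P159 / LINKW with the sharp error (helper282), part 3: the start of the chain with the error
`C u ^ (-6/5)`.
-/

set_option linter.all false

open Filter Topology Matrix Finset

namespace Vale.Agent.P159.H282.Ls

open Vale.Agent.P159
open Vale.Agent.P159.H37
open Vale.Agent.P159.TM.H764 (EE hatu)
open Vale.Agent.P159.TM.Spec (V)
open Vale.Agent.P159.H864 (hsq lapM)
open Vale.Agent.P159.H963 (Pin)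
open Vale.Agent.P159.H692 (Xf PrF fv)
open Vale.Agent.P159.H859 (smz pf)
open Vale.Agent.P159.H972

/-! ### large levels -/

lemma clog_le_logb' {u : ℕ} (hu : 1 ≤ u) : (Nat.clog 2 u : ℝ) ≤ Real.logb 2 u + 1 :=
  clog_le_logb hu

lemma tend_log_div : Tendsto (fun u : ℕ => Real.logb 2 (u : ℝ) / u) atTop (𝓝 0) := by
  have h1 : Tendsto (fun u : ℕ => Real.log (u : ℝ) / u) atTop (𝓝 0) := by
    have h2 : Tendsto (fun x : ℝ => Real.log x / x) atTop (𝓝 0) := by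
      have := Real.isLittleO_log_id_atTop.tendsto_div_nhds_zero
      simpa using this
    exact h2.comp tendsto_natCast_atTop_atTop
  have h4 := h1.const_mul (1 / Real.log 2)
  rw [mul_zero] at h4
  refine h4.congr fun u => ?_
  unfold Real.logb
  ring

/-- a multiple of the logarithm is small against `u` -/
lemma ev_clog (c d : ℕ) : ∀ᶠ u : ℕ in atTop, c * (Nat.clog 2 u + 1) + d ≤ u := by
  have h1 := tend_log_div.const_mul (c : ℝ)
  have h3 : Tendsto (fun u : ℕ => (1 : ℝ) / u) atTop (𝓝 0) := tendsto_one_div_atTop_nhds_zero_nat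
  have h4 := h1.add (h3.const_mul (2 * (c : ℝ) + d))
  simp only [mul_zero, add_zero] at h4
  filter_upwards [h4.eventually (gt_mem_nhds one_pos), eventually_ge_atTop 1] with u hu hu1
  have hu0 : (0 : ℝ) < u := by exact_mod_cast hu1
  have h5 := clog_le_logb' hu1
  have h6 : (c : ℝ) * Real.logb 2 u + (2 * c + d) < u := by
    have : ((c : ℝ) * Real.logb 2 u + (2 * c + d)) / u < 1 := by
      refine lt_of_eq_of_lt ?_ hu
      ring
    rw [div_lt_one hu0] at this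
    exact this
  have h7 : ((c * (Nat.clog 2 u + 1) + d : ℕ) : ℝ) ≤ u := by
    push_cast
    have hc : (0 : ℝ) ≤ c := Nat.cast_nonneg _
    have := mul_le_mul_of_nonneg_left h5 hc
    linarith
  exact_mod_cast h7

/-! ### scalars -/

/-- sum of the four errors -/
lemma start_sc {b U X e s' w c q : ℝ} (hb : 0 < b) (hU : 1 ≤ U) (hX : 0 ≤ X)
    (he0 : 0 ≤ e) (he : e ≤ 34 * U ^ (-(8 / 5 : ℝ)))
    (hs1 : U ^ (-(2 / 5 : ℝ)) * X ≤ s') (hs2 : s' ≤ 2 * (U ^ (-(2 / 5 : ℝ)) * X)) (hX0 : 0 < X)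
    (hq : q ≤ U ^ (-(3 : ℝ)) * X ^ 2) :
    e * (16 * X ^ 2) + 2 * (e * X ^ 2) * (128 * X / s') +
      2 * (4 * (5 * U ^ (-(4 / 5 : ℝ)))) * (256 * X * s') + 16384 * b * q ≤
      (29728 + 16384 * b) * (U ^ (-(6 / 5 : ℝ)) * X ^ 2) := by
  have hU0 : 0 < U := by linarith
  obtain ⟨v, hv⟩ : ∃ v, v = U ^ (-(6 / 5 : ℝ)) := ⟨_, rfl⟩
  have hv0 : 0 < v := by rw [hv]; positivity
  have e1 : U ^ (-(8 / 5 : ℝ)) ≤ v := by
    rw [hv]
    exact Real.rpow_le_rpow_of_exponent_le hU (by norm_num)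
  have e2 : U ^ (-(8 / 5 : ℝ)) = v * U ^ (-(2 / 5 : ℝ)) := by
    rw [hv, ← Real.rpow_add hU0]
    norm_num
  have e3 : U ^ (-(4 / 5 : ℝ)) * U ^ (-(2 / 5 : ℝ)) = v := by
    rw [hv, ← Real.rpow_add hU0]
    norm_num
  have e4 : U ^ (-(3 : ℝ)) ≤ v := by
    rw [hv]
    exact Real.rpow_le_rpow_of_exponent_le hU (by norm_num)
  obtain ⟨y, hy⟩ : ∃ y, y = U ^ (-(2 / 5 : ℝ)) := ⟨_, rfl⟩
  have hy0 : 0 < y := by rw [hy]; positivity
  rw [← hy] at hs1 hs2 e2 e3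
  rw [← hv]
  have hs0 : 0 < s' := lt_of_lt_of_le (by positivity) hs1
  have t1 : e * (16 * X ^ 2) ≤ 544 * (v * X ^ 2) := by
    have h1 : e ≤ 34 * v := he.trans (by linarith)
    have h2 : 0 ≤ 16 * X ^ 2 := by positivity
    calc e * (16 * X ^ 2) ≤ 34 * v * (16 * X ^ 2) := mul_le_mul_of_nonneg_right h1 h2
      _ = _ := by ring
  have t2 : 2 * (e * X ^ 2) * (128 * X / s') ≤ 8704 * (v * X ^ 2) := by
    have h1 : 128 * X / s' ≤ 128 / y := by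
      rw [div_le_div_iff₀ hs0 hy0]
      linarith
    have h2 : 2 * (e * X ^ 2) ≤ 2 * (34 * (v * y) * X ^ 2) := by
      have : e ≤ 34 * (v * y) := by rw [← e2]; exact he
      have h3 := mul_le_mul_of_nonneg_right this (sq_nonneg X)
      linarith
    calc 2 * (e * X ^ 2) * (128 * X / s') ≤ 2 * (34 * (v * y) * X ^ 2) * (128 / y) :=
          mul_le_mul h2 h1 (by positivity) (by positivity)
      _ = _ := by
          field_simp
          ring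
  have t3 : 2 * (4 * (5 * U ^ (-(4 / 5 : ℝ)))) * (256 * X * s') ≤ 20480 * (v * X ^ 2) := by
    have h1 : 256 * X * s' ≤ 256 * X * (2 * (y * X)) :=
      mul_le_mul_of_nonneg_left hs2 (by positivity)
    have h2 : 0 ≤ 2 * (4 * (5 * U ^ (-(4 / 5 : ℝ)))) := by positivity
    refine (mul_le_mul_of_nonneg_left h1 h2).trans (le_of_eq ?_)
    rw [← e3]
    ring
  have t4 : 16384 * b * q ≤ 16384 * b * (v * X ^ 2) := by
    refine mul_le_mul_of_nonneg_left (hq.trans ?_) (by positivity)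
    exact mul_le_mul_of_nonneg_right e4 (sq_nonneg X)
  linarith

/-- `β · 128 p / s` -/
lemma beta_num {b : ℝ} (hb : 0 < b) {u j : ℕ} (hu : 1 ≤ u) (hj : 4 * j ≤ u)
    (hju : (u : ℝ) ≤ 2 ^ j) :
    4 * ((1 + 1 / (1 / (u : ℝ))) * (16 * b * ((2 ^ (u - 4 * j) : ℕ) : ℝ) ^ 2)) *
      (128 * ((2 ^ u : ℕ) : ℝ) / ((2 ^ (u - 4 * j) : ℕ) : ℝ)) ≤
      16384 * b * ((u : ℝ) ^ (-(3 : ℝ)) * ((2 ^ u : ℕ) : ℝ) ^ 2) := by
  have hu1 : (1 : ℝ) ≤ u := by exact_mod_cast hu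
  have hu0 : (0 : ℝ) < u := by linarith
  obtain ⟨d, hd⟩ : ∃ d : ℕ, u = d + 4 * j := ⟨u - 4 * j, by omega⟩
  have hd' : u - 4 * j = d := by omega
  rw [hd']
  obtain ⟨D, hD⟩ : ∃ D : ℝ, D = 2 ^ d := ⟨_, rfl⟩
  have hD0 : 0 < D := by rw [hD]; positivity
  obtain ⟨J, hJ⟩ : ∃ J : ℝ, J = 2 ^ j := ⟨_, rfl⟩
  have hJ0 : 0 < J := by rw [hJ]; positivity
  have e1 : (((2 ^ d : ℕ) : ℝ)) = D := by rw [hD]; push_cast; rfl
  have e2 : (((2 ^ u : ℕ) : ℝ)) = D * J ^ 4 := by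
    rw [hD, hJ, hd]
    push_cast
    rw [pow_add, mul_comm 4 j, pow_mul]
  rw [e1, e2]
  rw [← hJ] at hju
  have e3 : (u : ℝ) ^ (-(3 : ℝ)) = 1 / (u : ℝ) ^ 3 := by
    rw [Real.rpow_neg hu0.le, one_div]
    norm_num
  rw [e3]
  have h1 : 4 * ((1 + 1 / (1 / (u : ℝ))) * (16 * b * D ^ 2)) * (128 * (D * J ^ 4) / D) =
      8192 * b * (1 + u) * (D ^ 2 * J ^ 4) := by
    field_simp
    ring
  rw [h1]
  have h2 : 16384 * b * (1 / (u : ℝ) ^ 3 * (D * J ^ 4) ^ 2) =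
      16384 * b * (D ^ 2 * J ^ 4) * (J ^ 4 / (u : ℝ) ^ 3) := by
    field_simp
  rw [h2]
  have h3 : (u : ℝ) ≤ J ^ 4 / (u : ℝ) ^ 3 := by
    rw [le_div_iff₀ (by positivity)]
    have h4 : (u : ℝ) ^ 4 ≤ J ^ 4 := pow_le_pow_left₀ hu0.le hju 4
    calc (u : ℝ) * (u : ℝ) ^ 3 = (u : ℝ) ^ 4 := by ring
      _ ≤ _ := h4
  have h5 : 8192 * b * (1 + u) * (D ^ 2 * J ^ 4) ≤ 16384 * b * (D ^ 2 * J ^ 4) * u := by
    have h6 : 0 ≤ b * (D ^ 2 * J ^ 4) := by positivity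
    nlinarith
  exact h5.trans (mul_le_mul_of_nonneg_left h3 (by positivity))

variable {P : Par} {b s : ℝ} {N0 : ℕ} {ε Y a : ℕ → ℝ}

/-- the block stiffness against the stiffness of the level -/
lemma crude_lev (h : Chn P b s N0 ε Y a) (hpf : 4 / 5 ≤ s * P.pf)
    (hcr : ∀ᶠ i : ℕ in atTop, stiff (2 ^ i) b - 2 / Real.pi ≤ (i : ℝ) ^ (-(4 / 5 : ℝ))) :
    ∀ᶠ u : ℕ in atTop, (1 + 1 / (u : ℝ)) * stiff (2 ^ (u - 4 * Nat.clog 2 u)) b ≤
      1 / a u + 5 * (u : ℝ) ^ (-(4 / 5 : ℝ)) := by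
  obtain ⟨i0, hi0⟩ := eventually_atTop.1 hcr
  have hs1 : 4 / 5 ≤ s := by
    have h1 := h.adm.pf1
    have h2 := h.adm.pf0
    have h3 := h.s1
    nlinarith
  filter_upwards [ev_clog 8 (2 * i0 + 4), eventually_ge_atTop N0] with u h1 hu
  have h2 : 4 ≤ u := by omega
  have hu1 : (1 : ℝ) ≤ u := by exact_mod_cast (by omega : 1 ≤ u)
  have hu0 : (0 : ℝ) < u := by linarith
  obtain ⟨i, hi⟩ : ∃ i, i = u - 4 * Nat.clog 2 u := ⟨_, rfl⟩
  have hi1 : i0 ≤ i := by omega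
  have hi2 : u ≤ 2 * i := by omega
  rw [← hi]
  have h3 := hi0 i hi1
  have hi2' : (u : ℝ) / 2 ≤ i := by
    have : (u : ℝ) ≤ 2 * i := by exact_mod_cast hi2
    linarith
  obtain ⟨z, hz⟩ : ∃ z, z = (u : ℝ) ^ (-(4 / 5 : ℝ)) := ⟨_, rfl⟩
  have hz0 : 0 < z := by rw [hz]; positivity
  have hz1 : z ≤ 1 := by
    rw [hz]
    exact Real.rpow_le_one_of_one_le_of_nonpos hu1 (by norm_num)
  have hzu : 1 / (u : ℝ) ≤ z := by
    rw [hz, one_div, ← Real.rpow_neg_one]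
    exact Real.rpow_le_rpow_of_exponent_le hu1 (by norm_num)
  have h4 : (i : ℝ) ^ (-(4 / 5 : ℝ)) ≤ 2 * z := by
    have h5 : (i : ℝ) ^ (-(4 / 5 : ℝ)) ≤ ((u : ℝ) / 2) ^ (-(4 / 5 : ℝ)) :=
      Real.rpow_le_rpow_of_nonpos (by positivity) hi2' (by norm_num)
    refine h5.trans ?_
    rw [Real.div_rpow hu0.le (by norm_num), Real.rpow_neg (by norm_num : (0 : ℝ) ≤ 2),
      div_inv_eq_mul, hz, mul_comm]
    refine mul_le_mul_of_nonneg_right ?_ (by positivity)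
    calc (2 : ℝ) ^ (4 / 5 : ℝ) ≤ (2 : ℝ) ^ (1 : ℝ) :=
          Real.rpow_le_rpow_of_exponent_le (by norm_num) (by norm_num)
      _ = 2 := Real.rpow_one 2
  have h6 := (abs_le.1 (h.xa u hu)).1
  have h7 : (u : ℝ) ^ (-s) ≤ z := by
    rw [hz]
    exact Real.rpow_le_rpow_of_exponent_le hu1 (by linarith)
  have h8 : (a u)⁻¹ = 1 / a u := (one_div _).symm
  rw [h8] at h6
  obtain ⟨S, hS⟩ : ∃ S, S = stiff (2 ^ i) b := ⟨_, rfl⟩
  rw [← hS] at h3 ⊢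
  have hS0 : 0 ≤ S := by
    rw [hS]
    exact UJ.h3_stiff_nonneg h.hb Nat.one_le_two_pow
  have hpi : 2 / Real.pi ≤ 2 / 3 :=
    div_le_div_of_nonneg_left (by norm_num) (by norm_num) Real.pi_gt_three.le
  rw [← hz]
  by_cases hz2 : z ≤ 1 / 2
  · have hS2 : S ≤ 2 := by linarith
    have h9 : 1 / (u : ℝ) * S ≤ z * 2 := mul_le_mul hzu hS2 hS0 hz0.le
    linarith
  · -- trivial for `z > 1/2`
    push Not at hz2
    have hS2 : S ≤ 8 / 3 := by linarith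
    have h10 : z ≤ 1 / 3 ∨ 1 / 3 < z := le_or_gt _ _
    exfalso
    have h11 : (4 : ℝ) ^ (-(4 / 5 : ℝ)) ≤ 1 / 2 := by
      have e1 : (4 : ℝ) = 2 ^ (2 : ℝ) := by norm_num
      have e2 : (1 / 2 : ℝ) = 2 ^ (-(1 : ℝ)) := by
        rw [Real.rpow_neg_one]; norm_num
      rw [e1, e2, ← Real.rpow_mul (by norm_num)]
      exact Real.rpow_le_rpow_of_exponent_le (by norm_num) (by norm_num)
    have h12 : z ≤ (4 : ℝ) ^ (-(4 / 5 : ℝ)) := by
      rw [hz]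
      exact Real.rpow_le_rpow_of_nonpos (by norm_num) (by exact_mod_cast h2) (by norm_num)
    linarith

/-- **the start of the chain, sharp form** -/
theorem start_Xv (h : Chn P b s N0 ε Y a) (hpf : 4 / 5 ≤ s * P.pf) {c1 : ℝ} (hc1 : 1 ≤ c1)
    (hK1 : KP P b c1 N0 ε a)
    (hcr : ∀ᶠ i : ℕ in atTop, stiff (2 ^ i) b - 2 / Real.pi ≤ (i : ℝ) ^ (-(4 / 5 : ℝ))) :
    ∃ C : ℝ, 0 < C ∧ ∀ᶠ u : ℕ in atTop,
      Xf (2 ^ tor P ε u 0) b (tn u) (a u) (em (2 ^ tor P ε u 0) (fv u)) ≤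
        C * (u : ℝ) ^ (-(6 / 5 : ℝ)) * 4 ^ u := by
  have hb := h.hb
  have hpf0 := h.adm.pf0
  have hs0 : 0 < s := by linarith [h.s1]
  obtain ⟨u0, hu0⟩ := ev_Lrg P N0 1
  refine ⟨max 1 (2 * b) * (29728 + 16384 * b), by positivity, ?_⟩
  filter_upwards [eventually_ge_atTop u0, crude_lev h hpf hcr, ev_clog 4 4] with u h1 h2 h3
  have hL := hu0 u h1
  have hu := hL.u0
  obtain ⟨ha1, ha2⟩ := h.a1 u hu
  have hε := h.εpos hu
  have hn0 := h.npos hu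
  have hu1 : (1 : ℝ) ≤ u := by exact_mod_cast (by omega : 1 ≤ u)
  obtain ⟨j, hj⟩ : ∃ j, j = Nat.clog 2 u := ⟨_, rfl⟩
  have hfv : fv u = smz (2 ^ (u - 4 * j)) (pf (4 * 2 ^ u) (4 * 2 ^ u) ((2 ^ u : ℕ) : ℤ)) := by
    rw [hj]; rfl
  rw [← hj] at h2 h3
  have hju : (u : ℝ) ≤ 2 ^ j := by rw [hj]; exact clog_ge u
  have hT : P.TT u (ε u) (tor P ε u 0) := tor_TT h hL (i := 0) (Nat.zero_le _)
  have hP := hK1 u hu _ hT (a u) 0 (by simp)
  rw [add_zero] at hP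
  have hr : u + 3 ≤ tor P ε u 0 := by
    have h1 := tor_ge h (u := u) (i := 0) hu
    have h2 := lev_ge h u (0 + 1)
    have h3 := h.adm.hk
    omega
  generalize htr : tor P ε u 0 = r at hT hP hr ⊢
  have q2 : 8 * 2 ^ u ≤ 2 ^ r := by
    calc 8 * 2 ^ u = 2 ^ (u + 3) := by rw [pow_add]; ring
      _ ≤ _ := Nat.pow_le_pow_right (by norm_num) hr
  have q2' : 8 * ((2 ^ u : ℕ) : ℤ) ≤ ((2 ^ r : ℕ) : ℤ) := by exact_mod_cast q2
  have q4' : (0 : ℤ) < ((2 ^ u : ℕ) : ℤ) := by exact_mod_cast Nat.two_pow_pos u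
  have q5 : (2 : ℤ) ^ u = ((2 ^ u : ℕ) : ℤ) := by push_cast; rfl
  -- the second scale
  obtain ⟨X, hX⟩ : ∃ X : ℝ, X = ((2 ^ u : ℕ) : ℝ) := ⟨_, rfl⟩
  have hX0 : 0 < X := by rw [hX]; positivity
  obtain ⟨x, hx⟩ : ∃ x : ℝ, x = (u : ℝ) ^ (-(2 / 5 : ℝ)) * X := ⟨_, rfl⟩
  have hx1 : 1 ≤ x := by
    have e1 : (u : ℝ) ^ (-(1 : ℝ)) ≤ (u : ℝ) ^ (-(2 / 5 : ℝ)) :=
      Real.rpow_le_rpow_of_exponent_le hu1 (by norm_num)
    have e2 : (u : ℝ) ≤ X := by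
      rw [hX]
      exact_mod_cast (Nat.lt_two_pow_self (n := u)).le
    have e3 : (u : ℝ) ^ (-(1 : ℝ)) * u = 1 := by
      rw [Real.rpow_neg_one]
      exact inv_mul_cancel₀ hn0.ne'
    rw [hx]
    calc (1 : ℝ) = (u : ℝ) ^ (-(1 : ℝ)) * u := e3.symm
      _ ≤ _ := mul_le_mul e1 e2 hn0.le (by positivity)
  have hxX : x ≤ X := by
    rw [hx]
    refine mul_le_of_le_one_left hX0.le ?_
    exact Real.rpow_le_one_of_one_le_of_nonpos hu1 (by norm_num)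
  obtain ⟨s', hs'⟩ : ∃ s' : ℕ, s' = ⌈x⌉₊ := ⟨_, rfl⟩
  have k1 : x ≤ s' := by rw [hs']; exact Nat.le_ceil x
  have k2 : (s' : ℝ) ≤ 2 * x := by
    have := (Nat.ceil_lt_add_one (by linarith : 0 ≤ x)).le
    rw [← hs'] at this
    linarith
  have k3 : s' ≤ 2 * 2 ^ u := by
    have : (s' : ℝ) ≤ ((2 * 2 ^ u : ℕ) : ℝ) := by
      push_cast
      rw [hX] at hxX
      push_cast at hxX
      linarith
    exact_mod_cast this
  have k3' : (s' : ℤ) ≤ 2 * ((2 ^ u : ℕ) : ℤ) := by exact_mod_cast k3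
  have k4 : 2 ^ (u - 4 * j) ≤ s' := by
    have e1 : ((2 ^ (u - 4 * j) : ℕ) : ℝ) ≤ x := by
      have e2 : (2 : ℝ) ^ (u - 4 * j) * (2 : ℝ) ^ (4 * j) = 2 ^ u := by
        rw [← pow_add]
        congr 1
        omega
      have e3 : (u : ℝ) ^ (2 / 5 : ℝ) ≤ (2 : ℝ) ^ (4 * j) := by
        calc (u : ℝ) ^ (2 / 5 : ℝ) ≤ (u : ℝ) ^ (1 : ℝ) :=
              Real.rpow_le_rpow_of_exponent_le hu1 (by norm_num)
          _ = u := Real.rpow_one _
          _ ≤ 2 ^ j := hju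
          _ ≤ 2 ^ (4 * j) := pow_le_pow_right₀ (by norm_num) (by omega)
      have e4 : (u : ℝ) ^ (-(2 / 5 : ℝ)) * (u : ℝ) ^ (2 / 5 : ℝ) = 1 := by
        rw [← Real.rpow_add hn0]; norm_num
      have e5 : (0 : ℝ) < (u : ℝ) ^ (-(2 / 5 : ℝ)) := by positivity
      rw [hx, hX]
      push_cast
      calc (2 : ℝ) ^ (u - 4 * j) = (u : ℝ) ^ (-(2 / 5 : ℝ)) *
            (2 ^ (u - 4 * j) * (u : ℝ) ^ (2 / 5 : ℝ)) := by
            rw [mul_left_comm, e4, mul_one]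
        _ ≤ (u : ℝ) ^ (-(2 / 5 : ℝ)) * (2 ^ (u - 4 * j) * 2 ^ (4 * j)) := by gcongr
        _ = _ := by rw [e2]
    have e6 := e1.trans k1
    exact_mod_cast e6
  -- blocks
  have hN : 2 ^ r = 2 ^ (r - (u - 4 * j)) * 2 ^ (u - 4 * j) := by
    rw [← pow_add]
    congr 1
    omega
  have hblk := blk_modes (N := 2 ^ r) (S := 0) (t := tn u) (a := a u) (x := 5 * (u : ℝ) ^ (-(4 / 5 : ℝ)))
    (h := 1 / (u : ℝ)) hN hb Nat.one_le_two_pow (tn_pos u) (by linarith) ha2 (by positivity) h2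
    (by positivity)
  have hX' := xf_pyrU (N := 2 ^ r) (x0 := 4 * 2 ^ u) (y0 := 4 * 2 ^ u) (p := 2 ^ u)
    (s := 2 ^ (u - 4 * j)) (s' := s') (C := max 1 (2 * b)) hb (tn_pos u) hP
    (by positivity : 0 < 1 / b) (by linarith : 0 ≤ a u) (by positivity) (by positivity)
    (le_max_left _ _) (by
      have e1 : 2 * b ≤ max 1 (2 * b) := le_max_right _ _
      rw [mul_one_div, le_div_iff₀ hb]
      nlinarith) (by positivity) (by positivity) hblk Nat.one_le_two_pow Nat.one_le_two_pow k4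
    (by rw [q5]; omega) (by rw [q5]; omega) (by rw [q5]; omega) (by rw [q5]; omega)
  rw [hfv]
  refine hX'.trans ?_
  rw [mul_assoc (max 1 (2 * b)) _ _, mul_assoc (max 1 (2 * b)) _ _]
  have hM0 : (0 : ℝ) ≤ max 1 (2 * b) := le_trans zero_le_one (le_max_left _ _)
  refine mul_le_mul_of_nonneg_left ?_ hM0
  have hp2 : X ^ 2 = 4 ^ u := by
    rw [hX]
    push_cast
    rw [← pow_mul, mul_comm u 2, pow_mul]
    norm_num
  have htX : 34 * ε u ^ P.pf / tn u = 34 * ε u ^ P.pf * X ^ 2 := by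
    rw [hp2]
    unfold tn
    rw [div_inv_eq_mul]
  have he : 34 * ε u ^ P.pf ≤ 34 * (u : ℝ) ^ (-(8 / 5 : ℝ)) := by
    have := h.ε_pow hu le_rfl (q := P.pf) (c := 8 / 5) hpf0.le (by norm_num) (by linarith)
    linarith
  have hβ := beta_num hb (u := u) (j := j) (by omega) (by omega) hju
  rw [htX, ← hX]
  rw [← hX] at hβ
  have hfin := start_sc (b := b) (U := (u : ℝ)) (X := X) (e := 34 * ε u ^ P.pf) (s' := s')
    (w := 0) (c := 0) (q := (u : ℝ) ^ (-(3 : ℝ)) * X ^ 2) hb hu1 hX0.le (by positivity) he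
    (by rw [← hx]; exact k1) (by rw [← hx]; exact k2) hX0 le_rfl
  rw [← hp2]
  linarith

end Vale.Agent.P159.H282.Ls
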