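import Vale.Agent.P159.H282.Ls3
import Vale.Agent.P159.H972.Lk8
import Vale.Agent.P159.H692.LkFin
import Vale.Agent.P159.H730.Lsl

/-!
P159 / LINKW with the sharp error (helper282), assembly: **along the flow at the critical point the
stiffness of the squares is `1 / a u` up to `u ^ (-11/10)` and `O(log u)` levels**, both halves
(helper972's chain, helper692's inputs, helper730's lower half).
-/

set_option linter.all false

open Filter Topology

namespace Vale.Agent.P159.H282.Ls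

open Vale.Agent.P159
open Vale.Agent.P159.H801 (SFlow Ev)
open Vale.Agent.P159.H972 (KXv)

/-- the stiffness function of the flow against the stiffness of the squares -/
structure SharpL (b : ℝ) (a : ℕ → ℝ) : Prop where
  up : ∃ q : ℕ, ∀ᶠ u : ℕ in atTop, ∀ L : ℕ, 2 ^ (u + q * Nat.clog 2 u) ≤ L →
    stiff L b ≤ 1 / a u + (u : ℝ) ^ (-(11 / 10 : ℝ))
  lo : ∃ q : ℕ, ∀ᶠ u : ℕ in atTop,
    1 / a (u + q * Nat.clog 2 u) - (u : ℝ) ^ (-(11 / 10 : ℝ)) ≤ stiff (2 ^ u) b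

/-- the upper half at the powers of two -/
theorem SharpL.up2 {b : ℝ} {a : ℕ → ℝ} (h : SharpL b a) :
    ∃ q : ℕ, ∀ᶠ u : ℕ in atTop,
      stiff (2 ^ (u + q * Nat.clog 2 u)) b ≤ 1 / a u + (u : ℝ) ^ (-(11 / 10 : ℝ)) := by
  obtain ⟨q, hq⟩ := h.up
  exact ⟨q, hq.mono fun u hu => hu _ le_rfl⟩

/-- **LINKW with the sharp error**, both halves, in the order of constants -/
theorem sharp_ev {b b1 b2 qx c : ℝ} (Q : ℕ) (hb1 : 0 < b1) (hY : helicity b = 2 / Real.pi)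
    (h1 : b1 ≤ b) (h2 : b ≤ b2) (hc : 0 ≤ c) (hc2 : c ≤ 1 / 80) :
    Ev b1 b2 (9 / 10) Q fun P c1 => ∀ (q2 : ℝ) (a y ε xs : ℕ → ℝ) (c' r q A : ℝ) (N : ℕ),
      SFlow P b (1 / 20) c c1 q2 qx a y ε xs c' r q A N → SharpL b a := by
  have hb : 0 < b := hb1.trans_le h1
  obtain ⟨q', hpre⟩ := H972.link_pre hb
  have g1 := hpre (b1 := b1) (b2 := b2) (pf := 9 / 10) (σ := 1 / 20) (c := c) (qx := qx) hb1 h1
    (by norm_num) hY (by norm_num) (by norm_num) hc (by linarith) Q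
  have g2 := H692.lks_flow (b := b) (b1 := b1) (b2 := b2) (pf := 9 / 10) (σ := 1 / 20) (c := c)
    (s := 4 / 5) (qx := qx) (Q := Q) hb1 hY h1 h2 (by norm_num) (by norm_num) (by norm_num) hc
    (by linarith) (by linarith)
  refine (g1.and g2).mono fun P c1 _ hh => ?_
  intro q2 a y ε xs c' r q A N F
  obtain ⟨N0, Y, k1, hk1, hpf, hC, hK, hR⟩ := hh.1 q2 a y ε xs c' r q A N F
  have hcr := hh.2 q2 a y ε xs c' r q A N F
  have hs : (4 / 5 : ℝ) ≤ 23 / 25 * P.pf := by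
    rw [hpf]
    norm_num
  obtain ⟨C, hC0, hX⟩ := start_Xv hC hs hk1 hK hcr
  refine ⟨⟨q', ?_⟩, H730.hLl hC hs⟩
  filter_upwards [hR ⟨C, hX⟩ (11 / 10) (by norm_num)] with u hu L hL
  rw [one_div]
  exact hu L hL

/-- **the sharp relation at a point with the flow of the master** (a consumer `Z` of the flow may use
it) -/
theorem sharp_of {b b1 b2 qx : ℝ} {Q : ℕ} (hb1 : 0 < b1) (hY : helicity b = 2 / Real.pi)
    (h1 : b1 ≤ b) (h2 : b ≤ b2) (H : H692.MasterZ b b1 b2 qx Q) {Z : Prop}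
    (hZ : ∀ (P : H972.Par) (c1 q2 : ℝ) (a y ε xs : ℕ → ℝ) (c' r q A : ℝ) (N : ℕ), P.Adm →
      SFlow P b (1 / 20) (1 / 80) c1 q2 qx a y ε xs c' r q A N → SharpL b a → Z) : Z := by
  refine H (1 / 80) (by norm_num) le_rfl Z ?_
  refine (sharp_ev (qx := qx) Q hb1 hY h1 h2 (by norm_num) le_rfl).mono fun P c1 hP hh => ?_
  intro q2 a y ε xs c' r q A N F
  exact hZ P c1 q2 a y ε xs c' r q A N hP F (hh q2 a y ε xs c' r q A N F)

end Vale.Agent.P159.H282.Ls
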