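import Vale.Agent.P159.H282.Ls7
import Vale.Agent.P159.H415.Ls6a
import Vale.Agent.P159.H801.Fin2

/-!
P159 / sharp logarithms (helper282): **the stiffness at the critical point and its flow**, from the V
family (the only input).
-/

set_option linter.all false

open Filter Topology

namespace Vale.Agent.P159.H282.Ls

open Vale.Agent.P159
open Vale.Agent.P159.H801 (VHalf VFam final_z vfam_crit)
open Vale.Agent.P159.H415.Ls (Shp shp_of)

/-- the master at the critical point -/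
theorem masterZ_crit {b1 b2 qx : ℝ} {Q : ℕ} (hb1 : 0 < b1) (h1 : b1 ≤ bCrit) (h2 : bCrit ≤ b2)
    (hqx0 : 0 < qx) (hqx : qx ≤ 18 / 25) (hV : VFam b1 b2 qx Q) :
    H692.MasterZ bCrit b1 b2 qx Q := by
  intro c hc hc1 Z hZ
  exact final_z hb1 h1 h2 hqx0 hqx hc hc1 hV hZ

/-- **the stiffness at the critical point and its flow** -/
theorem shp_crit {b1 b2 K : ℝ} {Q : ℕ} (hb1 : 0 < b1) (h1 : b1 ≤ bCrit) (h2 : bCrit ≤ b2)
    (hV : VHalf b1 b2 K Q) : ∃ (x : ℕ → ℝ) (C s : ℝ), Shp bCrit x C s := by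
  have hY : helicity bCrit = 2 / Real.pi := Vale.Agent.P159.TM.Frame.T1
  have hF : VFam b1 b2 (1 / 2) Q := vfam_crit hb1 h1 h2 (by norm_num) hV
  refine sharp_of (b := bCrit) (qx := 1 / 2) hb1 hY h1 h2
    (masterZ_crit hb1 h1 h2 (by norm_num) (by norm_num) hF) ?_
  intro P c1 q2 a y ε xs c' r q A N _ F h
  obtain ⟨C, s, hS⟩ := shp_of (hb1.trans_le h1).le F h.up2 h.lo
  exact ⟨xs, C, s, hS⟩

end Vale.Agent.P159.H282.Ls
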