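import Vale.Agent.P159.H282.Up3

/-!
P159 / sharp logarithms (helper282): the correlation length and the susceptibility from the sharp
upper bounds of the excess of the stiffness at the critical point:
`log ξ(b) ≤ C (1 / (b_c - b)) (log (1 / (b_c - b))) ^ 2`.
-/

set_option linter.all false

open Filter Topology
open scoped BigOperators

namespace Vale.Agent.P159.UJ.H282.Ex

/-- numbers -/
theorem ev_sh {B w0' : ℝ} (N1 : ℕ) : ∀ᶠ w : ℝ in atTop, 1 ≤ w ∧ 1 ≤ Real.log w ∧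
    (N1 : ℝ) ≤ w ∧ B ≤ w := by
  have h1 : ∀ᶠ w : ℝ in atTop, 1 ≤ w := eventually_ge_atTop 1
  have h2 : ∀ᶠ w : ℝ in atTop, 1 ≤ Real.log w := Real.tendsto_log_atTop.eventually_ge_atTop 1
  filter_upwards [h1, h2, eventually_ge_atTop (N1 : ℝ), eventually_ge_atTop B] with w a1 a2 a3 a4
  exact ⟨a1, a2, a3, a4⟩

/-- **the correlation length and the susceptibility**, from the sharp bounds -/
theorem xi_sharp {KT Kx : ℝ}
    (hT : ∀ᶠ N : ℕ in atTop,
      ∑ j ∈ Finset.range N, (stiff (2 ^ j) bCrit - 2 / Real.pi) ≤ KT * Real.log N)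
    (hx : ∀ᶠ N : ℕ in atTop, stiff (2 ^ N) bCrit - 2 / Real.pi ≤ Kx / N) :
    ∃ C η : ℝ, 0 < C ∧ 0 < η ∧ ∀ b : ℝ, bCrit - η < b → b < bCrit →
      Real.log (corrLength b) ≤ C * (1 / (bCrit - b) * Real.log (1 / (bCrit - b)) ^ 2) ∧
      Real.log (∑' x : ℤ × ℤ, corrInf b x) ≤
        C * (1 / (bCrit - b) * Real.log (1 / (bCrit - b)) ^ 2) := by
  have hbc0 : 0 < bCrit := Vale.Agent.P159.H170.bCrit_pos
  have hpi := Real.pi_pos
  have hhel : helicity bCrit = 2 / Real.pi := Vale.Agent.P159.TM.Frame.T1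
  obtain ⟨C, d, hC, hd, hexit⟩ := exit_b
  obtain ⟨K0, htop⟩ := Vale.Agent.P159.H856.nc_exit_of NC.sharpNC hhel hd
  obtain ⟨K, hK⟩ : ∃ K, K = max K0 0 := ⟨_, rfl⟩
  have hKK : K0 ≤ K := by rw [hK]; exact le_max_left _ _
  have hK0 : 0 ≤ K := by rw [hK]; exact le_max_right _ _
  obtain ⟨c2, hc20, htr⟩ := Vale.Agent.P159.H856.transv
  obtain ⟨N1, hN1⟩ := eventually_atTop.1 (hT.and hx)
  obtain ⟨B, hB⟩ : ∃ B, B = max (2 * Kx / c2) 1 := ⟨_, rfl⟩
  have hB1 : 1 ≤ B := by rw [hB]; exact le_max_right _ _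
  have hB2 : 2 * Kx / c2 ≤ B := by rw [hB]; exact le_max_left _ _
  obtain ⟨T, hTd⟩ : ∃ T, T = max KT 0 := ⟨_, rfl⟩
  have hT0 : 0 ≤ T := by rw [hTd]; exact le_max_right _ _
  have hTK : KT ≤ T := by rw [hTd]; exact le_max_left _ _
  obtain ⟨A1, hA1⟩ : ∃ A1, A1 = 2 + |Real.log (2 / c2)| := ⟨_, rfl⟩
  obtain ⟨A2, hA2⟩ : ∃ A2, A2 = 1 + T * (|Real.log (2 * B)| + 1) := ⟨_, rfl⟩
  have hA10 : 0 < A1 := by rw [hA1]; positivity
  have hA20 : 0 < A2 := by rw [hA2]; positivity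
  obtain ⟨A, hA⟩ : ∃ A, A = 4 * B + C * (2 / c2) * (A1 * A2) := ⟨_, rfl⟩
  have hA0 : 0 < A := by rw [hA]; positivity
  obtain ⟨w0, hw0⟩ := eventually_atTop.1 (ev_sh (B := c2 / 2) (w0' := 0) (N1 + 1))
  obtain ⟨w1, hw1⟩ : ∃ w1, w1 = max (max w0 1) (2 / bCrit) := ⟨_, rfl⟩
  have hw1a : w0 ≤ w1 := by rw [hw1]; exact (le_max_left _ _).trans (le_max_left _ _)
  have hw1b : 1 ≤ w1 := by rw [hw1]; exact (le_max_right _ _).trans (le_max_left _ _)
  have hw1c : 2 / bCrit ≤ w1 := by rw [hw1]; exact le_max_right _ _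
  obtain ⟨D, hD⟩ : ∃ D, D = 2 * (A + 1) + K := ⟨_, rfl⟩
  have hD0 : 0 < D := by rw [hD]; positivity
  have hl9 : 0 ≤ Real.log 9 := Real.log_nonneg (by norm_num)
  refine ⟨Real.log 9 + 2 * D, 1 / w1, by positivity, by positivity, ?_⟩
  intro b hb1 hb2
  obtain ⟨t, ht⟩ : ∃ t, t = bCrit - b := ⟨_, rfl⟩
  have ht0 : 0 < t := by rw [ht]; linarith only [hb2]
  have ht2 : t < 1 / w1 := by linarith only [ht, hb1]
  obtain ⟨w, hw⟩ : ∃ w, w = 1 / t := ⟨_, rfl⟩
  have hww : w1 ≤ w := by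
    rw [hw, le_div_iff₀ ht0]
    rw [lt_div_iff₀ (by linarith only [hw1b])] at ht2
    linarith only [ht2, mul_comm t w1]
  have hwt : w * t = 1 := by rw [hw]; field_simp
  have hb : 0 < b := by
    have h1 : 2 / bCrit ≤ w := hw1c.trans hww
    rw [hw, div_le_div_iff₀ hbc0 ht0] at h1
    linarith only [h1, ht, hbc0]
  obtain ⟨n1, n2, n3, n4⟩ := hw0 w (hw1a.trans hww)
  have hwp : 0 < w := by linarith only [n1]
  obtain ⟨l, hl⟩ : ∃ l, l = Real.log w := ⟨_, rfl⟩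
  rw [← hl] at n2
  have hl0 : 0 < l := by linarith only [n2]
  -- the scale of the exit
  obtain ⟨N0, hN0⟩ : ∃ N0, N0 = ⌈B * w⌉₊ := ⟨_, rfl⟩
  have hN0a : B * w ≤ N0 := by rw [hN0]; exact Nat.le_ceil _
  have hBw : w ≤ B * w := by nlinarith only [hB1, hwp]
  have hN0b : (N0 : ℝ) ≤ B * w + 1 := by
    rw [hN0]; exact (Nat.ceil_lt_add_one (by positivity)).le
  have hN0c : (N0 : ℝ) ≤ 2 * B * w := by linarith only [hN0b, hBw, n1]
  have hN0N : N1 ≤ N0 := by
    have h1 : ((N1 + 1 : ℕ) : ℝ) ≤ N0 := n3.trans (hBw.trans hN0a)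
    have h2 : N1 + 1 ≤ N0 := by exact_mod_cast h1
    omega
  have hN0p : (0 : ℝ) < N0 := by linarith only [hN0a, hBw, hwp]
  have hx0 : ∀ j, 0 ≤ stiff (2 ^ j) bCrit - 2 / Real.pi := fun j => by
    have := Vale.Agent.P159.H177.helicity_le hbc0.le (l := 2 ^ j) Nat.one_le_two_pow
    rw [hhel] at this
    linarith only [this]
  obtain ⟨hT1, hX1⟩ := hN1 N0 hN0N
  -- the excess at the critical point on the scale `N0`
  have hX : stiff (2 ^ N0) bCrit - 2 / Real.pi ≤ c2 * t / 2 := by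
    refine hX1.trans ?_
    rw [div_le_iff₀ hN0p]
    have h1 : 2 * Kx ≤ B * c2 := by
      rw [div_le_iff₀ hc20] at hB2
      exact hB2
    have h2 : c2 * t / 2 * (B * w) ≤ c2 * t / 2 * N0 :=
      mul_le_mul_of_nonneg_left hN0a (by positivity)
    have h3 : c2 * t / 2 * (B * w) = B * c2 / 2 * (w * t) := by ring
    rw [h3, hwt] at h2
    linarith only [h1, h2]
  -- exit
  obtain ⟨δ, hδ⟩ : ∃ δ, δ = c2 * t / 2 := ⟨_, rfl⟩
  have hδ0' : 0 < δ := by rw [hδ]; positivity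
  have hδ1 : δ ≤ 1 := by
    rw [hδ]
    have := mul_le_mul_of_nonneg_right n4 ht0.le
    linarith only [this, hwt]
  have hδi : 1 / δ = 2 / c2 * w := by rw [hδ, hw]; field_simp
  have hst : stiff (2 ^ N0) b ≤ 2 / Real.pi - δ := by
    have h1 := htr b hb hb2.le (2 ^ N0) Nat.one_le_two_pow
    rw [← ht] at h1
    linarith only [h1, hX, hδ]
  obtain ⟨N, hN⟩ : ∃ N : ℕ, N = ⌊A * (w * l ^ 2)⌋₊ + 1 := ⟨_, rfl⟩
  have hNa : A * (w * l ^ 2) < N := by
    rw [hN]; push_cast; exact Nat.lt_floor_add_one _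
  have hNb : (N : ℝ) ≤ A * (w * l ^ 2) + 1 := by
    rw [hN]; push_cast
    have := Nat.floor_le (show 0 ≤ A * (w * l ^ 2) by positivity)
    linarith only [this]
  have hTs : 1 + ∑ j ∈ Finset.range N0, max (stiff (2 ^ j) b - 2 / Real.pi) 0 ≤ A2 * l := by
    have h1 : ∑ j ∈ Finset.range N0, max (stiff (2 ^ j) b - 2 / Real.pi) 0 ≤
        ∑ j ∈ Finset.range N0, (stiff (2 ^ j) bCrit - 2 / Real.pi) := by
      refine Finset.sum_le_sum fun j _ => max_le ?_ (hx0 j)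
      have := Vale.Agent.P159.H873.stiff_monotoneOn (l := 2 ^ j) Nat.one_le_two_pow
        (Set.mem_Ici.2 hb.le) (Set.mem_Ici.2 hbc0.le) hb2.le
      linarith only [this]
    have h2 : Real.log N0 ≤ |Real.log (2 * B)| + l := by
      have h3 := Real.log_le_log hN0p hN0c
      rw [Real.log_mul (by positivity) hwp.ne', ← hl] at h3
      linarith only [h3, le_abs_self (Real.log (2 * B))]
    have h4 : 0 ≤ Real.log N0 := by
      refine Real.log_nonneg ?_
      linarith only [hN0a, hBw, n1]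
    have h5 : KT * Real.log N0 ≤ T * Real.log N0 := mul_le_mul_of_nonneg_right hTK h4
    have h6 : T * Real.log N0 ≤ T * (|Real.log (2 * B)| + l) := mul_le_mul_of_nonneg_left h2 hT0
    have h7 : |Real.log (2 * B)| + l ≤ (|Real.log (2 * B)| + 1) * l := by
      have h8 := abs_nonneg (Real.log (2 * B))
      nlinarith only [h8, n2]
    have h8 := mul_le_mul_of_nonneg_left h7 hT0
    have h9 : A2 * l = l + T * ((|Real.log (2 * B)| + 1) * l) := by rw [hA2]; ring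
    linarith only [h1, hT1, h5, h6, h8, h9, n2]
  have hlδ : 1 + Real.log (2 / c2 * w) ≤ A1 * l := by
    rw [Real.log_mul (by positivity) hwp.ne', ← hl]
    have h8 := abs_nonneg (Real.log (2 / c2))
    have h9 := le_abs_self (Real.log (2 / c2))
    have h10 : |Real.log (2 / c2)| ≤ |Real.log (2 / c2)| * l := by nlinarith only [h8, n2]
    have h11 : A1 * l = 2 * l + |Real.log (2 / c2)| * l := by rw [hA1]; ring
    linarith only [h9, h10, h11, n2]
  have hst2 : stiff (2 ^ N) b ≤ 2 / Real.pi - d := by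
    by_contra hcon
    push Not at hcon
    have h1 := hexit b hb hb2.le N0 N δ hδ0' hδ1 hst hcon.le
    rw [hδi] at h1
    have h4 : 0 ≤ ∑ j ∈ Finset.range N0, max (stiff (2 ^ j) b - 2 / Real.pi) 0 :=
      Finset.sum_nonneg fun j _ => le_max_right _ _
    have h2 : (1 + Real.log (2 / c2 * w)) *
        (1 + ∑ j ∈ Finset.range N0, max (stiff (2 ^ j) b - 2 / Real.pi) 0) ≤
        (A1 * l) * (A2 * l) :=
      mul_le_mul hlδ hTs (by linarith only [h4]) (by positivity)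
    have h3 : C * (2 / c2 * w) * (1 + Real.log (2 / c2 * w)) *
        (1 + ∑ j ∈ Finset.range N0, max (stiff (2 ^ j) b - 2 / Real.pi) 0) ≤
        C * (2 / c2) * (A1 * A2) * (w * l ^ 2) := by
      have h5 := mul_le_mul_of_nonneg_left h2 (show 0 ≤ C * (2 / c2 * w) by positivity)
      refine le_trans (le_of_eq (by ring)) (h5.trans (le_of_eq (by ring)))
    have h6 : w ≤ w * l ^ 2 := by
      have : 1 ≤ l ^ 2 := one_le_pow₀ n2
      nlinarith only [this, hwp]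
    have h7 : 2 * (N0 : ℝ) ≤ 4 * B * (w * l ^ 2) := by
      have := mul_le_mul_of_nonneg_left h6 (show 0 ≤ 4 * B by positivity)
      linarith only [this, hN0c]
    have h8 : A * (w * l ^ 2) = 4 * B * (w * l ^ 2) + C * (2 / c2) * (A1 * A2) * (w * l ^ 2) := by
      rw [hA]; ring
    linarith only [h1, h3, h7, h8, hNa]
  -- the correlation length
  have hxi := htop b hb hb2 (2 ^ N) Nat.one_le_two_pow hst2
  have hlogL : Real.log ((2 ^ N : ℕ) : ℝ) ≤ N := by
    rw [Nat.cast_pow, Real.log_pow]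
    push_cast
    have h2 := Real.log_two_lt_d9
    have h3 := Nat.cast_nonneg (α := ℝ) N
    nlinarith only [h2, h3]
  have hw14 : 1 ≤ w * l ^ 2 := one_le_mul_of_one_le_of_one_le n1 (one_le_pow₀ n2)
  have hfin : Real.log (corrLength b) ≤ D * (w * l ^ 2) := by
    have h1 := mul_le_mul_of_nonneg_left hw14 hK0
    have h2 : D * (w * l ^ 2) = 2 * (A * (w * l ^ 2)) + 2 * (w * l ^ 2) + K * (w * l ^ 2) := by
      rw [hD]; ring
    linarith only [hxi, hlogL, hNb, hw14, hKK, h1, h2]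
  have hDw : 0 ≤ D * (w * l ^ 2) := by positivity
  have hlw : 0 ≤ Real.log 9 * (w * l ^ 2) := by positivity
  have h9w : Real.log 9 ≤ Real.log 9 * (w * l ^ 2) := by
    have := mul_le_mul_of_nonneg_left hw14 hl9
    linarith only [this]
  rw [← ht, ← hw, ← hl]
  have e1 : (Real.log 9 + 2 * D) * (w * l ^ 2) =
      Real.log 9 * (w * l ^ 2) + 2 * (D * (w * l ^ 2)) := by ring
  rw [e1]
  refine ⟨by linarith only [hfin, hDw, hlw], ?_⟩
  have h4 := chi_log hb hb2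
  have h6 : max (Real.log (corrLength b)) 0 ≤ D * (w * l ^ 2) := max_le hfin hDw
  linarith only [h4, h6, h9w]

end Vale.Agent.P159.UJ.H282.Ex
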