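import Vale.Agent.P159.H282.Up2

/-!
# The statement of the hand-in on the correlation length, from the sum of the excesses
-/

set_option linter.all false

open Filter Topology
open scoped BigOperators

namespace Vale.Agent.P159.UJ.H282.Ex

/-- the susceptibility -/
theorem chi_log {b : ℝ} (hb : 0 < b) (h : b < bCrit) :
    Real.log (∑' x : ℤ × ℤ, corrInf b x) ≤ Real.log 9 + 2 * max (Real.log (corrLength b)) 0 := by
  have hm := XY.mass_pos_of_lt_bCrit hb h
  have h1 := XY.chi_upper hb hm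
  have e1 : (∑' x : ℤ × ℤ, corrInf b x) = XY.chi b := by
    unfold XY.chi
    exact tsum_congr fun x => XY.corrInf_eq hb.le x
  obtain ⟨ξ, hξ⟩ : ∃ ξ, ξ = corrLength b := ⟨_, rfl⟩
  have hξm : ξ = 1 / mass b := by rw [hξ]; rfl
  have hξ0 : 0 < ξ := by rw [hξm]; positivity
  have h2 : XY.chi b ≤ 1 + 8 * ξ ^ 2 := by
    refine h1.trans (le_of_eq ?_)
    rw [hξm]
    field_simp
  have hchi0 : 1 ≤ XY.chi b := by
    have h3 := XY.one_le_chiw hb (a := 0) (by rw [abs_zero]; exact hm)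
    unfold XY.chiw at h3
    unfold XY.chi
    simpa using h3
  rw [e1, ← hξ]
  obtain ⟨z, hz⟩ : ∃ z, z = max ξ 1 := ⟨_, rfl⟩
  have hz1 : 1 ≤ z := by rw [hz]; exact le_max_right _ _
  have hzξ : ξ ≤ z := by rw [hz]; exact le_max_left _ _
  have h3 : XY.chi b ≤ 9 * z ^ 2 := by
    have h4 : ξ ^ 2 ≤ z ^ 2 := pow_le_pow_left₀ hξ0.le hzξ 2
    have h5 : 1 ≤ z ^ 2 := one_le_pow₀ hz1
    linarith only [h2, h4, h5]
  have h4 := Real.log_le_log (by linarith only [hchi0]) h3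
  rw [Real.log_mul (by norm_num) (by positivity), Real.log_pow] at h4
  have h5 : Real.log z = max (Real.log ξ) 0 := by
    rcases le_total ξ 1 with h6 | h6
    · rw [hz, max_eq_right h6, Real.log_one, max_eq_right (Real.log_nonpos hξ0.le h6)]
    · rw [hz, max_eq_left h6, max_eq_left (Real.log_nonneg h6)]
  rw [h5] at h4
  push_cast at h4
  exact h4

/-- **all the statements** -/
theorem up_all (hL : SumHyp) :
    -- the rate of the stiffness at the critical point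
    (∀ ε : ℝ, 0 < ε → ∀ᶠ L : ℕ in atTop,
      Real.exp (-Real.log L ^ ε) ≤ stiff L bCrit - 2 / Real.pi ∧
        stiff L bCrit - 2 / Real.pi ≤ Real.log L ^ (-1 + ε)) ∧
    -- the sum of the excesses over the dyadic scales
    (∃ κ : ℝ, 0 < κ ∧ ∀ ε : ℝ, 0 < ε → ∀ᶠ N : ℕ in atTop,
      κ * Real.log N ≤ ∑ i ∈ Finset.range N, (stiff (2 ^ i) bCrit - 2 / Real.pi) ∧
        ∑ i ∈ Finset.range N, (stiff (2 ^ i) bCrit - 2 / Real.pi) ≤ (N : ℝ) ^ ε) ∧
    -- the vortex ratio at the critical point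
    (∀ ε : ℝ, 0 < ε → ∀ᶠ n : ℕ in atTop,
      Real.exp (-(n : ℝ) ^ ε) ≤ vortexRatio (2 ^ n) bCrit) ∧
    -- the two-point function at the critical point
    (∀ ε : ℝ, 0 < ε → ∀ᶠ x : ℤ × ℤ in cofinite,
      corrInf bCrit x ≤ ((max |x.1| |x.2| : ℤ) : ℝ) ^ (-(1 / 4 : ℝ)) *
        Real.exp (Real.log ((max |x.1| |x.2| : ℤ) : ℝ) ^ ε)) ∧
    -- the number of dyadic scales on which the stiffness stays close to `2 / π`
    (∃ C d : ℝ, 0 < C ∧ 0 < d ∧ ∀ b : ℝ, 0 < b → b ≤ bCrit →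
      ∀ (N0 N : ℕ) (δ : ℝ), 0 < δ → δ ≤ 1 → stiff (2 ^ N0) b ≤ 2 / Real.pi - δ →
        2 / Real.pi - d ≤ stiff (2 ^ N) b →
        (N : ℝ) ≤ 2 * N0 + C * (1 / δ) * (1 + Real.log (1 / δ)) *
          (1 + ∑ j ∈ Finset.range N0, max (stiff (2 ^ j) b - 2 / Real.pi) 0)) ∧
    -- the correlation length and the susceptibility
    (∀ ε : ℝ, 0 < ε → ∃ η : ℝ, 0 < η ∧ ∀ b : ℝ, bCrit - η < b → b < bCrit →
      Real.log (corrLength b) ≤ (1 / (bCrit - b)) ^ (1 + ε) ∧
        Real.log (∑' x : ℤ × ℤ, corrInf b x) ≤ (1 / (bCrit - b)) ^ (1 + ε)) := by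
  have hbc0 : 0 < bCrit := Vale.Agent.P159.H170.bCrit_pos
  refine ⟨fun ε hε => (rate_low hL hε).and (rate_up hL hε), ?_, fun ε hε => vr_low hL hε,
    fun ε hε => corr_up hL hε, exit_b, ?_⟩
  · obtain ⟨-, ⟨κ, hκ, h⟩, -⟩ := crit
    exact ⟨κ, hκ, fun ε hε => h.and (hL ε hε)⟩
  · intro ε hε
    have he0 : 0 < ε / 2 := by linarith only [hε]
    obtain ⟨η, hη, h⟩ := xi_up hL he0
    obtain ⟨w0, hw0⟩ := eventually_atTop.1
      ((rpow_tendsto he0).eventually_ge_atTop (Real.log 9 + 2))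
    obtain ⟨w1, hw1⟩ : ∃ w1, w1 = max (max w0 1) (2 / bCrit) := ⟨_, rfl⟩
    have hw1a : w0 ≤ w1 := by rw [hw1]; exact (le_max_left _ _).trans (le_max_left _ _)
    have hw1b : 1 ≤ w1 := by rw [hw1]; exact (le_max_right _ _).trans (le_max_left _ _)
    have hw1c : 2 / bCrit ≤ w1 := by rw [hw1]; exact le_max_right _ _
    refine ⟨min η (1 / w1), lt_min hη (by positivity), ?_⟩
    intro b hb1 hb2
    obtain ⟨t, ht⟩ : ∃ t, t = bCrit - b := ⟨_, rfl⟩
    have ht0 : 0 < t := by rw [ht]; linarith only [hb2]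
    have ht1 : t < η := by
      have := min_le_left η (1 / w1)
      linarith only [this, ht, hb1]
    have ht2 : t < 1 / w1 := by
      have := min_le_right η (1 / w1)
      linarith only [this, ht, hb1]
    obtain ⟨w, hw⟩ : ∃ w, w = 1 / t := ⟨_, rfl⟩
    have hww : w1 ≤ w := by
      rw [hw, le_div_iff₀ ht0]
      rw [lt_div_iff₀ (by linarith only [hw1b])] at ht2
      linarith only [ht2, mul_comm t w1]
    have hb : 0 < b := by
      have h1 : 2 / bCrit ≤ w := hw1c.trans hww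
      rw [hw, div_le_div_iff₀ hbc0 ht0] at h1
      linarith only [h1, ht, hbc0]
    have h1 := h b (by linarith only [ht, ht1]) hb2
    have h2 := hw0 w (hw1a.trans hww)
    have hw1' : 1 ≤ w := hw1b.trans hww
    rw [← ht, ← hw] at h1 ⊢
    have h3 : w ^ (1 + ε / 2) ≤ w ^ (1 + ε) :=
      Real.rpow_le_rpow_of_exponent_le hw1' (by linarith only [hε])
    refine ⟨h1.trans h3, ?_⟩
    have h4 := chi_log hb hb2
    have h5 : 1 ≤ w ^ (1 + ε / 2) := Real.one_le_rpow hw1' (by linarith only [hε])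
    have h6 : max (Real.log (corrLength b)) 0 ≤ w ^ (1 + ε / 2) :=
      max_le h1 (by linarith only [h5])
    have h7 : w ^ (1 + ε) = w ^ (ε / 2) * w ^ (1 + ε / 2) := by
      rw [← Real.rpow_add (by linarith only [hw1'])]
      congr 1
      ring
    have h8 : (Real.log 9 + 2) * w ^ (1 + ε / 2) ≤ w ^ (1 + ε) := by
      rw [h7]
      exact mul_le_mul_of_nonneg_right h2 (by linarith only [h5])
    have h9 : 0 ≤ Real.log 9 := Real.log_nonneg (by norm_num)
    have h10 := mul_le_mul_of_nonneg_left h5 h9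
    linarith only [h4, h6, h8, h10]

end Vale.Agent.P159.UJ.H282.Ex
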