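import Vale.Agent.P159.H282.Ls8
import Vale.Agent.P159.H282.Up3
import Vale.Agent.P159.H730.Vhh

/-!
P159 (helper282): the critical point, all inputs plugged (the V half of helper316, helper733,
helper889, helper730).
-/

set_option linter.all false

open Filter Topology

namespace Vale.Agent.P159.H282.Ls

open Vale.Agent.P159
open Vale.Agent.P159.H801 (VHalf VFam final_z vfam_crit)
open Vale.Agent.P159.H415.Ls (Shp)

/-- the V half in the letters of the final glue -/
theorem vhalf_crit : VHalf (bCrit / 2) (2 * bCrit) 1 4 := by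
  have hb : 0 < bCrit := Vale.Agent.P159.H170.bCrit_pos
  have hY : helicity bCrit = 2 / Real.pi := Vale.Agent.P159.TM.Frame.T1
  have h := H730.vhalf_b (b := bCrit) (b1 := bCrit / 2) (b2 := 2 * bCrit) (by linarith)
    (by linarith) (by linarith) hY 4
  unfold VHalf
  refine h.mono fun P c1 _ hh a ha hl => ?_
  obtain ⟨VS, u, hV, hrest⟩ := hh a ha hl
  exact ⟨VS, u, hV, hrest⟩

/-- **the stiffness at the critical point and its flow**, no hypothesis left -/
theorem shp_bc : ∃ (x : ℕ → ℝ) (C s : ℝ), Shp bCrit x C s := by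
  have hb : 0 < bCrit := Vale.Agent.P159.H170.bCrit_pos
  exact shp_crit (b1 := bCrit / 2) (b2 := 2 * bCrit) (by linarith) (by linarith) (by linarith)
    vhalf_crit

/-- **the sum of the excesses**, no hypothesis left -/
theorem sumHyp_bc : ∀ e : ℝ, 0 < e → ∀ᶠ N : ℕ in atTop,
    ∑ j ∈ Finset.range N, (stiff (2 ^ j) bCrit - 2 / Real.pi) ≤ (N : ℝ) ^ e := by
  have hb : 0 < bCrit := Vale.Agent.P159.H170.bCrit_pos
  have hY : helicity bCrit = 2 / Real.pi := Vale.Agent.P159.TM.Frame.T1
  have h1 : bCrit / 2 ≤ bCrit := by linarith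
  have h2 : bCrit ≤ 2 * bCrit := by linarith
  have h0 : 0 < bCrit / 2 := by linarith
  have hF : VFam (bCrit / 2) (2 * bCrit) (1 / 2) 4 :=
    vfam_crit h0 h1 h2 (by norm_num) vhalf_crit
  exact H692.hL_master h0 hY h1 h2 (masterZ_crit h0 h1 h2 (by norm_num) (by norm_num) hF)

end Vale.Agent.P159.H282.Ls
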