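import Vale.Agent.P159.H282.TestG

/-!
# Values of the stiffness form of one square on nearly constant fields
-/

set_option linter.all false

open MeasureTheory Filter Topology
open scoped BigOperators

namespace Vale.Agent.P159.UJ.H282

open H664

/-! ### constant fields on a square -/

/-- stiffness form on a constant field -/
theorem qc_const {b : ℝ} {s : ℕ} (hs : 1 ≤ s) (c : ℤ × ℤ) (ξ1 ξ2 : ℝ) :
    qc b s c (ξ1 • hh + ξ2 • vv) 0 = (s : ℝ) ^ 2 * stiff s b * (ξ1 ^ 2 + ξ2 ^ 2) := by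
  rw [qc_zero, QQ_bil, QQ_smul2, QQ_smul2, QQ_smul, QQ_symm muInf _ _ 0 (ξ1 • hh) vv, QQ_smul,
    QQ_symm muInf _ _ 0 vv hh, Q0_hv, Q0_h s b hs, Q0_v s b hs]
  ring

theorem hh_sq {s : ℕ} (e : BI s) : hh e * hh e = hh e := by
  unfold hh; split_ifs <;> norm_num

theorem vv_sq {s : ℕ} (e : BI s) : vv e * vv e = vv e := by
  unfold vv; split_ifs <;> norm_num

theorem hh_vv {s : ℕ} (e : BI s) : hh e * vv e = 0 := by
  unfold hh vv; split_ifs <;> norm_num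

theorem sum_hh (s : ℕ) : ∑ e : BI s, hh e = 2 * (s : ℝ) ^ 2 := by
  have h := sum_hh_one s
  simpa using h

theorem sum_vv (s : ℕ) : ∑ e : BI s, vv e = 2 * (s : ℝ) ^ 2 := by
  have h := sum_vv_one s
  simpa using h

theorem sum_const_sq (s : ℕ) (ξ1 ξ2 : ℝ) :
    ∑ e : BI s, (ξ1 • hh + ξ2 • vv : BI s → ℝ) e ^ 2 = 2 * (s : ℝ) ^ 2 * (ξ1 ^ 2 + ξ2 ^ 2) := by
  have h1 : ∀ e : BI s, (ξ1 • hh + ξ2 • vv : BI s → ℝ) e ^ 2 = ξ1 ^ 2 * hh e + ξ2 ^ 2 * vv e := by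
    intro e
    simp only [Pi.add_apply, Pi.smul_apply, smul_eq_mul]
    have a1 := hh_sq e
    have a2 := vv_sq e
    have a3 := hh_vv e
    linear_combination ξ1 ^ 2 * a1 + ξ2 ^ 2 * a2 + 2 * ξ1 * ξ2 * a3
  simp_rw [h1]
  rw [Finset.sum_add_distrib, ← Finset.mul_sum, ← Finset.mul_sum, sum_hh, sum_vv]
  ring

/-- stiffness form on a constant field as a Dirichlet sum -/
theorem qc_const' {b : ℝ} {s : ℕ} (hs : 1 ≤ s) (c : ℤ × ℤ) {g : BI s → ℝ} {ξ1 ξ2 : ℝ}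
    (hg : g = ξ1 • hh + ξ2 • vv) : qc b s c g 0 = stiff s b * (1 / 2 * ∑ e, g e ^ 2) := by
  rw [hg, qc_const hs, sum_const_sq]
  ring

/-- trivial bound of the stiffness form -/
theorem qc_bad {b : ℝ} (hb : 0 ≤ b) {s : ℕ} (c : ℤ × ℤ) {g : BI s → ℝ} {W : ℝ}
    (hg : ∀ e, |g e| ≤ W) : qc b s c g 0 ≤ 2 * b * (s : ℝ) ^ 2 * W ^ 2 := by
  rw [qc_zero]
  exact H529.qq_rr hb hg

/-- mixed values: constant field and nearly constant field -/
theorem q2_good {b : ℝ} (hb : 0 ≤ b) {s : ℕ} (hs : 1 ≤ s) (c : ℤ × ℤ) {g a : BI s → ℝ}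
    {ξ1 ξ2 W Y R : ℝ} (hg : g = ξ1 • hh + ξ2 • vv) (h1 : |ξ1| ≤ W) (h2 : |ξ2| ≤ W)
    (hY : ∀ e, |a e| ≤ Y) (hR0 : 0 ≤ R) (hR : ∀ e e', hh e = hh e' → |a e - a e'| ≤ R) :
    |q2 b s c g a 0 - stiff s b * (1 / 2 * ∑ e, g e * a e)| ≤
      4 * b * (s : ℝ) ^ 2 * (W * R) := by
  obtain ⟨x1, x2, r, hdec, k1, k2, hr, hs1, hs2, hsq⟩ := decomp hs hY hR
  have r1 := H529.qq_mix (l := s) hb (Y := 1) zero_le_one hR0 abs_hh_le hr
  have r2 := H529.qq_mix (l := s) hb (Y := 1) zero_le_one hR0 abs_vv_le hr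
  rw [one_mul] at r1 r2
  have hW : 0 ≤ W := (abs_nonneg _).trans h1
  have e1 : ∑ e, g e * a e = ξ1 * (2 * ((s : ℝ) ^ 2 * x1)) + ξ2 * (2 * ((s : ℝ) ^ 2 * x2)) := by
    rw [hs1, hs2, Finset.mul_sum, Finset.mul_sum, Finset.mul_sum, Finset.mul_sum,
      ← Finset.sum_add_distrib]
    refine Finset.sum_congr rfl fun e _ => ?_
    rw [hg]
    simp only [Pi.add_apply, Pi.smul_apply, smul_eq_mul]
    ring
  have e2 : q2 b s c g a 0 = ξ1 * ((s : ℝ) ^ 2 * stiff s b * x1) +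
      ξ2 * ((s : ℝ) ^ 2 * stiff s b * x2) +
      ξ1 * QQ muInf (fun _ => b / 2) (chi0 s) 0 hh r +
      ξ2 * QQ muInf (fun _ => b / 2) (chi0 s) 0 vv r := by
    rw [q2_zero, hdec, hg, QQ_add, QQ_add, QQ_smul, QQ_smul,
      QQ_symm muInf _ _ 0 (ξ1 • hh + ξ2 • vv) hh, QQ_symm muInf _ _ 0 (ξ1 • hh + ξ2 • vv) vv,
      QQ_symm muInf _ _ 0 (ξ1 • hh + ξ2 • vv) r, QQ_add, QQ_add, QQ_add, QQ_smul, QQ_smul,
      QQ_smul, QQ_smul, QQ_smul, QQ_smul, QQ_symm muInf _ _ 0 vv hh, Q0_hv, Q0_h s b hs,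
      Q0_v s b hs, QQ_symm muInf _ _ 0 r hh, QQ_symm muInf _ _ 0 r vv]
    ring
  have e3 : q2 b s c g a 0 - stiff s b * (1 / 2 * ∑ e, g e * a e) =
      ξ1 * QQ muInf (fun _ => b / 2) (chi0 s) 0 hh r +
      ξ2 * QQ muInf (fun _ => b / 2) (chi0 s) 0 vv r := by
    rw [e1, e2]; ring
  rw [e3]
  refine (abs_add_le _ _).trans ?_
  rw [abs_mul, abs_mul]
  have t1 := mul_le_mul h1 r1 (abs_nonneg _) hW
  have t2 := mul_le_mul h2 r2 (abs_nonneg _) hW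
  calc _ ≤ W * (2 * b * (s : ℝ) ^ 2 * R) + W * (2 * b * (s : ℝ) ^ 2 * R) := add_le_add t1 t2
    _ = _ := by ring

/-- mixed values: trivial bound -/
theorem q2_bad {b : ℝ} (hb : 0 < b) {s : ℕ} (hs : 1 ≤ s) (c : ℤ × ℤ) {g a : BI s → ℝ} {W Y : ℝ}
    (hW : 0 ≤ W) (hY : 0 ≤ Y) (hg : ∀ e, |g e| ≤ W) (ha : ∀ e, |a e| ≤ Y) :
    |q2 b s c g a 0 - stiff s b * (1 / 2 * ∑ e, g e * a e)| ≤
      4 * b * (s : ℝ) ^ 2 * (W * Y) := by
  have h1 : |q2 b s c g a 0| ≤ 2 * b * (s : ℝ) ^ 2 * (W * Y) := by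
    rw [q2_zero]
    exact H529.qq_mix hb.le hW hY hg ha
  have h2 : |∑ e, g e * a e| ≤ 4 * (s : ℝ) ^ 2 * (W * Y) := by
    refine (Finset.abs_sum_le_sum_abs _ _).trans ?_
    calc ∑ e, |g e * a e| ≤ ∑ _e : BI s, W * Y := Finset.sum_le_sum fun e _ => by
          rw [abs_mul]; exact mul_le_mul (hg e) (ha e) (abs_nonneg _) hW
      _ = _ := by
          rw [Finset.sum_const, H529.card_BI, nsmul_eq_mul]
          push_cast
          ring
  have h3 := stiff_nonneg' hb.le hs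
  have h4 := h3_stiff_le hb hs
  have h5 : |stiff s b * (1 / 2 * ∑ e, g e * a e)| ≤ 2 * b * (s : ℝ) ^ 2 * (W * Y) := by
    rw [abs_mul, abs_mul, abs_of_nonneg h3, abs_of_nonneg (show (0 : ℝ) ≤ 1 / 2 by norm_num)]
    calc _ ≤ b * (1 / 2 * (4 * (s : ℝ) ^ 2 * (W * Y))) := by
          refine mul_le_mul h4 (by linarith only [h2]) (by positivity) hb.le
      _ = _ := by ring
  have h6 := abs_sub (q2 b s c g a 0) (stiff s b * (1 / 2 * ∑ e, g e * a e))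
  linarith only [h1, h5, h6]

/-! ### deficits -/

/-- parallelogram identity of the stiffness form -/
theorem qc_par (b : ℝ) (s : ℕ) (c : ℤ × ℤ) (h k : BI s → ℝ) (x : Ginf) :
    qc b s c (h + k) x + qc b s c (h + (-1 : ℝ) • k) x = 2 * qc b s c h x + 2 * qc b s c k x := by
  obtain ⟨t, ht⟩ := exists_incr s c x
  rw [qc_eq ht, qc_eq ht, qc_eq ht, qc_eq ht, QQ_bil, QQ_bil2]
  ring

theorem qc_smul (b : ℝ) (s : ℕ) (c : ℤ × ℤ) (h : BI s → ℝ) (r : ℝ) (x : Ginf) :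
    qc b s c (r • h) x = r ^ 2 * qc b s c h x := by
  obtain ⟨t, ht⟩ := exists_incr s c x
  rw [qc_eq ht, qc_eq ht, QQ_smul2]

theorem dfc_par (b : ℝ) (s : ℕ) (c : ℤ × ℤ) (h k : BI s → ℝ) (x : Ginf) :
    dfc b s c (h + k) x + dfc b s c (h + (-1 : ℝ) • k) x =
      2 * dfc b s c h x + 2 * dfc b s c k x := by
  unfold dfc
  linear_combination qc_par b s c h k 0 - qc_par b s c h k x

theorem dfc_smul (b : ℝ) (s : ℕ) (c : ℤ × ℤ) (h : BI s → ℝ) (r : ℝ) (x : Ginf) :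
    dfc b s c (r • h) x = r ^ 2 * dfc b s c h x := by
  unfold dfc
  rw [qc_smul, qc_smul]
  ring

theorem dfc_add_le {b : ℝ} (hb : 0 ≤ b) (s : ℕ) (c : ℤ × ℤ) (h k : BI s → ℝ) (x : Ginf) :
    dfc b s c (h + k) x ≤ 2 * dfc b s c h x + 2 * dfc b s c k x := by
  have h1 := dfc_par b s c h k x
  have h2 := dfc_nonneg hb s c (h + (-1 : ℝ) • k) x
  linarith only [h1, h2]

/-- deficit of a nearly constant field -/
theorem dfc_near {b : ℝ} (hb : 0 ≤ b) {s : ℕ} (c : ℤ × ℤ) {x1 x2 Y : ℝ} (r : BI s → ℝ)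
    (h1 : |x1| ≤ Y) (h2 : |x2| ≤ Y) (x : Ginf) :
    dfc b s c (x1 • hh + (x2 • vv + r)) x ≤
      2 * Y ^ 2 * (dfc b s c (hh + vv) x + dfc b s c (hh + (-1 : ℝ) • vv) x) +
        2 * dfc b s c r x := by
  have e1 : (x1 • hh + (x2 • vv + r) : BI s → ℝ) = (x1 • hh + x2 • vv) + r := by
    rw [add_assoc]
  rw [e1]
  have a1 := dfc_add_le hb s c (x1 • hh + x2 • vv) r x
  have a2 := dfc_add_le hb s c (x1 • hh) (x2 • vv) x
  rw [dfc_smul, dfc_smul] at a2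
  have a3 := dfc_par b s c hh vv x
  have n1 := dfc_nonneg hb s c hh x
  have n2 := dfc_nonneg hb s c vv x
  have s1 : x1 ^ 2 ≤ Y ^ 2 := by rw [← sq_abs]; exact pow_le_pow_left₀ (abs_nonneg _) h1 2
  have s2 : x2 ^ 2 ≤ Y ^ 2 := by rw [← sq_abs]; exact pow_le_pow_left₀ (abs_nonneg _) h2 2
  have m1 := mul_le_mul_of_nonneg_right s1 n1
  have m2 := mul_le_mul_of_nonneg_right s2 n2
  rw [a3]
  nlinarith only [a1, a2, m1, m2]

/-- the mean deficit of one square is at most its form -/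
theorem dfc_one {b : ℝ} (hb : 0 ≤ b) {L s : ℕ} {c : ℤ × ℤ} (hL : 1 ≤ L) (hs : 1 ≤ s)
    (h : Sq L s c) (r : BI s → ℝ) : Ev b L 0 (dfc b s c r) ≤ qc b s c r 0 := by
  have hF : Fam L {(s, c)} := by
    refine ⟨fun p hp => ?_, fun p hp q hq hne => ?_⟩
    · rw [Finset.mem_singleton] at hp
      subst hp
      exact ⟨hs, h⟩
    · rw [Finset.mem_singleton] at hp hq
      exact absurd (hp.trans hq.symm) hne
  have h1 := dfc_le hb hF (extF s c r)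
  unfold vS at h1
  rw [Finset.sum_singleton, Finset.sum_singleton, rs_extF] at h1
  have h2 := qc_zero_nonneg hb L 0 (rs L 0 (cut {(s, c)} (extF s c r)))
  linarith only [h1, h2]

/-- mean deficit of a nearly constant field on one square -/
theorem dfc_good {b : ℝ} (hb : 0 ≤ b) {L s : ℕ} {c : ℤ × ℤ} (hL : 1 ≤ L) (hs : 1 ≤ s)
    (h : Sq L s c) {a : BI s → ℝ} {Y R : ℝ} (hY : ∀ e, |a e| ≤ Y)
    (hR : ∀ e e', hh e = hh e' → |a e - a e'| ≤ R) :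
    Ev b L 0 (dfc b s c a) ≤
      2 * Y ^ 2 * (Ev b L 0 (dfc b s c (hh + vv)) +
        Ev b L 0 (dfc b s c (hh + (-1 : ℝ) • vv))) + 4 * b * (s : ℝ) ^ 2 * R ^ 2 := by
  obtain ⟨x1, x2, r, hdec, k1, k2, hr, -, -, -⟩ := decomp hs hY hR
  have c1 := dfc_cont b s c a
  have c2 := dfc_cont b s c (hh + vv)
  have c3 := dfc_cont b s c (hh + (-1 : ℝ) • vv)
  have c4 := dfc_cont b s c r
  have c5 : Continuous fun x => 2 * Y ^ 2 * (dfc b s c (hh + vv) x +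
      dfc b s c (hh + (-1 : ℝ) • vv) x) := continuous_const.mul (c2.add c3)
  have c6 : Continuous fun x => 2 * dfc b s c r x := continuous_const.mul c4
  have c7 : Continuous fun x => 2 * Y ^ 2 * (dfc b s c (hh + vv) x +
      dfc b s c (hh + (-1 : ℝ) • vv) x) + 2 * dfc b s c r x := c5.add c6
  have h1 := Ev_mono (b := b) (L := L) (v := 0) c1 c7 fun x => by
    have := dfc_near hb c r k1 k2 x
    rw [← hdec] at this
    exact this
  rw [var_Ev_add b L c5 c6, var_Ev_smul, var_Ev_smul, var_Ev_add b L c2 c3] at h1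
  have h2 := dfc_one hb hL hs h r
  have h3 := qc_bad hb c hr
  refine h1.trans ?_
  linarith only [h2, h3]

end Vale.Agent.P159.UJ.H282
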