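import Vale.Agent.P159.H282.TestT
import Vale.Agent.P159.H733.Til

/-!
# The overlap theorem

Many displacements with the same boundary values, each with its own tiling: the sum over the
displacements of the product of the weights times the probability of an event is bounded by the
overlap of the displaced events times the weight of the boundary value.
-/

set_option linter.all false

open MeasureTheory Filter Topology
open scoped BigOperators

namespace Vale.Agent.P159.UJ.H282

open H733 (Til Skel Dd Rr til_int Dd_skel Dd_cont Rr_cont Rr_pos Rr_neg Rr_mul)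

/-- a tiling by repeated subdivision is a tiling -/
theorem til_of_Tl {T : Finset (ℕ × (ℤ × ℤ))} {L : ℕ} (h : H529.Tl T L 0) :
    Til L T (fun p => p.1) (fun p => p.2) where
  disj := fun κ hκ κ' hκ' hne z hz hz2 => (h.sep κ hκ κ' hκ' hne).disj hz2 hz
  sub := fun κ hκ => (h.side κ hκ).2.inB
  split := fun b θ => (h.EB b θ).symm

theorem int_shift {L : ℕ} {v al : Ginf} (hal : ∀ z, z ∉ inB L 0 → al z = v z) {f : Ginf → ℝ}
    (hf : Continuous f) : ∫ x, f x ∂(nu L v) = ∫ x, f (x + al) ∂(nu L 0) := by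
  have h1 : PB L 0 (al - v) = al - v := by
    funext z
    by_cases hz : z ∈ inB L 0
    · exact proj_of_mem hz _
    · rw [PB, proj_of_notMem hz, Pi.sub_apply, hal z hz, sub_self]
  have h2 := nu_inv (L := L) (s := L) (c := 0) (fun _ h => h) v f hf (al - v)
  rw [← h2, h1, int_nu L v (f := fun x => f (x + (al - v))) (hf.comp (continuous_id.add
    continuous_const)), int_nu L 0 (f := fun x => f (x + al)) (hf.comp (continuous_id.add
    continuous_const))]
  congr 1
  funext x
  congr 1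
  abel

section one

variable {ι : Type*} {L : ℕ} {I : Finset ι} {sd : ι → ℕ} {cn : ι → ℤ × ℤ}

theorem Rr_eq (b : ℝ) (a x : Ginf) : Rr b I sd cn a x = Dd b I sd cn (-a) x := by
  unfold Rr Dd
  simp only [sub_neg_eq_add]

theorem Rr_skel {b : ℝ} (hT : Til L I sd cn) (a : Ginf) : Skel I sd cn (Rr b I sd cn a) := by
  have h : Rr b I sd cn a = Dd b I sd cn (-a) := funext fun x => Rr_eq b a x
  rw [h]
  exact Dd_skel hT (-a)

theorem cont_exp (b : ℝ) (L : ℕ) : Continuous fun x : Ginf => Real.exp (EB b L 0 x) :=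
  Real.continuous_exp.comp (EB_cont b L 0)

/-- one displacement -/
theorem over_one {b : ℝ} (hb : 0 ≤ b) (hT : Til L I sd cn) (al : Ginf) {phi : Ginf → ℝ}
    (hc : Continuous phi) (h0 : ∀ x, 0 ≤ phi x) (hneg : ∀ x, phi (-x) = phi x)
    (hs : Skel I sd cn phi) :
    Rr b I sd cn al 0 * Ev b L 0 phi * WB b L 0 0 ≤
      ∫ x, phi x * Real.exp (EB b L 0 (x + al)) ∂(nu L 0) := by
  have hRc := Rr_cont b I sd cn al
  have hRc' := Rr_cont b I sd cn (-al)
  have hW := WB_pos b L 0 0
  -- the integral as a mean value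
  have e1 : ∫ x, phi x * Real.exp (EB b L 0 (x + al)) ∂(nu L 0) =
      Ev b L 0 (fun x => phi x * Rr b I sd cn al x) * WB b L 0 0 := by
    have h1 := til_int (b := b) hT 0 hc hs (-al)
    simp only [sub_neg_eq_add] at h1
    have h2 := til_int (b := b) hT 0 (g := fun x => phi x * Rr b I sd cn al x) (hc.mul hRc)
      (fun κ hκ x y => by
        show phi _ * Rr b I sd cn al _ = phi x * Rr b I sd cn al x
        rw [hs κ hκ, Rr_skel hT al κ hκ]) 0
    simp only [sub_zero] at h2
    unfold Ev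
    rw [div_mul_cancel₀ _ hW.ne', h1, h2]
    congr 1
    funext x
    unfold Rr
    rw [mul_assoc, ← Finset.prod_mul_distrib]
    congr 1
    refine Finset.prod_congr rfl fun κ _ => ?_
    rw [div_mul_cancel₀ _ (WB_pos _ _ _ _).ne']
  rw [e1]
  refine mul_le_mul_of_nonneg_right ?_ hW.le
  -- symmetrisation
  have c1 : Continuous fun x => phi x * Rr b I sd cn al x := hc.mul hRc
  have c2 : Continuous fun x => phi x * Rr b I sd cn (-al) x := hc.mul hRc'
  have e2 := h2_Ev_neg b L c1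
  have e3 : (fun x => phi (-x) * Rr b I sd cn al (-x)) =
      fun x => phi x * Rr b I sd cn (-al) x := by
    funext x
    rw [hneg, Rr_neg]
  rw [e3] at e2
  have e4 := h2_Ev_add b L 0 c1 c2
  have e5 := h2_Ev_mono b L 0 (F := fun x => (2 * Rr b I sd cn al 0) * phi x)
    (F' := fun x => phi x * Rr b I sd cn al x + phi x * Rr b I sd cn (-al) x)
    (continuous_const.mul hc) (c1.add c2) (fun x => by
      have h1 := Rr_mul hb I sd cn al x
      have h2 := Rr_pos b I sd cn al x
      have h3 := Rr_pos b I sd cn (-al) x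
      have h4 := Rr_pos b I sd cn al 0
      have h5 : 2 * Rr b I sd cn al 0 ≤ Rr b I sd cn al x + Rr b I sd cn (-al) x := by
        nlinarith only [h1, h2, h3, h4, sq_nonneg (Rr b I sd cn al x - Rr b I sd cn (-al) x)]
      have h6 := mul_le_mul_of_nonneg_left h5 (h0 x)
      linarith only [h6])
  rw [e4, e2, var_Ev_smul] at e5
  linarith only [e5]

end one

/-- **overlap theorem** -/
theorem overlap {b : ℝ} (hb : 0 ≤ b) {L : ℕ} {ι : Type*} (I : Finset ι)
    (T : ι → Finset (ℕ × (ℤ × ℤ))) (hT : ∀ w ∈ I, H529.Tl (T w) L 0) (v : Ginf)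
    (al : ι → Ginf) (hal : ∀ w ∈ I, ∀ z, z ∉ inB L 0 → al w z = v z) (phi : ι → Ginf → ℝ)
    (hc : ∀ w ∈ I, Continuous (phi w)) (h0 : ∀ w ∈ I, ∀ x, 0 ≤ phi w x)
    (hneg : ∀ w ∈ I, ∀ x, phi w (-x) = phi w x)
    (hs : ∀ w ∈ I, ∀ a ∈ T w, ∀ x y, phi w (x + PB a.1 a.2 y) = phi w x) {R : ℝ}
    (hR : ∀ θ, ∑ w ∈ I, phi w (θ - al w) ≤ R) :
    ∑ w ∈ I, (∏ a ∈ T w, WB b a.1 a.2 (al w) / WB b a.1 a.2 0) * Ev b L 0 (phi w) ≤
      R * (WB b L 0 v / WB b L 0 0) := by
  have hW := WB_pos b L 0 0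
  have hexp := cont_exp b L
  have h1 : ∑ w ∈ I, ∫ x, phi w (x - al w) * Real.exp (EB b L 0 x) ∂(nu L v) ≤
      R * WB b L 0 v := by
    have hi : ∀ w ∈ I, Integrable (fun x => phi w (x - al w) * Real.exp (EB b L 0 x)) (nu L v) :=
      fun w hw => h2_int b L v ((hc w hw).comp (continuous_id.sub continuous_const))
    rw [← integral_finsetSum I hi]
    have h2 : R * WB b L 0 v = ∫ x, R * Real.exp (EB b L 0 x) ∂(nu L v) := by
      rw [integral_const_mul, int_nu L v hexp]
      rfl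
    rw [h2]
    refine integral_mono (integrable_finsetSum I hi) (h2_int b L v continuous_const) fun x => ?_
    simp only
    rw [← Finset.sum_mul]
    exact mul_le_mul_of_nonneg_right (hR x) (Real.exp_pos _).le
  have h2 : ∀ w ∈ I, (∏ a ∈ T w, WB b a.1 a.2 (al w) / WB b a.1 a.2 0) * Ev b L 0 (phi w) *
      WB b L 0 0 ≤ ∫ x, phi w (x - al w) * Real.exp (EB b L 0 x) ∂(nu L v) := by
    intro w hw
    have h3 := over_one hb (til_of_Tl (hT w hw)) (al w) (hc w hw) (h0 w hw) (hneg w hw)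
      (fun κ hκ x y => hs w hw κ hκ x y)
    rw [int_shift (hal w hw) (f := fun x => phi w (x - al w) * Real.exp (EB b L 0 x))
      (((hc w hw).comp (continuous_id.sub continuous_const)).mul hexp)]
    simp only [add_sub_cancel_right]
    refine le_trans (le_of_eq ?_) h3
    unfold Rr
    simp only [zero_add]
  have h3 : (∑ w ∈ I, (∏ a ∈ T w, WB b a.1 a.2 (al w) / WB b a.1 a.2 0) * Ev b L 0 (phi w)) *
      WB b L 0 0 ≤ R * WB b L 0 v := by
    rw [Finset.sum_mul]
    exact (Finset.sum_le_sum h2).trans h1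
  rw [← mul_div_assoc, le_div_iff₀ hW]
  exact h3

/-! ### events given by tests -/

/-- cut-off function: one on `[-1, 1]`, zero outside `(-2, 2)` -/
noncomputable def chi (t : ℝ) : ℝ := max 0 (min 1 (2 - |t|))

theorem chi_cont : Continuous chi := by
  unfold chi
  exact continuous_const.max (continuous_const.min (continuous_const.sub continuous_abs))

theorem chi_nonneg (t : ℝ) : 0 ≤ chi t := le_max_left _ _

theorem chi_le_one (t : ℝ) : chi t ≤ 1 := max_le zero_le_one (min_le_left _ _)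

theorem chi_neg (t : ℝ) : chi (-t) = chi t := by unfold chi; rw [abs_neg]

theorem chi_one {t : ℝ} (h : |t| ≤ 1) : chi t = 1 := by
  unfold chi
  rw [min_eq_left (by linarith only [h]), max_eq_right zero_le_one]

theorem chi_zero {t : ℝ} (h : 2 ≤ |t|) : chi t = 0 := by
  unfold chi
  rw [max_eq_left]
  exact (min_le_right _ _).trans (by linarith only [h])

theorem chi_sep {t t' : ℝ} (h : 4 ≤ |t - t'|) : chi t * chi t' = 0 := by
  rcases le_or_gt 2 |t| with h1 | h1
  · rw [chi_zero h1, zero_mul]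
  · have h2 : 2 ≤ |t'| := by
      have := abs_sub t t'
      linarith only [h, h1, this]
    rw [chi_zero h2, mul_zero]

section tests

variable {κ : Type*}

/-- the cut-off of the event of a displacement -/
noncomputable def phiQ (Q : Finset κ) (Tq : κ → Ginf → ℝ) (c : κ → ℝ) (al : Ginf) (x : Ginf) : ℝ :=
  ∏ q ∈ Q, (chi (Tq q (x + al) - c q) * chi (Tq q (x - al) + c q))

theorem phiQ_cont {Q : Finset κ} {Tq : κ → Ginf → ℝ} (hT : ∀ q ∈ Q, Continuous (Tq q))
    (c : κ → ℝ) (al : Ginf) : Continuous (phiQ Q Tq c al) := by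
  unfold phiQ
  refine continuous_finsetProd _ fun q hq => ?_
  exact (chi_cont.comp (((hT q hq).comp (continuous_id.add continuous_const)).sub
    continuous_const)).mul (chi_cont.comp (((hT q hq).comp (continuous_id.sub
    continuous_const)).add continuous_const))

theorem phiQ_nonneg (Q : Finset κ) (Tq : κ → Ginf → ℝ) (c : κ → ℝ) (al x : Ginf) :
    0 ≤ phiQ Q Tq c al x :=
  Finset.prod_nonneg fun q _ => mul_nonneg (chi_nonneg _) (chi_nonneg _)

theorem phiQ_le_one (Q : Finset κ) (Tq : κ → Ginf → ℝ) (c : κ → ℝ) (al x : Ginf) :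
    phiQ Q Tq c al x ≤ 1 :=
  Finset.prod_le_one (fun q _ => mul_nonneg (chi_nonneg _) (chi_nonneg _)) fun q _ =>
    mul_le_one₀ (chi_le_one _) (chi_nonneg _) (chi_le_one _)

theorem phiQ_neg {Q : Finset κ} {Tq : κ → Ginf → ℝ} (hT : ∀ q ∈ Q, ∀ x, Tq q (-x) = -Tq q x)
    (c : κ → ℝ) (al x : Ginf) : phiQ Q Tq c al (-x) = phiQ Q Tq c al x := by
  unfold phiQ
  refine Finset.prod_congr rfl fun q hq => ?_
  have e1 : -x + al = -(x - al) := by abel
  have e2 : -x - al = -(x + al) := by abel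
  rw [e1, e2, hT q hq, hT q hq, mul_comm]
  congr 1
  · rw [← chi_neg]; congr 1; ring
  · rw [← chi_neg]; congr 1; ring

theorem phiQ_skel {Q : Finset κ} {Tq : κ → Ginf → ℝ} {s : ℕ} {cc : ℤ × ℤ}
    (hT : ∀ q ∈ Q, ∀ x y, Tq q (x + PB s cc y) = Tq q x) (c : κ → ℝ) (al x y : Ginf) :
    phiQ Q Tq c al (x + PB s cc y) = phiQ Q Tq c al x := by
  unfold phiQ
  refine Finset.prod_congr rfl fun q hq => ?_
  have e1 : x + PB s cc y + al = x + al + PB s cc y := by abel
  have e2 : x + PB s cc y - al = x - al + PB s cc y := by abel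
  rw [e1, e2, hT q hq, hT q hq]

/-- the product is at least one minus the number of failures -/
theorem phiQ_low (Q : Finset κ) (Tq : κ → Ginf → ℝ) (hT : ∀ q ∈ Q, ∀ x, Tq q (-x) = -Tq q x)
    (c : κ → ℝ) (al : Ginf) (G : κ → Ginf → ℝ) (hG0 : ∀ q ∈ Q, ∀ x, 0 ≤ G q x)
    (hG : ∀ q ∈ Q, ∀ x, 1 < |Tq q (x + al) - c q| → 1 ≤ G q x) (x : Ginf) :
    1 - ∑ q ∈ Q, (G q x + G q (-x)) ≤ phiQ Q Tq c al x := by
  have hpos : ∀ q ∈ Q, 0 ≤ G q x + G q (-x) := fun q hq =>
    add_nonneg (hG0 q hq x) (hG0 q hq (-x))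
  by_cases h : ∀ q ∈ Q, |Tq q (x + al) - c q| ≤ 1 ∧ |Tq q (x - al) + c q| ≤ 1
  · have h1 : phiQ Q Tq c al x = 1 := by
      unfold phiQ
      refine Finset.prod_eq_one fun q hq => ?_
      rw [chi_one (h q hq).1, chi_one (h q hq).2, mul_one]
    rw [h1]
    have := Finset.sum_nonneg hpos
    linarith only [this]
  · push Not at h
    obtain ⟨q, hq, h1⟩ := h
    have h2 : 1 ≤ G q x + G q (-x) := by
      rcases le_or_gt |Tq q (x + al) - c q| 1 with h3 | h3
      · have h4 := h1 h3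
        have h5 : |Tq q (-x + al) - c q| = |Tq q (x - al) + c q| := by
          have e1 : -x + al = -(x - al) := by abel
          rw [e1, hT q hq, ← abs_neg]
          congr 1
          ring
        have h6 := hG q hq (-x) (by rw [h5]; exact h4)
        linarith only [h6, hG0 q hq x]
      · have h6 := hG q hq x h3
        linarith only [h6, hG0 q hq (-x)]
    have h3 := Finset.single_le_sum hpos hq
    have h4 := phiQ_nonneg Q Tq c al x
    linarith only [h2, h3, h4]

end tests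

/-- **overlap theorem for events given by tests** -/
theorem over_tests {b : ℝ} (hb : 0 ≤ b) {L : ℕ} {ι κ : Type*} (I : Finset ι)
    (T : ι → Finset (ℕ × (ℤ × ℤ))) (hT : ∀ w ∈ I, H529.Tl (T w) L 0) (v : Ginf)
    (al : ι → Ginf) (hal : ∀ w ∈ I, ∀ z, z ∉ inB L 0 → al w z = v z)
    (Q : ι → Finset κ) (Tq : κ → Ginf → ℝ) (c : ι → κ → ℝ)
    (hc : ∀ w ∈ I, ∀ q ∈ Q w, Continuous (Tq q))
    (hodd : ∀ w ∈ I, ∀ q ∈ Q w, ∀ x, Tq q (-x) = -Tq q x)
    (hs : ∀ w ∈ I, ∀ q ∈ Q w, ∀ a ∈ T w, ∀ x y, Tq q (x + PB a.1 a.2 y) = Tq q x)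
    (hsep : ∀ w ∈ I, ∀ w' ∈ I, w ≠ w' → ∃ q, q ∈ Q w ∧ q ∈ Q w' ∧ 4 ≤ |c w q - c w' q|)
    (ε : ι → κ → ℝ)
    (hG : ∀ w ∈ I, ∀ q ∈ Q w, ∃ G : Ginf → ℝ, Continuous G ∧ (∀ x, 0 ≤ G x) ∧
      (∀ x, 1 < |Tq q (x + al w) - c w q| → 1 ≤ G x) ∧ Ev b L 0 G ≤ ε w q)
    (hε : ∀ w ∈ I, ∑ q ∈ Q w, ε w q ≤ 1 / 4) :
    1 / 2 * ∑ w ∈ I, ∏ a ∈ T w, WB b a.1 a.2 (al w) / WB b a.1 a.2 0 ≤
      WB b L 0 v / WB b L 0 0 := by
  classical
  have h1 := overlap hb I T hT v al hal (fun w => phiQ (Q w) Tq (c w) (al w))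
    (fun w hw => phiQ_cont (hc w hw) _ _) (fun w _ x => phiQ_nonneg _ _ _ _ x)
    (fun w hw x => phiQ_neg (hodd w hw) _ _ x)
    (fun w hw a ha x y => phiQ_skel (fun q hq x y => hs w hw q hq a ha x y) _ _ x y) (R := 1) (by
      intro θ
      by_cases h : ∃ w ∈ I, phiQ (Q w) Tq (c w) (al w) (θ - al w) ≠ 0
      · obtain ⟨w, hw, hne⟩ := h
        have h2 : ∀ w' ∈ I, w' ≠ w → phiQ (Q w') Tq (c w') (al w') (θ - al w') = 0 := by
          intro w' hw' hww
          obtain ⟨q, hq, hq', hsep'⟩ := hsep w hw w' hw' (Ne.symm hww)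
          have h3 : chi (Tq q θ - c w q) ≠ 0 := by
            intro h4
            apply hne
            unfold phiQ
            refine Finset.prod_eq_zero hq ?_
            rw [sub_add_cancel, h4, zero_mul]
          have h5 : chi (Tq q θ - c w' q) = 0 := by
            have h6 : chi (Tq q θ - c w q) * chi (Tq q θ - c w' q) = 0 := by
              refine chi_sep ?_
              have e1 : Tq q θ - c w q - (Tq q θ - c w' q) = -(c w q - c w' q) := by ring
              rw [e1, abs_neg]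
              exact hsep'
            rcases mul_eq_zero.1 h6 with h7 | h7
            · exact absurd h7 h3
            · exact h7
          unfold phiQ
          refine Finset.prod_eq_zero hq' ?_
          rw [sub_add_cancel, h5, zero_mul]
        rw [Finset.sum_eq_single w h2 (fun h => absurd hw h)]
        exact phiQ_le_one _ _ _ _ _
      · push Not at h
        rw [Finset.sum_eq_zero h]
        exact zero_le_one)
  rw [one_mul] at h1
  refine le_trans ?_ h1
  rw [Finset.mul_sum]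
  refine Finset.sum_le_sum fun w hw => ?_
  rw [mul_comm]
  refine mul_le_mul_of_nonneg_left ?_ (Finset.prod_nonneg fun a _ =>
    (div_pos (WB_pos _ _ _ _) (WB_pos _ _ _ _)).le)
  -- the probability of the event
  have hG' : ∀ q, ∃ G : Ginf → ℝ, Continuous G ∧ (∀ x, 0 ≤ G x) ∧
      (q ∈ Q w → ((∀ x, 1 < |Tq q (x + al w) - c w q| → 1 ≤ G x) ∧ Ev b L 0 G ≤ ε w q)) := by
    intro q
    by_cases hq : q ∈ Q w
    · obtain ⟨G, g1, g2, g3, g4⟩ := hG w hw q hq
      exact ⟨G, g1, g2, fun _ => ⟨g3, g4⟩⟩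
    · exact ⟨fun _ => 0, continuous_const, fun _ => le_rfl, fun h => absurd h hq⟩
  choose G g1 g2 g3 using hG'
  have hneg : ∀ q, Continuous fun x => G q (-x) := fun q => (g1 q).comp continuous_neg
  have c1 : ∀ q, Continuous fun x => G q x + G q (-x) := fun q => (g1 q).add (hneg q)
  have c2 : Continuous fun x => ∑ q ∈ Q w, (G q x + G q (-x)) :=
    continuous_finsetSum _ fun q _ => c1 q
  have hlow := Ev_mono (b := b) (L := L) (v := 0) (f := fun x => 1 - ∑ q ∈ Q w, (G q x + G q (-x)))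
    (g := phiQ (Q w) Tq (c w) (al w)) (continuous_const.sub c2) (phiQ_cont (hc w hw) _ _)
    (phiQ_low (Q w) Tq (hodd w hw) (c w) (al w) G (fun q _ => g2 q)
      (fun q hq => (g3 q hq).1))
  refine le_trans ?_ hlow
  rw [var_Ev_sub b L continuous_const c2, var_Ev_const,
    var_Ev_sum b L (Q w) (fun q x => G q x + G q (-x)) c1]
  have h2 : ∑ q ∈ Q w, Ev b L 0 (fun x => G q x + G q (-x)) ≤ ∑ q ∈ Q w, 2 * ε w q := by
    refine Finset.sum_le_sum fun q hq => ?_
    rw [var_Ev_add b L (g1 q) (hneg q), h2_Ev_neg b L (g1 q)]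
    have := (g3 q hq).2
    linarith only [this]
  rw [← Finset.mul_sum] at h2
  have h3 := hε w hw
  linarith only [h2, h3]

end Vale.Agent.P159.UJ.H282
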