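import Vale.Agent.P159.H282.Glue
import Vale.Agent.P159.H177.Lim

/-!
# Pointwise lower bounds of the excess of the stiffness
-/

set_option linter.all false

open Filter Topology
open scoped BigOperators

namespace Vale.Agent.P159.UJ.H282

open Vale.Agent.P159.H264 (TT_succ TT_zero TT_mono TT_nonneg)
open Vale.Agent.P159.UJ.H733 (yy_pos' yy_le_one' log_yy p_gen)

theorem ev_pow (A : ℝ) (r : ℕ) : ∃ K : ℕ, ∀ k : ℕ, K ≤ k → A * (1 + (k : ℝ)) ^ r ≤ 2 ^ k := by
  have h1 : Tendsto (fun k : ℕ => ((k : ℝ)) ^ r / 2 ^ k) atTop (𝓝 0) :=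
    tendsto_pow_const_div_const_pow_of_one_lt r one_lt_two
  have h2 : Tendsto (fun k : ℕ => (((k + 1 : ℕ) : ℝ)) ^ r / 2 ^ (k + 1)) atTop (𝓝 0) :=
    h1.comp (tendsto_add_atTop_nat 1)
  have h3 := (h2.const_mul (2 * (|A| + 1)))
  rw [mul_zero] at h3
  obtain ⟨K, hK⟩ := eventually_atTop.1 (h3.eventually_le_const one_pos)
  refine ⟨K, fun k hk => ?_⟩
  have h4 := hK k hk
  have h5 : (0 : ℝ) < 2 ^ k := by positivity
  have h6 : (0 : ℝ) ≤ (1 + (k : ℝ)) ^ r := by positivity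
  have e1 : (((k + 1 : ℕ) : ℝ)) ^ r / 2 ^ (k + 1) = (1 + (k : ℝ)) ^ r / 2 ^ k / 2 := by
    push_cast
    rw [pow_succ, add_comm (k : ℝ) 1]
    field_simp
  rw [e1] at h4
  have h7 : (|A| + 1) * ((1 + (k : ℝ)) ^ r / 2 ^ k) ≤ 1 := by linarith only [h4]
  have h8 : (|A| + 1) * (1 + (k : ℝ)) ^ r ≤ 2 ^ k := by
    rw [← mul_div_assoc, div_le_one h5] at h7
    exact h7
  have h9 : A * (1 + (k : ℝ)) ^ r ≤ (|A| + 1) * (1 + (k : ℝ)) ^ r :=
    mul_le_mul_of_nonneg_right (by linarith only [le_abs_self A]) h6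
  exact h9.trans h8

theorem TT_lin {x : ℕ → ℝ} {X : ℝ} (hX : ∀ n, x n ≤ X) (n k : ℕ) :
    Vale.Agent.P159.H264.TT x (n + k) ≤ Vale.Agent.P159.H264.TT x n + X * k := by
  induction k with
  | zero => simp
  | succ k ih =>
    rw [← add_assoc, TT_succ]
    push_cast
    have := hX (n + k)
    linarith only [ih, this]

/-- **pointwise flow inequality** (abstract) -/
theorem point_of {x y : ℕ → ℝ} (hx0 : ∀ n, 0 ≤ x n) {X : ℝ} (hX : ∀ n, x n ≤ X)
    (hy0 : ∀ n, 0 < y n) (hy1 : ∀ n, y n ≤ 1) {C : ℝ} {q : ℕ} (hC : 1 ≤ C)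
    (hP : ∀ i n j : ℕ, i ≤ n → n ≤ j → C * (1 - Real.log (y n)) ^ q ≤ (2 : ℝ) ^ (n - i) →
      C * (1 - Real.log (y n)) ^ q ≤ (2 : ℝ) ^ (j - n) * y n ^ 2 →
      y n ^ 2 / (C * (1 - Real.log (y n)) ^ q) ≤ x i - x j)
    {c C3 : ℝ} (hc : 0 < c) (hC3 : 0 < C3)
    (hV : ∀ n : ℕ, c * Real.exp (-(C3 * Vale.Agent.P159.H264.TT x n)) ≤ y n) :
    ∃ c' C' : ℝ, 0 < c' ∧ 0 < C' ∧ ∀ n, c' * Real.exp (-(C' * Vale.Agent.P159.H264.TT x n)) ≤ x n := by
  have hXn : 0 ≤ X := (hx0 0).trans (hX 0)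
  obtain ⟨A, hA⟩ : ∃ A : ℝ, A = 1 + |Real.log c| + C3 + C3 * X := ⟨_, rfl⟩
  have hA1 : 1 ≤ A := by
    have h1 := abs_nonneg (Real.log c)
    have h2 : 0 ≤ C3 * X := by positivity
    linarith only [hA, h1, h2, hC3]
  obtain ⟨K, hK⟩ := ev_pow (C * (2 * A) ^ q) q
  refine ⟨c ^ 2 * Real.exp (-((2 * C3 * X + 1) * (1 + K))), 2 * C3 + (2 * C3 * X + 1),
    by positivity, by positivity, ?_⟩
  intro n
  have hT : 0 ≤ Vale.Agent.P159.H264.TT x n := TT_nonneg hx0 n
  obtain ⟨k, hk⟩ : ∃ k : ℕ, k = ⌈Vale.Agent.P159.H264.TT x n⌉₊ + K := ⟨_, rfl⟩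
  have hk1 : Vale.Agent.P159.H264.TT x n ≤ k := by
    rw [hk]; push_cast
    have h1 := Nat.le_ceil (Vale.Agent.P159.H264.TT x n)
    have h2 := Nat.cast_nonneg (α := ℝ) K
    linarith only [h1, h2]
  have hk2 : (k : ℝ) ≤ Vale.Agent.P159.H264.TT x n + (1 + K) := by
    rw [hk]; push_cast
    have h1 := Nat.ceil_lt_add_one hT
    linarith only [h1]
  have hKk : K ≤ k := by rw [hk]; omega
  have hk0 := Nat.cast_nonneg (α := ℝ) k
  have hTm : Vale.Agent.P159.H264.TT x (n + k) ≤ Vale.Agent.P159.H264.TT x n + X * k := TT_lin hX n k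
  obtain ⟨e, he⟩ : ∃ e, e = 1 - Real.log (y (n + k)) := ⟨_, rfl⟩
  have hym := hV (n + k)
  have hlog : Real.log c - C3 * Vale.Agent.P159.H264.TT x (n + k) ≤ Real.log (y (n + k)) := by
    have h1 := Real.log_le_log (by positivity) hym
    rw [Real.log_mul hc.ne' (Real.exp_pos _).ne', Real.log_exp] at h1
    linarith only [h1]
  have he0 : 1 ≤ e := by
    have := Real.log_nonpos (hy0 (n + k)).le (hy1 (n + k))
    linarith only [he, this]
  have he1 : e ≤ 2 * A * (1 + k) := by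
    have h1 := neg_abs_le (Real.log c)
    have h2 : C3 * Vale.Agent.P159.H264.TT x (n + k) ≤ C3 * (k + X * k) :=
      mul_le_mul_of_nonneg_left (by linarith only [hTm, hk1]) hC3.le
    have h3 : e ≤ 1 + |Real.log c| + C3 * (k + X * k) := by linarith only [he, hlog, h1, h2]
    have h4 : 1 + |Real.log c| ≤ A := by
      have h2 : 0 ≤ C3 * X := by positivity
      linarith only [hA, h2, hC3]
    have h5 : C3 * (k + X * k) ≤ A * k := by
      have e5 : C3 * (k + X * k) = (C3 + C3 * X) * k := by ring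
      rw [e5]
      refine mul_le_mul_of_nonneg_right ?_ hk0
      have := abs_nonneg (Real.log c)
      linarith only [hA, this]
    have h6 : 0 ≤ A * (1 + k) := by positivity
    linarith only [h3, h4, h5, h6]
  have hek : C * e ^ q ≤ 2 ^ k := by
    have h1 : e ^ q ≤ (2 * A * (1 + k)) ^ q := pow_le_pow_left₀ (by linarith only [he0]) he1 q
    refine le_trans (mul_le_mul_of_nonneg_left h1 (by linarith only [hC])) ?_
    have h2 := hK k hKk
    rw [mul_pow, ← mul_assoc]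
    exact h2
  have he0' : 0 < C * e ^ q := by positivity
  have hy2 : 0 < y (n + k) ^ 2 := by have := hy0 (n + k); positivity
  -- the end of the window
  obtain ⟨r, hr⟩ := pow_unbounded_of_one_lt (C * e ^ q / y (n + k) ^ 2) (one_lt_two (α := ℝ))
  have h1 := hP n (n + k) (n + k + r) (Nat.le_add_right _ _) (Nat.le_add_right _ _) (by
    rw [← he, Nat.add_sub_cancel_left]; exact hek) (by
    rw [← he, Nat.add_sub_cancel_left]
    rw [div_lt_iff₀ hy2] at hr
    exact hr.le)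
  rw [← he] at h1
  have h2 : y (n + k) ^ 2 / (C * e ^ q) ≤ x n := by
    have := hx0 (n + k + r)
    linarith only [h1, this]
  refine le_trans ?_ h2
  rw [le_div_iff₀ he0']
  have h3 : c ^ 2 * Real.exp (-(2 * C3 * (Vale.Agent.P159.H264.TT x n + X * k))) ≤ y (n + k) ^ 2 := by
    have h4 : c * Real.exp (-(C3 * (Vale.Agent.P159.H264.TT x n + X * k))) ≤ y (n + k) := by
      refine le_trans (mul_le_mul_of_nonneg_left ?_ hc.le) hym
      rw [Real.exp_le_exp]
      have := mul_le_mul_of_nonneg_left hTm hC3.le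
      linarith only [this]
    have h5 := pow_le_pow_left₀ (by positivity) h4 2
    refine le_trans (le_of_eq ?_) h5
    rw [mul_pow, ← Real.exp_nat_mul]
    congr 2
    push_cast
    ring
  have h6 : C * e ^ q ≤ Real.exp k := by
    refine hek.trans ?_
    have h7 : (2 : ℝ) ≤ Real.exp 1 := by
      have := Real.add_one_le_exp (1 : ℝ)
      linarith only [this]
    have h8 := pow_le_pow_left₀ (by norm_num) h7 k
    refine h8.trans (le_of_eq ?_)
    rw [← Real.exp_nat_mul, mul_one]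
  have h9 : c ^ 2 * Real.exp (-((2 * C3 * X + 1) * (1 + K))) *
      Real.exp (-((2 * C3 + (2 * C3 * X + 1)) * Vale.Agent.P159.H264.TT x n)) * Real.exp k ≤
      c ^ 2 * Real.exp (-(2 * C3 * (Vale.Agent.P159.H264.TT x n + X * k))) := by
    rw [mul_assoc, mul_assoc, ← Real.exp_add, ← Real.exp_add]
    refine mul_le_mul_of_nonneg_left ?_ (by positivity)
    rw [Real.exp_le_exp]
    have h10 : (2 * C3 * X + 1) * k ≤ (2 * C3 * X + 1) * (Vale.Agent.P159.H264.TT x n + (1 + K)) :=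
      mul_le_mul_of_nonneg_left hk2 (by positivity)
    linarith only [h10]
  refine le_trans (mul_le_mul_of_nonneg_left h6 (by positivity)) ?_
  exact h9.trans h3

end Vale.Agent.P159.UJ.H282
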