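import Vale.Agent.P159.H282.Point
import Vale.Agent.P159.H282.Fin

/-!
# Pointwise lower bounds of the excess of the stiffness of the blocks
-/

set_option linter.all false

open Filter Topology
open scoped BigOperators

namespace Vale.Agent.P159.UJ.H282

open Vale.Agent.P159.H264 (TT_succ TT_zero TT_mono TT_nonneg)
open Vale.Agent.P159.UJ.H733 (yy_pos' yy_le_one' log_yy p_gen)

/-- the excess is at most the value of the first one -/
theorem xs_le {b : ℝ} (hb : 0 ≤ b) (n : ℕ) : xs b n ≤ xs b 0 := by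
  unfold xs
  have h := stiff_mono hb (l := 1) (n := 2 ^ n) le_rfl Nat.one_le_two_pow
  rw [one_mul] at h
  rw [pow_zero]
  linarith only [h]

/-- the lower bound of the drops in terms of the vortex ratio, dyadic scales -/
theorem drop_dy {b : ℝ} (hb : 0 < b) (hhel : 0 < helicity b) : ∃ (C : ℝ) (q : ℕ), 1 ≤ C ∧
    ∀ i n j : ℕ, i ≤ n → n ≤ j → C * (1 - Real.log (yy b (2 ^ n))) ^ q ≤ (2 : ℝ) ^ (n - i) →
      C * (1 - Real.log (yy b (2 ^ n))) ^ q ≤ (2 : ℝ) ^ (j - n) * yy b (2 ^ n) ^ 2 →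
      yy b (2 ^ n) ^ 2 / (C * (1 - Real.log (yy b (2 ^ n))) ^ q) ≤ xs b i - xs b j := by
  obtain ⟨C, q, hC, hP⟩ := p_gen b (helicity b) hb hhel
  refine ⟨C, q, hC, ?_⟩
  intro i n j hin hnj h1 h2
  have e1 : 2 ^ i * 2 ^ (n - i) = 2 ^ n := by rw [← pow_add]; congr 1; omega
  have h3 := hP b hb le_rfl (2 ^ i) (2 ^ (n - i)) (2 ^ j) Nat.one_le_two_pow
    (Vale.Agent.P159.H177.helicity_le hb.le Nat.one_le_two_pow)
  rw [e1] at h3
  have h4 := h3 (by push_cast; exact h1) (by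
    have e3 : ((2 ^ j : ℕ) : ℝ) = 2 ^ (j - n) * ((2 ^ n : ℕ) : ℝ) := by
      push_cast
      rw [← pow_add]
      congr 1
      omega
    rw [e3]
    have h5 := mul_le_mul_of_nonneg_right h2 (Nat.cast_nonneg (α := ℝ) (2 ^ n))
    calc _ ≤ 2 ^ (j - n) * yy b (2 ^ n) ^ 2 * ((2 ^ n : ℕ) : ℝ) := h5
      _ = _ := by ring)
  unfold xs
  linarith only [h4]

/-- **flow inequality at every dyadic scale** -/
theorem flow {b : ℝ} (hb : 0 < b) (hhel : helicity b = 2 / Real.pi) :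
    ∃ c C : ℝ, 0 < c ∧ 0 < C ∧
      ∀ n, c * Real.exp (-(C * ∑ i ∈ Finset.range n, xs b i)) ≤ xs b n := by
  have hpos : 0 < helicity b := by rw [hhel]; positivity
  obtain ⟨⟨c, C3, hc, hC3, hV⟩, -⟩ := fin_low hb hhel
  obtain ⟨C, q, hC, hP⟩ := drop_dy hb hpos
  exact point_of (x := xs b) (y := fun n => yy b (2 ^ n)) (xs_nonneg hb.le)
    (xs_le hb.le) (fun n => yy_pos' b _) (fun n => yy_le_one' hb.le _) hC hP hc hC3 hV

/-- the sum of a sequence which tends to zero is `o(n)` -/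
theorem TT_small {x : ℕ → ℝ} (hx0 : ∀ n, 0 ≤ x n) (hx : Tendsto x atTop (𝓝 0)) {η : ℝ}
    (hη : 0 < η) : ∃ K : ℝ, ∀ n : ℕ, Vale.Agent.P159.H264.TT x n ≤ K + η * n := by
  obtain ⟨n1, hn1⟩ := eventually_atTop.1 (hx.eventually_le_const hη)
  refine ⟨Vale.Agent.P159.H264.TT x n1, fun n => ?_⟩
  rcases le_total n n1 with h | h
  · have h1 := TT_mono hx0 h
    have h2 : 0 ≤ η * n := by positivity
    linarith only [h1, h2]
  · obtain ⟨k, rfl⟩ := Nat.exists_eq_add_of_le h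
    have h2 : ∀ k : ℕ, Vale.Agent.P159.H264.TT x (n1 + k) ≤
        Vale.Agent.P159.H264.TT x n1 + η * k := by
      intro k
      induction k with
      | zero => simp
      | succ k ih =>
        rw [← add_assoc, TT_succ]
        push_cast
        have := hn1 (n1 + k) (Nat.le_add_right _ _)
        linarith only [ih, this]
    have h3 := h2 k
    push_cast
    have h4 : 0 ≤ η * n1 := by positivity
    linarith only [h3, h4]

/-- the excess decays slower than every power of the side -/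
theorem slow {b : ℝ} (hb : 0 < b) (hhel : helicity b = 2 / Real.pi) {ε : ℝ} (hε : 0 < ε) :
    ∃ c : ℝ, 0 < c ∧ ∀ L : ℕ, 1 ≤ L → c * (L : ℝ) ^ (-ε) ≤ stiff L b - helicity b := by
  obtain ⟨c, C, hc, hC, hfl⟩ := flow hb hhel
  obtain ⟨δ, hδ⟩ : ∃ δ, δ = min (ε / 2) (1 / 2) := ⟨_, rfl⟩
  have hδ0 : 0 < δ := by rw [hδ]; exact lt_min (by linarith only [hε]) (by norm_num)
  have hδ1 : δ ≤ 1 / 2 := by rw [hδ]; exact min_le_right _ _
  have hδ2 : 2 * δ ≤ ε := by
    have := min_le_left (ε / 2) (1 / 2)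
    rw [← hδ] at this
    linarith only [this]
  have hlog2 : 0 < Real.log 2 := Real.log_pos one_lt_two
  obtain ⟨K, hK⟩ := TT_small (xs_nonneg hb.le) (xs_tendsto hb) (η := δ * Real.log 2 / C)
    (by positivity)
  obtain ⟨c2, hc2⟩ : ∃ c2, c2 = c * Real.exp (-(C * K)) := ⟨_, rfl⟩
  have hc20 : 0 < c2 := by rw [hc2]; positivity
  have hx : ∀ m : ℕ, c2 * ((2 : ℝ) ^ m) ^ (-δ) ≤ xs b m := by
    intro m
    refine le_trans ?_ (hfl m)
    have e1 : ((2 : ℝ) ^ m) ^ (-δ) = Real.exp (-(δ * Real.log 2 * m)) := by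
      rw [Real.rpow_def_of_pos (by positivity), Real.log_pow]
      congr 1
      ring
    rw [hc2, e1, mul_assoc, ← Real.exp_add]
    refine mul_le_mul_of_nonneg_left ?_ hc.le
    rw [Real.exp_le_exp]
    have h1 := mul_le_mul_of_nonneg_left (hK m) hC.le
    have e2 : C * (K + δ * Real.log 2 / C * m) = C * K + δ * Real.log 2 * m := by
      field_simp
    rw [e2] at h1
    have h2 : Vale.Agent.P159.H264.TT (xs b) m = ∑ i ∈ Finset.range m, xs b i := rfl
    rw [h2] at h1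
    linarith only [h1]
  obtain ⟨w, hw⟩ : ∃ w, w = max 1 (6 * b / c2) := ⟨_, rfl⟩
  have hw1 : 1 ≤ w := by rw [hw]; exact le_max_left _ _
  have hw2 : 6 * b / c2 ≤ w := by rw [hw]; exact le_max_right _ _
  obtain ⟨g, hg⟩ : ∃ g, g = (2 * w ^ 2) ^ (-δ) := ⟨_, rfl⟩
  have hg0 : 0 < g := by rw [hg]; positivity
  have hgw : 1 ≤ g * (3 / 2 * w) := by
    have h1 : (3 / 2 * w : ℝ) ^ (-(1 : ℝ)) ≤ g := by
      have h2 : ((3 / 2 * w) ^ 2 : ℝ) ^ (-(1 / 2 : ℝ)) ≤ (2 * w ^ 2) ^ (-(1 / 2 : ℝ)) := by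
        apply Real.rpow_le_rpow_of_nonpos (by positivity)
        · have : 0 ≤ w ^ 2 := sq_nonneg w
          nlinarith only [this]
        · norm_num
      have h3 : (2 * w ^ 2) ^ (-(1 / 2 : ℝ)) ≤ g := by
        rw [hg]
        apply Real.rpow_le_rpow_of_exponent_le
        · have : 1 ≤ w ^ 2 := one_le_pow₀ hw1
          linarith only [this]
        · linarith only [hδ1]
      refine le_trans (le_of_eq ?_) (h2.trans h3)
      rw [← Real.rpow_natCast, ← Real.rpow_mul (by positivity)]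
      norm_num
    have h4 : (3 / 2 * w : ℝ) ^ (-(1 : ℝ)) * (3 / 2 * w) = 1 := by
      rw [Real.rpow_neg_one]
      exact inv_mul_cancel₀ (by positivity)
    rw [← h4]
    exact mul_le_mul_of_nonneg_right h1 (by positivity)
  refine ⟨c2 * g / 2, by positivity, ?_⟩
  intro L hL
  have hLR : (1 : ℝ) ≤ L := by exact_mod_cast hL
  have hL0 : (0 : ℝ) < L := by linarith only [hLR]
  have hwL : 1 ≤ w ^ 2 * (L : ℝ) ^ 2 := by
    have h1 : 1 ≤ w ^ 2 := one_le_pow₀ hw1
    have h2 : 1 ≤ (L : ℝ) ^ 2 := one_le_pow₀ hLR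
    nlinarith only [h1, h2]
  obtain ⟨n, hn1, hn2⟩ := exists_nat_pow_near hwL one_lt_two
  obtain ⟨m, hm⟩ : ∃ m, m = n + 1 := ⟨_, rfl⟩
  rw [← hm] at hn2
  have hm2 : (2 : ℝ) ^ m ≤ 2 * (w ^ 2 * (L : ℝ) ^ 2) := by
    rw [hm, pow_succ]; linarith only [hn1]
  have hLm : L ≤ 2 ^ m := by
    have h1 : (L : ℝ) ≤ 2 ^ m := by
      refine le_trans ?_ hn2.le
      have h1 : 1 ≤ w ^ 2 := one_le_pow₀ hw1
      nlinarith only [h1, hLR]
    exact_mod_cast h1
  have hrate := Vale.Agent.P159.H177.stiff_le_rate hb.le hL hLm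
  -- the error
  have herr : 2 * b * L / ((2 ^ m : ℕ) : ℝ) ≤ c2 * g / 2 * (L : ℝ) ^ (-(2 * δ)) := by
    push_cast
    have h1 : 2 * b * L / (2 : ℝ) ^ m ≤ 2 * b * L / (w ^ 2 * (L : ℝ) ^ 2) :=
      div_le_div_of_nonneg_left (by positivity) (by positivity) hn2.le
    have h2 : 2 * b * L / (w ^ 2 * (L : ℝ) ^ 2) = 2 * b / w ^ 2 * (L : ℝ) ^ (-(1 : ℝ)) := by
      rw [Real.rpow_neg_one]
      field_simp
    have h3 : (L : ℝ) ^ (-(1 : ℝ)) ≤ (L : ℝ) ^ (-(2 * δ)) :=
      Real.rpow_le_rpow_of_exponent_le hLR (by linarith only [hδ1])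
    have h4 : 2 * b / w ^ 2 ≤ c2 * g / 2 := by
      rw [div_le_iff₀ (by positivity)] at hw2 ⊢
      have h5 : 6 * b * 1 ≤ w * c2 * (g * (3 / 2 * w)) :=
        mul_le_mul hw2 hgw (by norm_num) (by positivity)
      nlinarith only [h5]
    rw [h2] at h1
    refine h1.trans ?_
    exact mul_le_mul h4 h3 (by positivity) (by positivity)
  have hmain : c2 * g * (L : ℝ) ^ (-(2 * δ)) ≤ xs b m := by
    refine le_trans ?_ (hx m)
    rw [mul_assoc]
    refine mul_le_mul_of_nonneg_left ?_ hc20.le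
    have h1 : (2 * (w ^ 2 * (L : ℝ) ^ 2)) ^ (-δ) ≤ ((2 : ℝ) ^ m) ^ (-δ) :=
      Real.rpow_le_rpow_of_nonpos (by positivity) hm2 (by linarith only [hδ0])
    refine le_trans (le_of_eq ?_) h1
    have e2 : (L : ℝ) ^ (-(2 * δ)) = ((L : ℝ) ^ 2) ^ (-δ) := by
      rw [← Real.rpow_natCast (L : ℝ) 2, ← Real.rpow_mul hL0.le]
      congr 1
      push_cast
      ring
    rw [hg, e2, ← mul_assoc, Real.mul_rpow (x := 2 * w ^ 2) (by positivity) (by positivity)]
  have hfin : c2 * g / 2 * (L : ℝ) ^ (-(2 * δ)) ≤ stiff L b - helicity b := by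
    unfold xs at hmain
    linarith only [hmain, herr, hrate]
  refine le_trans ?_ hfin
  exact mul_le_mul_of_nonneg_left
    (Real.rpow_le_rpow_of_exponent_le hLR (by linarith only [hδ2])) (by positivity)

/-- infinitely many scales -/
theorem freq {b κ : ℝ} (hκ : 0 < κ)
    (h : ∀ᶠ N : ℕ in atTop, κ * Real.log N ≤ ∑ i ∈ Finset.range N, xs b i) :
    ∃ᶠ L : ℕ in atTop, κ * Real.log 2 / 4 / Real.log L ≤ stiff L b - helicity b := by
  intro hcon
  have hlog2 : 0 < Real.log 2 := Real.log_pos one_lt_two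
  obtain ⟨i1, hi1⟩ := eventually_atTop.1 (tendsto_pow2.eventually hcon)
  obtain ⟨i0, hi0⟩ : ∃ i0, i0 = i1 + 1 := ⟨_, rfl⟩
  have hx : ∀ i, i0 ≤ i → xs b i ≤ κ / 2 * (Real.log (i + 1 : ℕ) - Real.log i) := by
    intro i hi
    have h1 := hi1 i (by omega)
    push Not at h1
    have hi' : (1 : ℝ) ≤ i := by
      have : 1 ≤ i := by omega
      exact_mod_cast this
    have hi0' : (0 : ℝ) < i := by linarith only [hi']
    have e1 : Real.log ((2 ^ i : ℕ) : ℝ) = i * Real.log 2 := by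
      push_cast
      rw [Real.log_pow]
    rw [e1] at h1
    have h2 : xs b i < κ / 4 * (1 / i) := by
      unfold xs
      refine lt_of_lt_of_le h1 (le_of_eq ?_)
      field_simp
    have h3 : 1 / (2 * (i : ℝ)) ≤ Real.log (i + 1 : ℕ) - Real.log i := by
      rw [← Real.log_div (by positivity) (by positivity)]
      have h4 := Real.one_sub_inv_le_log_of_pos
        (show 0 < (((i + 1 : ℕ) : ℝ) / i) by positivity)
      refine le_trans ?_ h4
      push_cast
      rw [inv_div, one_sub_div (by positivity), div_le_div_iff₀ (by positivity) (by positivity)]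
      linarith only [hi']
    have h5 : κ / 4 * (1 / i) = κ / 2 * (1 / (2 * (i : ℝ))) := by field_simp; ring
    rw [h5] at h2
    exact h2.le.trans (mul_le_mul_of_nonneg_left h3 (by positivity))
  have hsum : ∀ k : ℕ, ∑ i ∈ Finset.range (i0 + k), xs b i ≤ ∑ i ∈ Finset.range i0, xs b i +
      κ / 2 * (Real.log ((i0 + k : ℕ) : ℝ) - Real.log i0) := by
    intro k
    induction k with
    | zero => simp
    | succ k ih =>
      rw [← add_assoc, Finset.sum_range_succ]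
      have := hx (i0 + k) (Nat.le_add_right _ _)
      linarith only [ih, this]
  obtain ⟨N1, hN1⟩ := eventually_atTop.1 h
  have hl : Tendsto (fun N : ℕ => κ / 2 * Real.log N) atTop atTop :=
    (Real.tendsto_log_atTop.comp tendsto_natCast_atTop_atTop).const_mul_atTop (by positivity)
  obtain ⟨N2, hN2⟩ := eventually_atTop.1
    (hl.eventually_gt_atTop (∑ i ∈ Finset.range i0, xs b i))
  obtain ⟨k, hk⟩ : ∃ k, k = N1 + N2 := ⟨_, rfl⟩
  have a1 := hsum k
  have a2 := hN1 (i0 + k) (by omega)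
  have a3 := hN2 (i0 + k) (by omega)
  have a4 : 0 ≤ Real.log (i0 : ℝ) := Real.log_natCast_nonneg _
  have a5 := mul_nonneg (show (0 : ℝ) ≤ κ / 2 by positivity) a4
  linarith only [a1, a2, a3, a5]

end Vale.Agent.P159.UJ.H282
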