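import Vale.Agent.P159.Bdl.B9

/-!
# Arbitrary squares inside a block

Squares `(s, c)` of arbitrary sides and corners inside the block `[0, L]²`, test fields given on
(type of bond, unit cell), splitting of the energy, tower property, exponential moments of sums of
mean currents and the total variance identity for every family of squares with disjoint interiors.
-/

set_option linter.all false

open MeasureTheory Filter Topology
open scoped BigOperators

namespace Vale.Agent.P159.UJ.H282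

/-- the square of side `s` with corner `c` lies in the block of side `L` with corner `0` -/
def Sq (L s : ℕ) (c : ℤ × ℤ) : Prop := 0 ≤ c.1 ∧ 0 ≤ c.2 ∧ c.1 + s ≤ L ∧ c.2 + s ≤ L

/-- the unit cells of a square -/
noncomputable def uc (s : ℕ) (c : ℤ × ℤ) : Finset (ℤ × ℤ) :=
  Finset.Ico c.1 (c.1 + s) ×ˢ Finset.Ico c.2 (c.2 + s)

/-- a test field: a number for every type of bond and every unit cell -/
abbrev Fld : Type := Bool × Bool → ℤ × ℤ → ℝ

/-- restriction of a test field to a square -/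
def rs (s : ℕ) (c : ℤ × ℤ) (g : Fld) : BI s → ℝ :=
  fun e => g e.2 (c + (((e.1.1 : ℕ) : ℤ), ((e.1.2 : ℕ) : ℤ)))

theorem mem_uc {s : ℕ} {c z : ℤ × ℤ} :
    z ∈ uc s c ↔ (c.1 ≤ z.1 ∧ z.1 < c.1 + s) ∧ (c.2 ≤ z.2 ∧ z.2 < c.2 + s) := by
  unfold uc
  rw [Finset.mem_product, Finset.mem_Ico, Finset.mem_Ico]

theorem uc_sub {L s : ℕ} {c : ℤ × ℤ} (h : Sq L s c) : uc s c ⊆ uc L 0 := by
  intro z hz
  rw [mem_uc] at hz ⊢
  obtain ⟨h1, h2, h3, h4⟩ := h
  simp only [Prod.fst_zero, Prod.snd_zero, zero_add]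
  omega

theorem fin_Ico (s : ℕ) (a : ℤ) (f : ℤ → ℝ) :
    ∑ i : Fin s, f (a + ((i : ℕ) : ℤ)) = ∑ z ∈ Finset.Ico a (a + s), f z := by
  rw [l1_fin s (fun i => f (a + i))]
  refine Finset.sum_bij' (fun i _ => a + i) (fun z _ => z - a) ?_ ?_ ?_ ?_ ?_
  · intro i hi
    have := Finset.mem_Ico.1 hi
    rw [Finset.mem_Ico]
    omega
  · intro z hz
    have := Finset.mem_Ico.1 hz
    rw [Finset.mem_Ico]
    omega
  · intro i _
    simp
  · intro z _
    simp
  · intro i _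
    rfl

/-- sums over the bonds of a square as sums over unit cells -/
theorem sum_uc {s : ℕ} (c : ℤ × ℤ) (Φ : Bool × Bool → ℤ × ℤ → ℝ) :
    ∑ e : BI s, Φ e.2 (c + (((e.1.1 : ℕ) : ℤ), ((e.1.2 : ℕ) : ℤ))) =
      ∑ z ∈ uc s c, ∑ t : Bool × Bool, Φ t z := by
  rw [l1_BI Φ c]
  unfold uc
  rw [Finset.sum_product]
  have h1 := fin_Ico s c.1 (fun z1 => ∑ z2 ∈ Finset.Ico c.2 (c.2 + s),
    ∑ t : Bool × Bool, Φ t (z1, z2))
  rw [← h1]
  refine Finset.sum_congr rfl fun i _ => ?_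
  have h2 := fin_Ico s c.2 (fun z2 => ∑ t : Bool × Bool, Φ t (c.1 + ((i : ℕ) : ℤ), z2))
  rw [← h2]
  rfl

/-- the bond of type `t` in the unit cell `z`: increments of a configuration -/
noncomputable def dT (θ : Ginf) (t : Bool × Bool) (z : ℤ × ℤ) : T := θ (z + l1o t) - θ (z + l1p t)

theorem sum_uc' {s : ℕ} (c : ℤ × ℤ) (g : Fld) (φ : ℝ → T → ℝ) (θ : Ginf) :
    ∑ e : BI s, φ (rs s c g e) (θ (c + bu e) - θ (c + bv e)) =
      ∑ z ∈ uc s c, ∑ t : Bool × Bool, φ (g t z) (dT θ t z) := by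
  simp only [l1_bu, l1_bv]
  exact sum_uc c (fun t z => φ (g t z) (dT θ t z))

theorem sum_rs {s : ℕ} (c : ℤ × ℤ) (g : Fld) (φ : ℝ → ℝ) :
    ∑ e : BI s, φ (rs s c g e) = ∑ z ∈ uc s c, ∑ t : Bool × Bool, φ (g t z) :=
  sum_uc c (fun t z => φ (g t z))

theorem EB_uc (b : ℝ) (s : ℕ) (c : ℤ × ℤ) (θ : Ginf) :
    EB b s c θ = ∑ z ∈ uc s c, ∑ t : Bool × Bool, b / 2 * cosT (dT θ t z) :=
  sum_uc' c (fun _ _ => 0) (fun _ x => b / 2 * cosT x) θ

theorem SB_uc (b : ℝ) (s : ℕ) (c : ℤ × ℤ) (g : Fld) (θ : Ginf) :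
    SB b s c (rs s c g) θ = ∑ z ∈ uc s c, ∑ t : Bool × Bool, b / 2 * g t z * sinT (dT θ t z) :=
  sum_uc' c g (fun r x => b / 2 * r * sinT x) θ

theorem BB_uc (b : ℝ) (s : ℕ) (c : ℤ × ℤ) (g : Fld) (θ : Ginf) :
    BB b s c (rs s c g) θ =
      ∑ z ∈ uc s c, ∑ t : Bool × Bool, b / 2 * (g t z * g t z) * cosT (dT θ t z) :=
  sum_uc' c g (fun r x => b / 2 * (r * r) * cosT x) θ

/-- every test function of the square is the restriction of a field -/
noncomputable def extF (s : ℕ) (c : ℤ × ℤ) (h : BI s → ℝ) : Fld := fun t z =>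
  if hz : z ∈ uc s c then
    h ((⟨(z.1 - c.1).toNat, by rw [mem_uc] at hz; omega⟩,
        ⟨(z.2 - c.2).toNat, by rw [mem_uc] at hz; omega⟩), t)
  else 0

theorem rs_extF (s : ℕ) (c : ℤ × ℤ) (h : BI s → ℝ) : rs s c (extF s c h) = h := by
  funext e
  obtain ⟨⟨i, j⟩, t⟩ := e
  have hi := i.2
  have hj := j.2
  unfold rs extF
  have hz : c + (((i : ℕ) : ℤ), ((j : ℕ) : ℤ)) ∈ uc s c := by
    rw [mem_uc]
    simp only [Prod.fst_add, Prod.snd_add]
    omega
  simp only [hz, dif_pos]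
  congr 2
  · apply Prod.ext
    · apply Fin.ext; simp
    · apply Fin.ext; simp

/-! ### interiors -/

/-- the endpoints of the bonds of a unit cell outside the square are not in its interior -/
theorem notMem_off {s : ℕ} {c z : ℤ × ℤ} (hz : z ∉ uc s c) (t : Bool × Bool) :
    z + l1o t ∉ inB s c ∧ z + l1p t ∉ inB s c := by
  rw [mem_uc] at hz
  obtain ⟨t1, t2⟩ := t
  constructor
  · intro h
    rw [var_mem_inB] at h
    cases t1 <;> cases t2 <;>
      simp [l1o, Prod.fst_add, Prod.snd_add] at h <;> omega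
  · intro h
    rw [var_mem_inB] at h
    cases t1 <;> cases t2 <;>
      simp [l1o, l1p, Prod.fst_add, Prod.snd_add] at h <;> omega

theorem dT_off {s : ℕ} {c z : ℤ × ℤ} (hz : z ∉ uc s c) (t : Bool × Bool) (x y : Ginf) :
    dT (x + PB s c y) t z = dT x t z := by
  obtain ⟨h1, h2⟩ := notMem_off hz t
  unfold dT
  rw [var_PB_notMem h1, var_PB_notMem h2]

theorem inB_sub {L s : ℕ} {c : ℤ × ℤ} (h : Sq L s c) : inB s c ⊆ inB L 0 := by
  intro z hz
  rw [var_mem_inB] at hz ⊢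
  obtain ⟨h1, h2, h3, h4⟩ := h
  simp only [Prod.fst_zero, Prod.snd_zero, sub_zero]
  omega

/-- closed squares with disjoint unit cells: the closed one does not meet the interior -/
theorem cl_off {s s' : ℕ} {c c' : ℤ × ℤ} (hd : Disjoint (uc s c) (uc s' c')) (hs' : 1 ≤ s')
    {z : ℤ × ℤ} (hz : z ∈ clB s' c') : z ∉ inB s c := by
  intro h
  rw [var_mem_clB] at hz
  rw [var_mem_inB] at h
  obtain ⟨a1, a2, a3, a4⟩ := hz
  obtain ⟨b1, b2, b3, b4⟩ := h
  have key : ∀ w k : ℤ, 0 ≤ w - k → w - k ≤ s' → ∃ e : ℤ, (e = 0 ∨ e = -1) ∧ k ≤ w + e ∧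
      w + e < k + s' := by
    intro w k h1 h2
    by_cases h3 : w - k = s'
    · exact ⟨-1, Or.inr rfl, by omega, by omega⟩
    · exact ⟨0, Or.inl rfl, by omega, by omega⟩
  obtain ⟨e1, h1, h2, h3⟩ := key z.1 c'.1 a1 a2
  obtain ⟨e2, h4, h5, h6⟩ := key z.2 c'.2 a3 a4
  have m1 : (z.1 + e1, z.2 + e2) ∈ uc s' c' := by
    rw [mem_uc]; exact ⟨⟨h2, h3⟩, h5, h6⟩
  have m2 : (z.1 + e1, z.2 + e2) ∈ uc s c := by
    rw [mem_uc]
    simp only
    rcases h1 with h1 | h1 <;> rcases h4 with h4 | h4 <;> subst h1 <;> subst h4 <;> omega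
  exact (Finset.disjoint_left.1 hd) m2 m1

theorem EB_off' {b : ℝ} {s s' : ℕ} {c c' : ℤ × ℤ} (hd : Disjoint (uc s c) (uc s' c'))
    (x y : Ginf) : EB b s' c' (x + PB s c y) = EB b s' c' x := by
  rw [EB_uc, EB_uc]
  refine Finset.sum_congr rfl fun z hz => Finset.sum_congr rfl fun t _ => ?_
  rw [dT_off (fun h => (Finset.disjoint_left.1 hd) h hz)]

theorem SB_off' {b : ℝ} {s s' : ℕ} {c c' : ℤ × ℤ} (hd : Disjoint (uc s c) (uc s' c'))
    (h : BI s' → ℝ) (x y : Ginf) : SB b s' c' h (x + PB s c y) = SB b s' c' h x := by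
  rw [← rs_extF s' c' h, SB_uc, SB_uc]
  refine Finset.sum_congr rfl fun z hz => Finset.sum_congr rfl fun t _ => ?_
  rw [dT_off (fun h => (Finset.disjoint_left.1 hd) h hz)]

theorem jc_off' {b : ℝ} {s s' : ℕ} {c c' : ℤ × ℤ} (hd : Disjoint (uc s c) (uc s' c'))
    (hs' : 1 ≤ s') (h : BI s' → ℝ) (x y : Ginf) :
    jc b s' c' h (x + PB s c y) = jc b s' c' h x :=
  jc_congr fun z hz _ => var_PB_notMem (cl_off hd hs' hz) x y

/-- the energy outside the square does not depend on its interior -/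
theorem rest_inv {b : ℝ} {L s : ℕ} {c : ℤ × ℤ} (h : Sq L s c) (x y : Ginf) :
    EB b L 0 (x + PB s c y) - EB b s c (x + PB s c y) = EB b L 0 x - EB b s c x := by
  have h1 : ∀ θ : Ginf, EB b L 0 θ - EB b s c θ =
      ∑ z ∈ uc L 0 \ uc s c, ∑ t : Bool × Bool, b / 2 * cosT (dT θ t z) := by
    intro θ
    rw [EB_uc, EB_uc, ← Finset.sum_sdiff (uc_sub h)]
    ring
  rw [h1, h1]
  refine Finset.sum_congr rfl fun z hz => Finset.sum_congr rfl fun t _ => ?_
  rw [dT_off (Finset.mem_sdiff.1 hz).2]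

/-- conditional expectation in a square -/
noncomputable def CS (b : ℝ) (s : ℕ) (c : ℤ × ℤ) (f : Ginf → ℝ) : Ginf → ℝ :=
  CE muInf (PB s c) (EB b s c) f

theorem CS_cont (b : ℝ) (s : ℕ) (c : ℤ × ℤ) {f : Ginf → ℝ} (hf : Continuous f) :
    Continuous (CS b s c f) :=
  CE_cont muInf (var_PB_cont _ _) (EB_cont _ _ _) hf

theorem CS_inv (b : ℝ) (s : ℕ) (c : ℤ × ℤ) (f : Ginf → ℝ) (x y : Ginf) :
    CS b s c f (x + PB s c y) = CS b s c f x :=
  CE_inv muInf (PB s c) _ _ x y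

theorem CS_nonneg {b : ℝ} {s : ℕ} {c : ℤ × ℤ} {f : Ginf → ℝ} (hf : ∀ x, 0 ≤ f x) (x : Ginf) :
    0 ≤ CS b s c f x := by
  unfold CS CE
  refine div_nonneg ?_ ?_
  · unfold av
    exact integral_nonneg fun y => mul_nonneg (hf _) (Real.exp_pos _).le
  · unfold av
    exact integral_nonneg fun y => (Real.exp_pos _).le

/-- the tower property -/
theorem tower {b : ℝ} {L s : ℕ} {c : ℤ × ℤ} (h : Sq L s c) {f g : Ginf → ℝ}
    (hf : Continuous f) (hg : Continuous g) (hinv : ∀ x y, g (x + PB s c y) = g x) :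
    Ev b L 0 (fun x => g x * CS b s c f x) = Ev b L 0 (fun x => g x * f x) := by
  unfold Ev
  congr 1
  have hwc : Continuous fun x => Real.exp (EB b L 0 x - EB b s c x) :=
    Real.continuous_exp.comp ((EB_cont _ _ _).sub (EB_cont _ _ _))
  have h1 := CE_int muInf (ν := nu L 0) (P := PB s c) (var_PB_cont _ _)
    (nu_inv (inB_sub h) 0) (E := EB b s c) (f := f) (g := g)
    (w := fun x => Real.exp (EB b L 0 x - EB b s c x)) (EB_cont _ _ _) hf hg hwc
    hinv (fun x y => by rw [rest_inv h])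
  have h2 : ∀ x, Real.exp (EB b L 0 x - EB b s c x) * Real.exp (EB b s c x)
      = Real.exp (EB b L 0 x) := by
    intro x
    rw [← Real.exp_add]
    congr 1
    ring
  simp only [h2] at h1
  exact h1

theorem tower_one {b : ℝ} {L s : ℕ} {c : ℤ × ℤ} (h : Sq L s c) {f : Ginf → ℝ}
    (hf : Continuous f) : Ev b L 0 (CS b s c f) = Ev b L 0 f := by
  have h := tower (b := b) h hf (g := fun _ => 1) continuous_const (fun _ _ => rfl)
  simp only [one_mul] at h
  exact h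

/-! ### properties of `Ev` -/

theorem Ev_mono {b : ℝ} {L : ℕ} {v : Ginf} {f g : Ginf → ℝ} (hf : Continuous f)
    (hg : Continuous g) (h : ∀ x, f x ≤ g x) : Ev b L v f ≤ Ev b L v g := by
  unfold Ev
  refine div_le_div_of_nonneg_right ?_ (WB_pos b L 0 0).le
  have hc := Real.continuous_exp.comp (EB_cont b L 0)
  exact integral_mono (cint (hf.mul hc)) (cint (hg.mul hc))
    fun x => mul_le_mul_of_nonneg_right (h x) (Real.exp_pos _).le

theorem Ev_nonneg {b : ℝ} {L : ℕ} {v : Ginf} {f : Ginf → ℝ} (h : ∀ x, 0 ≤ f x) :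
    0 ≤ Ev b L v f := by
  unfold Ev
  refine div_nonneg ?_ (WB_pos b L 0 0).le
  exact integral_nonneg fun x => mul_nonneg (h x) (Real.exp_pos _).le

/-- exponential moments of the current in the whole block -/
theorem Ev_expSB_L {b : ℝ} (hb : 0 ≤ b) {L : ℕ} (hL : 1 ≤ L) (g : Fld) :
    Ev b L 0 (fun z => Real.exp (SB b L 0 (rs L 0 g) z)) ≤
      Real.exp (1 / 2 * ∑ z ∈ uc L 0, ∑ t : Bool × Bool, b / 2 * g t z ^ 2) := by
  have hW : WB b L 0 0 = ∫ x, Real.exp (EB b (L * 1) 0 (PB (L * 1) 0 x)) ∂muInf := by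
    rw [mul_one]
    unfold WB av
    simp only [zero_add]
  have hWpos := WB_pos b L 0 0
  have hc00 : cor L (0 : ℤ × ℤ) = 0 := by unfold cor; simp
  unfold Ev
  rw [div_le_iff₀ hWpos]
  have hc : Continuous (fun x => Real.exp (SB b L 0 (rs L 0 g) x) * Real.exp (EB b L 0 x)) :=
    (Real.continuous_exp.comp (SB_cont b L 0 _)).mul (Real.continuous_exp.comp (EB_cont b L 0))
  rw [int_nu L 0 hc, hW]
  simp only [zero_add]
  have h1 := EB1.bound3 hb (l := L) (n := 1) hL {0} (by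
    intro z hz
    rw [Finset.mem_singleton] at hz
    subst hz
    simp [cells]) (rs L 0 g) 1
  simp only [Finset.sum_singleton, hc00, mul_one, one_mul, one_pow] at h1
  have h2 : ∑ e : BI L, b / 2 * rs L 0 g e ^ 2 =
      ∑ z ∈ uc L 0, ∑ t : Bool × Bool, b / 2 * g t z ^ 2 := sum_rs 0 g (fun r => b / 2 * r ^ 2)
  rw [← h2]
  simp only [mul_one]
  exact h1

/-! ### families of squares -/

/-- the squares of the family lie in the block and have disjoint interiors -/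
def Fam (L : ℕ) (S : Finset (ℕ × (ℤ × ℤ))) : Prop :=
  (∀ p ∈ S, 1 ≤ p.1 ∧ Sq L p.1 p.2) ∧
    ∀ p ∈ S, ∀ q ∈ S, p ≠ q → Disjoint (uc p.1 p.2) (uc q.1 q.2)

theorem Fam.mono {L : ℕ} {S S' : Finset (ℕ × (ℤ × ℤ))} (h : Fam L S) (hS : S' ⊆ S) : Fam L S' :=
  ⟨fun p hp => h.1 p (hS hp), fun p hp q hq hne => h.2 p (hS hp) q (hS hq) hne⟩

/-- the unit cells covered by the family -/
noncomputable def cov (S : Finset (ℕ × (ℤ × ℤ))) : Finset (ℤ × ℤ) := S.biUnion fun p => uc p.1 p.2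

theorem cov_sub {L : ℕ} {S : Finset (ℕ × (ℤ × ℤ))} (h : Fam L S) : cov S ⊆ uc L 0 := by
  intro z hz
  unfold cov at hz
  rw [Finset.mem_biUnion] at hz
  obtain ⟨p, hp, hz⟩ := hz
  exact uc_sub (h.1 p hp).2 hz

theorem sum_cov {L : ℕ} {S : Finset (ℕ × (ℤ × ℤ))} (h : Fam L S) (f : ℤ × ℤ → ℝ) :
    ∑ z ∈ cov S, f z = ∑ p ∈ S, ∑ z ∈ uc p.1 p.2, f z := by
  unfold cov
  exact Finset.sum_biUnion fun p hp q hq hne => h.2 p hp q hq hne

open Classical in
/-- the field cut off to the family -/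
noncomputable def cut (S : Finset (ℕ × (ℤ × ℤ))) (g : Fld) : Fld :=
  fun t z => if z ∈ cov S then g t z else 0

theorem cut_of_cov {L : ℕ} {S : Finset (ℕ × (ℤ × ℤ))} (hcov : cov S = uc L 0) (g : Fld) :
    rs L 0 (cut S g) = rs L 0 g := by
  funext e
  unfold rs cut
  have : (0 : ℤ × ℤ) + (((e.1.1 : ℕ) : ℤ), ((e.1.2 : ℕ) : ℤ)) ∈ cov S := by
    rw [hcov, mem_uc]
    have h1 := e.1.1.2
    have h2 := e.1.2.2
    simp only [zero_add, Prod.fst_zero, Prod.snd_zero]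
    omega
  rw [if_pos this]

theorem sum_cut {L : ℕ} {S : Finset (ℕ × (ℤ × ℤ))} (h : Fam L S) (g : Fld)
    (φ : Bool × Bool → ℤ × ℤ → ℝ → ℝ) (h0 : ∀ t z, φ t z 0 = 0) :
    ∑ z ∈ uc L 0, ∑ t : Bool × Bool, φ t z (cut S g t z) =
      ∑ p ∈ S, ∑ z ∈ uc p.1 p.2, ∑ t : Bool × Bool, φ t z (g t z) := by
  classical
  rw [← sum_cov h, ← Finset.sum_subset (cov_sub h)]
  · refine Finset.sum_congr rfl fun z hz => Finset.sum_congr rfl fun t _ => ?_
    unfold cut
    rw [if_pos hz]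
  · intro z _ hz
    refine Finset.sum_eq_zero fun t _ => ?_
    unfold cut
    rw [if_neg hz, h0]

theorem SB_cut {b : ℝ} {L : ℕ} {S : Finset (ℕ × (ℤ × ℤ))} (h : Fam L S) (g : Fld) (θ : Ginf) :
    SB b L 0 (rs L 0 (cut S g)) θ = ∑ p ∈ S, SB b p.1 p.2 (rs p.1 p.2 g) θ := by
  rw [SB_uc, sum_cut h g (fun t z r => b / 2 * r * sinT (dT θ t z)) (fun t z => by ring)]
  refine Finset.sum_congr rfl fun p _ => ?_
  rw [SB_uc]

theorem BB_cut {b : ℝ} {L : ℕ} {S : Finset (ℕ × (ℤ × ℤ))} (h : Fam L S) (g : Fld) (θ : Ginf) :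
    BB b L 0 (rs L 0 (cut S g)) θ = ∑ p ∈ S, BB b p.1 p.2 (rs p.1 p.2 g) θ := by
  rw [BB_uc, sum_cut h g (fun t z r => b / 2 * (r * r) * cosT (dT θ t z)) (fun t z => by ring)]
  refine Finset.sum_congr rfl fun p _ => ?_
  rw [BB_uc]

/-- the squares in `S` : `Σ (b/2) g²` -/
noncomputable def nrm (b : ℝ) (S : Finset (ℕ × (ℤ × ℤ))) (g : Fld) : ℝ :=
  ∑ p ∈ S, ∑ z ∈ uc p.1 p.2, ∑ t : Bool × Bool, b / 2 * g t z ^ 2

/-- exponential moments of the sum of the currents of the squares -/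
theorem Ev_expSB {b : ℝ} (hb : 0 ≤ b) {L : ℕ} (hL : 1 ≤ L) {S : Finset (ℕ × (ℤ × ℤ))}
    (h : Fam L S) (g : Fld) :
    Ev b L 0 (fun z => Real.exp (∑ p ∈ S, SB b p.1 p.2 (rs p.1 p.2 g) z)) ≤
      Real.exp (1 / 2 * nrm b S g) := by
  have h1 := Ev_expSB_L hb hL (cut S g)
  simp_rw [SB_cut h] at h1
  rw [sum_cut h g (fun t z r => b / 2 * r ^ 2) (fun t z => by ring)] at h1
  exact h1

/-- replace the mean currents by the currents -/
theorem replace {b : ℝ} {L : ℕ} (g : Fld) (S : Finset (ℕ × (ℤ × ℤ))) :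
    Fam L S → ∀ G : Ginf → ℝ, Continuous G → (∀ x, 0 ≤ G x) →
      (∀ p ∈ S, ∀ x y, G (x + PB p.1 p.2 y) = G x) →
      Ev b L 0 (fun x => G x * Real.exp (∑ p ∈ S, jc b p.1 p.2 (rs p.1 p.2 g) x)) ≤
      Ev b L 0 (fun x => G x * Real.exp (∑ p ∈ S, SB b p.1 p.2 (rs p.1 p.2 g) x)) := by
  classical
  induction S using Finset.induction_on with
  | empty => intro _ G _ _ _; simp
  | insert a S ha ih =>
    intro hS G hG hG0 hGinv
    have haS := hS.1 a (Finset.mem_insert_self a S)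
    have hS' : Fam L S := hS.mono (Finset.subset_insert a S)
    have hne : ∀ p ∈ S, p ≠ a := fun p hp h => ha (h ▸ hp)
    have hdis : ∀ p ∈ S, Disjoint (uc a.1 a.2) (uc p.1 p.2) := fun p hp =>
      hS.2 a (Finset.mem_insert_self a S) p (Finset.mem_insert_of_mem hp) (hne p hp).symm
    have hcs := SB_cont b a.1 a.2 (rs a.1 a.2 g)
    have hcja := jc_cont b a.1 a.2 (rs a.1 a.2 g)
    have hcS : Continuous (fun x => ∑ p ∈ S, jc b p.1 p.2 (rs p.1 p.2 g) x) :=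
      continuous_finsetSum _ fun p _ => jc_cont b p.1 p.2 _
    have hcS2 : Continuous (fun x => ∑ p ∈ S, SB b p.1 p.2 (rs p.1 p.2 g) x) :=
      continuous_finsetSum _ fun p _ => SB_cont b p.1 p.2 _
    have hGc : Continuous (fun x => G x * Real.exp (∑ p ∈ S, jc b p.1 p.2 (rs p.1 p.2 g) x)) :=
      hG.mul (Real.continuous_exp.comp hcS)
    have hfc : Continuous (fun z => Real.exp (SB b a.1 a.2 (rs a.1 a.2 g) z)) :=
      Real.continuous_exp.comp hcs
    have hfj : Continuous (fun z => Real.exp (jc b a.1 a.2 (rs a.1 a.2 g) z)) :=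
      Real.continuous_exp.comp hcja
    have h1 : Ev b L 0 (fun x => G x *
        Real.exp (∑ p ∈ insert a S, jc b p.1 p.2 (rs p.1 p.2 g) x)) ≤
        Ev b L 0 (fun x => (G x * Real.exp (∑ p ∈ S, jc b p.1 p.2 (rs p.1 p.2 g) x)) *
          CS b a.1 a.2 (fun z => Real.exp (SB b a.1 a.2 (rs a.1 a.2 g) z)) x) := by
      refine Ev_mono ?_ ?_ fun x => ?_
      · exact hG.mul (Real.continuous_exp.comp
          (continuous_finsetSum _ fun p _ => jc_cont b p.1 p.2 _))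
      · exact hGc.mul (CS_cont b a.1 a.2 hfc)
      · rw [Finset.sum_insert ha, Real.exp_add, mul_comm (Real.exp (jc b a.1 a.2 _ x)),
          ← mul_assoc]
        refine mul_le_mul_of_nonneg_left ?_ (mul_nonneg (hG0 x) (Real.exp_pos _).le)
        have h2 := EB1.CE_jensen muInf (var_PB_cont a.1 a.2) (EB_cont b a.1 a.2) hcs 1 x
        simp only [one_mul] at h2
        exact h2
    refine h1.trans ?_
    rw [tower haS.2 hfc hGc (fun x y => by
      rw [hGinv a (Finset.mem_insert_self a S) x y]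
      congr 2
      exact Finset.sum_congr rfl fun p hp =>
        jc_off' (hdis p hp) (hS'.1 p hp).1 _ x y)]
    have h4 := ih hS' (fun x => G x * Real.exp (SB b a.1 a.2 (rs a.1 a.2 g) x))
      (hG.mul hfc) (fun x => mul_nonneg (hG0 x) (Real.exp_pos _).le) (by
        intro p hp x y
        show G (x + PB p.1 p.2 y) * Real.exp (SB b a.1 a.2 (rs a.1 a.2 g) (x + PB p.1 p.2 y)) = _
        rw [hGinv p (Finset.mem_insert_of_mem hp) x y, SB_off' (hdis p hp).symm _ x y])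
    have e1 : (fun x => G x * Real.exp (∑ p ∈ S, jc b p.1 p.2 (rs p.1 p.2 g) x) *
        Real.exp (SB b a.1 a.2 (rs a.1 a.2 g) x)) =
        fun x => G x * Real.exp (SB b a.1 a.2 (rs a.1 a.2 g) x) *
          Real.exp (∑ p ∈ S, jc b p.1 p.2 (rs p.1 p.2 g) x) := by
      funext x; ring
    have e2 : (fun x => G x * Real.exp (SB b a.1 a.2 (rs a.1 a.2 g) x) *
        Real.exp (∑ p ∈ S, SB b p.1 p.2 (rs p.1 p.2 g) x)) =
        fun x => G x * Real.exp (∑ p ∈ insert a S, SB b p.1 p.2 (rs p.1 p.2 g) x) := by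
      funext x
      rw [Finset.sum_insert ha, Real.exp_add]
      ring
    rw [e1]
    rw [e2] at h4
    exact h4

/-- exponential moments of the sum of the mean currents of the squares -/
theorem Ev_expjc {b : ℝ} (hb : 0 ≤ b) {L : ℕ} (hL : 1 ≤ L) {S : Finset (ℕ × (ℤ × ℤ))}
    (h : Fam L S) (g : Fld) :
    Ev b L 0 (fun z => Real.exp (∑ p ∈ S, jc b p.1 p.2 (rs p.1 p.2 g) z)) ≤
      Real.exp (1 / 2 * nrm b S g) := by
  have h1 := replace (b := b) (L := L) g S h (fun _ => 1) continuous_const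
    (fun _ => zero_le_one) (fun _ _ _ _ => rfl)
  simp only [one_mul] at h1
  exact h1.trans (Ev_expSB hb hL h g)

end Vale.Agent.P159.UJ.H282
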