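import Vale.Agent.P159.H282.Var

/-!
# Current tests under a displacement

`T(x) = Σ_p j_p[g](x)`. Under the displacement `α` the test is `m` up to an error whose mean is
bounded by `√(vS) + …`.
-/

set_option linter.all false

open MeasureTheory Filter Topology
open scoped BigOperators

namespace Vale.Agent.P159.UJ.H282

open H664

/-- `A` is a field of real increments of `α` on the square -/
def Inc (α : Ginf) (A : Fld) (s : ℕ) (c : ℤ × ℤ) : Prop :=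
  ∀ z ∈ uc s c, ∀ t, ((A t z : ℝ) : T) = dT α t z

theorem mem_uc_bond {s : ℕ} (c : ℤ × ℤ) (e : BI s) :
    c + (((e.1.1 : ℕ) : ℤ), ((e.1.2 : ℕ) : ℤ)) ∈ uc s c := by
  rw [mem_uc]
  have h1 := e.1.1.2
  have h2 := e.1.2.2
  simp only [Prod.fst_add, Prod.snd_add]
  omega

theorem Inc.rs {α : Ginf} {A : Fld} {s : ℕ} {c : ℤ × ℤ} (h : Inc α A s c) (e : BI s) :
    ((rs s c A e : ℝ) : T) = α (c + bu e) - α (c + bv e) := by
  rw [l1_bu, l1_bv]
  exact h _ (mem_uc_bond c e) e.2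

/-- the bound `|g| ≤ w` on a square -/
theorem rs_le {g : Fld} {s : ℕ} {c : ℤ × ℤ} {w : ℝ} (h : ∀ z ∈ uc s c, ∀ t, |g t z| ≤ w)
    (e : BI s) : |rs s c g e| ≤ w := h _ (mem_uc_bond c e) e.2

theorem Ev_abs_le_sqrt {b : ℝ} {L : ℕ} {f : Ginf → ℝ} (hf : Continuous f) {v : ℝ}
    (h : Ev b L 0 (fun x => f x ^ 2) ≤ v) : Ev b L 0 (fun x => |f x|) ≤ Real.sqrt v := by
  have ha : Continuous fun x => |f x| := continuous_abs.comp hf
  have h0 : 0 ≤ Ev b L 0 (fun x => |f x|) := Ev_nonneg fun x => abs_nonneg _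
  refine Real.le_sqrt_of_sq_le ?_
  refine le_trans ?_ h
  obtain ⟨m, hm⟩ : ∃ m, m = Ev b L 0 (fun x => |f x|) := ⟨_, rfl⟩
  rw [← hm]
  have c1 : Continuous (fun x => (2 * m) * |f x|) := continuous_const.mul ha
  have c2 : Continuous (fun _ : Ginf => m ^ 2) := continuous_const
  have h1 := Ev_mono (b := b) (L := L) (v := 0) (f := fun x => (2 * m) * |f x| - m ^ 2)
    (g := fun x => f x ^ 2) (c1.sub c2) (hf.pow 2)
    fun x => by rw [← sq_abs (f x)]; nlinarith only [sq_nonneg (|f x| - m)]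
  rw [var_Ev_sub b L c1 c2, var_Ev_smul, var_Ev_const, ← hm] at h1
  linarith only [h1]

/-- **current tests under a displacement** -/
theorem test_mean (B : ℝ) (hB : 0 < B) : ∃ C : ℝ, 0 ≤ C ∧ ∀ b : ℝ, 0 < b → b ≤ B →
    ∀ (L : ℕ) (S : Finset (ℕ × (ℤ × ℤ))), Fam L S → ∀ (α : Ginf) (A g : Fld)
      (u w : ℕ × (ℤ × ℤ) → ℝ) (m : ℝ),
      (∀ p ∈ S, 0 < u p ∧ u p ≤ 1 ∧ 0 < w p ∧ Inc α A p.1 p.2 ∧
        (∀ z ∈ uc p.1 p.2, ∀ t, |A t z| ≤ u p / p.1) ∧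
        (∀ z ∈ uc p.1 p.2, ∀ t, |g t z| ≤ w p / p.1)) →
      Ev b L 0 (fun x => |TT b S g (x + α) - m|) ≤
        Real.sqrt (vS b L S g) + (vS b L S g +
          ∑ p ∈ S, Ev b L 0 (dfc b p.1 p.2 (rs p.1 p.2 A))) / 2 +
          C * ∑ p ∈ S, w p * u p ^ 2 +
          |∑ p ∈ S, q2 b p.1 p.2 (rs p.1 p.2 g) (rs p.1 p.2 A) 0 - m| := by
  obtain ⟨C, hC, hU⟩ := uce B hB
  refine ⟨C, hC, ?_⟩
  intro b hb hbB L S hF α A g u w m hyp
  classical
  have key : ∀ p ∈ S, ∃ Er : Ginf → ℝ, Continuous Er ∧ (∀ x, 0 ≤ Er x) ∧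
      Ev b L 0 Er ≤ C * (w p * u p ^ 2) ∧
        ∀ x, |jc b p.1 p.2 (rs p.1 p.2 g) (x + α) - jc b p.1 p.2 (rs p.1 p.2 g) x -
          q2 b p.1 p.2 (rs p.1 p.2 g) (rs p.1 p.2 A) x| ≤ Er x := by
    intro p hp
    obtain ⟨h1, h2, h3, h4, h5, h6⟩ := hyp p hp
    obtain ⟨Er, e1, e2, -, e4, e5⟩ := hU b hb hbB L p.1 p.2 (hF.1 p hp).1 (hF.1 p hp).2 α
      (rs p.1 p.2 A) (rs p.1 p.2 g) (u p) (w p) h1 h2 h3 h4.rs (rs_le h5) (rs_le h6)
    exact ⟨Er, e1, e2, e4, e5⟩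
  have key' : ∀ p, ∃ Er : Ginf → ℝ, Continuous Er ∧ (∀ x, 0 ≤ Er x) ∧
      (p ∈ S → (Ev b L 0 Er ≤ C * (w p * u p ^ 2) ∧
        ∀ x, |jc b p.1 p.2 (rs p.1 p.2 g) (x + α) - jc b p.1 p.2 (rs p.1 p.2 g) x -
          q2 b p.1 p.2 (rs p.1 p.2 g) (rs p.1 p.2 A) x| ≤ Er x)) := by
    intro p
    by_cases hp : p ∈ S
    · obtain ⟨Er, e1, e2, e4, e5⟩ := key p hp
      exact ⟨Er, e1, e2, fun _ => ⟨e4, e5⟩⟩
    · exact ⟨fun _ => 0, continuous_const, fun _ => le_rfl, fun h => absurd h hp⟩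
  choose Er hc h0 hE using key'
  obtain ⟨D1, hD1⟩ : ∃ D : ℕ × (ℤ × ℤ) → Ginf → ℝ, D = fun p => dfc b p.1 p.2 (rs p.1 p.2 g) :=
    ⟨_, rfl⟩
  obtain ⟨D2, hD2⟩ : ∃ D : ℕ × (ℤ × ℤ) → Ginf → ℝ, D = fun p => dfc b p.1 p.2 (rs p.1 p.2 A) :=
    ⟨_, rfl⟩
  obtain ⟨m0, hm0⟩ : ∃ m0, m0 = ∑ p ∈ S, q2 b p.1 p.2 (rs p.1 p.2 g) (rs p.1 p.2 A) 0 := ⟨_, rfl⟩
  have cT := TT_cont b S g
  have cT1 : Continuous fun x => |TT b S g x| := continuous_abs.comp cT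
  have cD1 : ∀ p, Continuous (D1 p) := fun p => by rw [hD1]; exact dfc_cont _ _ _ _
  have cD2 : ∀ p, Continuous (D2 p) := fun p => by rw [hD2]; exact dfc_cont _ _ _ _
  have cS1 : Continuous fun x => ∑ p ∈ S, D1 p x := continuous_finsetSum _ fun p _ => cD1 p
  have cS2 : Continuous fun x => ∑ p ∈ S, D2 p x := continuous_finsetSum _ fun p _ => cD2 p
  have cS3 : Continuous fun x => ∑ p ∈ S, Er p x := continuous_finsetSum _ fun p _ => hc p
  have cH1 : Continuous fun x => 1 / 2 * ∑ p ∈ S, D1 p x := continuous_const.mul cS1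
  have cH2 : Continuous fun x => 1 / 2 * ∑ p ∈ S, D2 p x := continuous_const.mul cS2
  have cR1 : Continuous fun x => |TT b S g x| + 1 / 2 * ∑ p ∈ S, D1 p x := cT1.add cH1
  have cR2 : Continuous fun x => |TT b S g x| + 1 / 2 * ∑ p ∈ S, D1 p x +
      1 / 2 * ∑ p ∈ S, D2 p x := cR1.add cH2
  have cR3 : Continuous fun x => |TT b S g x| + 1 / 2 * ∑ p ∈ S, D1 p x +
      1 / 2 * ∑ p ∈ S, D2 p x + ∑ p ∈ S, Er p x := cR2.add cS3
  have cR4 : Continuous fun x => |TT b S g x| + 1 / 2 * ∑ p ∈ S, D1 p x +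
      1 / 2 * ∑ p ∈ S, D2 p x + ∑ p ∈ S, Er p x + |m0 - m| := cR3.add continuous_const
  have cL : Continuous fun x => |TT b S g (x + α) - m| :=
    continuous_abs.comp ((cT.comp (continuous_id.add continuous_const)).sub continuous_const)
  have hpt : ∀ x, |TT b S g (x + α) - m| ≤ |TT b S g x| + 1 / 2 * ∑ p ∈ S, D1 p x +
      1 / 2 * ∑ p ∈ S, D2 p x + ∑ p ∈ S, Er p x + |m0 - m| := by
    intro x
    have e1 : TT b S g (x + α) - m = TT b S g x +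
        ∑ p ∈ S, (jc b p.1 p.2 (rs p.1 p.2 g) (x + α) - jc b p.1 p.2 (rs p.1 p.2 g) x -
          q2 b p.1 p.2 (rs p.1 p.2 g) (rs p.1 p.2 A) x) -
        ∑ p ∈ S, (q2 b p.1 p.2 (rs p.1 p.2 g) (rs p.1 p.2 A) 0 -
          q2 b p.1 p.2 (rs p.1 p.2 g) (rs p.1 p.2 A) x) + (m0 - m) := by
      rw [hm0]
      unfold TT
      simp only [Finset.sum_sub_distrib]
      ring
    have e2 : |∑ p ∈ S, (jc b p.1 p.2 (rs p.1 p.2 g) (x + α) - jc b p.1 p.2 (rs p.1 p.2 g) x -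
          q2 b p.1 p.2 (rs p.1 p.2 g) (rs p.1 p.2 A) x)| ≤ ∑ p ∈ S, Er p x :=
      (Finset.abs_sum_le_sum_abs _ _).trans (Finset.sum_le_sum fun p hp => (hE p hp).2 x)
    have e3 : |∑ p ∈ S, (q2 b p.1 p.2 (rs p.1 p.2 g) (rs p.1 p.2 A) 0 -
          q2 b p.1 p.2 (rs p.1 p.2 g) (rs p.1 p.2 A) x)| ≤
        1 / 2 * ∑ p ∈ S, D1 p x + 1 / 2 * ∑ p ∈ S, D2 p x := by
      refine (Finset.abs_sum_le_sum_abs _ _).trans ?_
      rw [Finset.mul_sum, Finset.mul_sum, ← Finset.sum_add_distrib]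
      refine Finset.sum_le_sum fun p hp => ?_
      have := q2_dfc hb.le p.1 p.2 (rs p.1 p.2 g) (rs p.1 p.2 A) x (r := 1) one_pos
      rw [inv_one, one_mul, one_mul] at this
      rw [hD1, hD2]
      linarith only [this]
    rw [e1]
    have a1 := abs_add_le (TT b S g x +
        ∑ p ∈ S, (jc b p.1 p.2 (rs p.1 p.2 g) (x + α) - jc b p.1 p.2 (rs p.1 p.2 g) x -
          q2 b p.1 p.2 (rs p.1 p.2 g) (rs p.1 p.2 A) x) -
        ∑ p ∈ S, (q2 b p.1 p.2 (rs p.1 p.2 g) (rs p.1 p.2 A) 0 -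
          q2 b p.1 p.2 (rs p.1 p.2 g) (rs p.1 p.2 A) x)) (m0 - m)
    have a2 := abs_sub (TT b S g x +
        ∑ p ∈ S, (jc b p.1 p.2 (rs p.1 p.2 g) (x + α) - jc b p.1 p.2 (rs p.1 p.2 g) x -
          q2 b p.1 p.2 (rs p.1 p.2 g) (rs p.1 p.2 A) x))
        (∑ p ∈ S, (q2 b p.1 p.2 (rs p.1 p.2 g) (rs p.1 p.2 A) 0 -
          q2 b p.1 p.2 (rs p.1 p.2 g) (rs p.1 p.2 A) x))
    have a3 := abs_add_le (TT b S g x)
        (∑ p ∈ S, (jc b p.1 p.2 (rs p.1 p.2 g) (x + α) - jc b p.1 p.2 (rs p.1 p.2 g) x -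
          q2 b p.1 p.2 (rs p.1 p.2 g) (rs p.1 p.2 A) x))
    linarith only [a1, a2, a3, e2, e3]
  refine (Ev_mono cL cR4 hpt).trans ?_
  have f1 : Ev b L 0 (fun x => |TT b S g x|) ≤ Real.sqrt (vS b L S g) :=
    Ev_abs_le_sqrt cT (var_le hb.le hF g)
  have f2 : Ev b L 0 (fun x => ∑ p ∈ S, D1 p x) ≤ vS b L S g := by
    rw [var_Ev_sum b L S D1 cD1, hD1]
    exact dfc_le hb.le hF g
  have f3 : Ev b L 0 (fun x => ∑ p ∈ S, D2 p x) =
      ∑ p ∈ S, Ev b L 0 (dfc b p.1 p.2 (rs p.1 p.2 A)) := by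
    rw [var_Ev_sum b L S D2 cD2, hD2]
  have f4 : Ev b L 0 (fun x => ∑ p ∈ S, Er p x) ≤ C * ∑ p ∈ S, w p * u p ^ 2 := by
    rw [var_Ev_sum b L S Er hc, Finset.mul_sum]
    exact Finset.sum_le_sum fun p hp => (hE p hp).1
  rw [var_Ev_add b L cR3 continuous_const, var_Ev_add b L cR2 cS3,
    var_Ev_add b L cR1 cH2, var_Ev_add b L cT1 cH1,
    var_Ev_smul, var_Ev_smul, var_Ev_const, f3, ← hm0]
  linarith only [f1, f2, f4]

/-- Markov inequality -/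
theorem Ev_markov {b : ℝ} {L : ℕ} {f : Ginf → ℝ} (hf : Continuous f) (h0 : ∀ x, 0 ≤ f x)
    {d : ℝ} (hd : 0 < d) :
    Ev b L 0 (Set.indicator {x | d < f x} fun _ => (1 : ℝ)) ≤ Ev b L 0 f / d := by
  have hc := Real.continuous_exp.comp (EB_cont b L 0)
  have hm : MeasurableSet {x | d < f x} := measurableSet_lt measurable_const hf.measurable
  have h1 : Ev b L 0 (Set.indicator {x | d < f x} fun _ => (1 : ℝ)) ≤
      Ev b L 0 (fun x => d⁻¹ * f x) := by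
    unfold Ev
    refine div_le_div_of_nonneg_right ?_ (WB_pos b L 0 0).le
    refine integral_mono ?_ (cint ((continuous_const.mul hf).mul hc)) fun x => ?_
    · have h2 : (fun x => Set.indicator {x | d < f x} (fun _ => (1 : ℝ)) x *
          Real.exp (EB b L 0 x)) =
          Set.indicator {x | d < f x} (fun x => Real.exp (EB b L 0 x)) := by
        funext x
        by_cases hx : x ∈ {x | d < f x}
        · rw [Set.indicator_of_mem hx, Set.indicator_of_mem hx, one_mul]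
        · rw [Set.indicator_of_notMem hx, Set.indicator_of_notMem hx, zero_mul]
      rw [h2]
      exact (cint hc).indicator hm
    · refine mul_le_mul_of_nonneg_right ?_ (Real.exp_pos _).le
      by_cases hx : x ∈ {x | d < f x}
      · rw [Set.indicator_of_mem hx]
        have h3 : d < f x := hx
        show (1 : ℝ) ≤ d⁻¹ * f x
        rw [inv_mul_eq_div, le_div_iff₀ hd]
        linarith only [h3]
      · rw [Set.indicator_of_notMem hx]
        exact mul_nonneg (inv_nonneg.2 hd.le) (h0 x)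
  rw [var_Ev_smul] at h1
  rw [div_eq_inv_mul]
  exact h1

theorem av_neg (s : ℕ) (c : ℤ × ℤ) (f : Ginf → ℝ) (x : Ginf) :
    av muInf (PB s c) f (-x) = av muInf (PB s c) (fun z => f (-z)) x := by
  unfold av
  have h := integral_neg_eq_self (μ := muInf) (fun y => f (-x + PB s c y))
  rw [← h]
  refine integral_congr_ae (Eventually.of_forall fun y => ?_)
  simp only [map_neg]
  congr 1
  abel

theorem EB_neg (b : ℝ) (s : ℕ) (c : ℤ × ℤ) (x : Ginf) : EB b s c (-x) = EB b s c x := by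
  unfold EB
  refine Finset.sum_congr rfl fun e _ => ?_
  rw [Pi.neg_apply, Pi.neg_apply, ← cosT_neg]
  congr 2
  abel

theorem SB_neg (b : ℝ) (s : ℕ) (c : ℤ × ℤ) (h : BI s → ℝ) (x : Ginf) :
    SB b s c h (-x) = - SB b s c h x := by
  unfold SB
  rw [← Finset.sum_neg_distrib]
  refine Finset.sum_congr rfl fun e _ => ?_
  have e1 : (-x) (c + bu e) - (-x) (c + bv e) = -(x (c + bu e) - x (c + bv e)) := by
    rw [Pi.neg_apply, Pi.neg_apply]; abel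
  rw [e1, sinT_neg]
  ring

theorem jc_neg (b : ℝ) (s : ℕ) (c : ℤ × ℤ) (h : BI s → ℝ) (x : Ginf) :
    jc b s c h (-x) = - jc b s c h x := by
  unfold jc CE
  rw [av_neg, av_neg]
  simp only [EB_neg, SB_neg, neg_mul]
  have h1 : av muInf (PB s c) (fun z => -(SB b s c h z * Real.exp (EB b s c z))) x =
      - av muInf (PB s c) (fun z => SB b s c h z * Real.exp (EB b s c z)) x := by
    unfold av
    rw [integral_neg]
  rw [h1, neg_div]

/-- the mean current is odd -/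
theorem TT_neg (b : ℝ) (S : Finset (ℕ × (ℤ × ℤ))) (g : Fld) (x : Ginf) :
    TT b S g (-x) = - TT b S g x := by
  unfold TT
  rw [← Finset.sum_neg_distrib]
  exact Finset.sum_congr rfl fun p _ => jc_neg b p.1 p.2 _ x

end Vale.Agent.P159.UJ.H282
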