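import Vale.Agent.P159.H282.Test

/-!
# Failure of a current test under a displacement

`P₀(|T(x + α) - m| > δ) ≤ 4 vS / δ² + (2/δ) (…)`: everything is linear in the drop of the
stiffness.
-/

set_option linter.all false

open MeasureTheory Filter Topology
open scoped BigOperators

namespace Vale.Agent.P159.UJ.H282

open H664

/-- **failure of a current test**: a continuous function which is at least one where the test fails
and whose mean is small -/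
theorem test_G (B : ℝ) (hB : 0 < B) : ∃ C : ℝ, 0 ≤ C ∧ ∀ b : ℝ, 0 < b → b ≤ B →
    ∀ (L : ℕ) (S : Finset (ℕ × (ℤ × ℤ))), Fam L S → ∀ (α : Ginf) (A g : Fld)
      (u w : ℕ × (ℤ × ℤ) → ℝ) (m δ : ℝ), 0 < δ →
      (∀ p ∈ S, 0 < u p ∧ u p ≤ 1 ∧ 0 < w p ∧ Inc α A p.1 p.2 ∧
        (∀ z ∈ uc p.1 p.2, ∀ t, |A t z| ≤ u p / p.1) ∧
        (∀ z ∈ uc p.1 p.2, ∀ t, |g t z| ≤ w p / p.1)) →
      ∃ G : Ginf → ℝ, Continuous G ∧ (∀ x, 0 ≤ G x) ∧
        (∀ x, δ < |TT b S g (x + α) - m| → 1 ≤ G x) ∧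
        Ev b L 0 G ≤ 4 / δ ^ 2 * vS b L S g + 2 / δ * ((vS b L S g +
          ∑ p ∈ S, Ev b L 0 (dfc b p.1 p.2 (rs p.1 p.2 A))) / 2 +
          C * ∑ p ∈ S, w p * u p ^ 2 +
          |∑ p ∈ S, q2 b p.1 p.2 (rs p.1 p.2 g) (rs p.1 p.2 A) 0 - m|) := by
  obtain ⟨C, hC, hU⟩ := uce B hB
  refine ⟨C, hC, ?_⟩
  intro b hb hbB L S hF α A g u w m δ hδ hyp
  classical
  have key : ∀ p ∈ S, ∃ Er : Ginf → ℝ, Continuous Er ∧ (∀ x, 0 ≤ Er x) ∧
      Ev b L 0 Er ≤ C * (w p * u p ^ 2) ∧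
        ∀ x, |jc b p.1 p.2 (rs p.1 p.2 g) (x + α) - jc b p.1 p.2 (rs p.1 p.2 g) x -
          q2 b p.1 p.2 (rs p.1 p.2 g) (rs p.1 p.2 A) x| ≤ Er x := by
    intro p hp
    obtain ⟨h1, h2, h3, h4, h5, h6⟩ := hyp p hp
    obtain ⟨Er, e1, e2, -, e4, e5⟩ := hU b hb hbB L p.1 p.2 (hF.1 p hp).1 (hF.1 p hp).2 α
      (rs p.1 p.2 A) (rs p.1 p.2 g) (u p) (w p) h1 h2 h3 h4.rs (rs_le h5) (rs_le h6)
    exact ⟨Er, e1, e2, e4, e5⟩
  have key' : ∀ p, ∃ Er : Ginf → ℝ, Continuous Er ∧ (∀ x, 0 ≤ Er x) ∧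
      (p ∈ S → (Ev b L 0 Er ≤ C * (w p * u p ^ 2) ∧
        ∀ x, |jc b p.1 p.2 (rs p.1 p.2 g) (x + α) - jc b p.1 p.2 (rs p.1 p.2 g) x -
          q2 b p.1 p.2 (rs p.1 p.2 g) (rs p.1 p.2 A) x| ≤ Er x)) := by
    intro p
    by_cases hp : p ∈ S
    · obtain ⟨Er, e1, e2, e4, e5⟩ := key p hp
      exact ⟨Er, e1, e2, fun _ => ⟨e4, e5⟩⟩
    · exact ⟨fun _ => 0, continuous_const, fun _ => le_rfl, fun h => absurd h hp⟩
  choose Er hc h0 hE using key'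
  obtain ⟨D1, hD1⟩ : ∃ D : ℕ × (ℤ × ℤ) → Ginf → ℝ, D = fun p => dfc b p.1 p.2 (rs p.1 p.2 g) :=
    ⟨_, rfl⟩
  obtain ⟨D2, hD2⟩ : ∃ D : ℕ × (ℤ × ℤ) → Ginf → ℝ, D = fun p => dfc b p.1 p.2 (rs p.1 p.2 A) :=
    ⟨_, rfl⟩
  obtain ⟨m0, hm0⟩ : ∃ m0, m0 = ∑ p ∈ S, q2 b p.1 p.2 (rs p.1 p.2 g) (rs p.1 p.2 A) 0 := ⟨_, rfl⟩
  have cT := TT_cont b S g
  have cT1 : Continuous fun x => |TT b S g x| := continuous_abs.comp cT
  have cD1 : ∀ p, Continuous (D1 p) := fun p => by rw [hD1]; exact dfc_cont _ _ _ _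
  have cD2 : ∀ p, Continuous (D2 p) := fun p => by rw [hD2]; exact dfc_cont _ _ _ _
  have nD1 : ∀ p x, 0 ≤ D1 p x := fun p x => by rw [hD1]; exact dfc_nonneg hb.le _ _ _ x
  have nD2 : ∀ p x, 0 ≤ D2 p x := fun p x => by rw [hD2]; exact dfc_nonneg hb.le _ _ _ x
  have cS1 : Continuous fun x => ∑ p ∈ S, D1 p x := continuous_finsetSum _ fun p _ => cD1 p
  have cS2 : Continuous fun x => ∑ p ∈ S, D2 p x := continuous_finsetSum _ fun p _ => cD2 p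
  have cS3 : Continuous fun x => ∑ p ∈ S, Er p x := continuous_finsetSum _ fun p _ => hc p
  have cH1 : Continuous fun x => 1 / 2 * ∑ p ∈ S, D1 p x := continuous_const.mul cS1
  have cH2 : Continuous fun x => 1 / 2 * ∑ p ∈ S, D2 p x := continuous_const.mul cS2
  obtain ⟨R, hR⟩ : ∃ R : Ginf → ℝ, R = fun x => 1 / 2 * ∑ p ∈ S, D1 p x +
      1 / 2 * ∑ p ∈ S, D2 p x + ∑ p ∈ S, Er p x + |m0 - m| := ⟨_, rfl⟩
  have cR1 : Continuous fun x => 1 / 2 * ∑ p ∈ S, D1 p x + 1 / 2 * ∑ p ∈ S, D2 p x :=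
    cH1.add cH2
  have cR2 : Continuous fun x => 1 / 2 * ∑ p ∈ S, D1 p x + 1 / 2 * ∑ p ∈ S, D2 p x +
      ∑ p ∈ S, Er p x := cR1.add cS3
  have cR : Continuous R := by rw [hR]; exact cR2.add continuous_const
  have nR : ∀ x, 0 ≤ R x := by
    intro x
    rw [hR]
    have a1 : 0 ≤ ∑ p ∈ S, D1 p x := Finset.sum_nonneg fun p _ => nD1 p x
    have a2 : 0 ≤ ∑ p ∈ S, D2 p x := Finset.sum_nonneg fun p _ => nD2 p x
    have a3 : 0 ≤ ∑ p ∈ S, Er p x := Finset.sum_nonneg fun p _ => h0 p x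
    have a4 := abs_nonneg (m0 - m)
    simp only
    linarith only [a1, a2, a3, a4]
  have hpt : ∀ x, |TT b S g (x + α) - m| ≤ |TT b S g x| + R x := by
    intro x
    have e1 : TT b S g (x + α) - m = TT b S g x +
        ∑ p ∈ S, (jc b p.1 p.2 (rs p.1 p.2 g) (x + α) - jc b p.1 p.2 (rs p.1 p.2 g) x -
          q2 b p.1 p.2 (rs p.1 p.2 g) (rs p.1 p.2 A) x) -
        ∑ p ∈ S, (q2 b p.1 p.2 (rs p.1 p.2 g) (rs p.1 p.2 A) 0 -
          q2 b p.1 p.2 (rs p.1 p.2 g) (rs p.1 p.2 A) x) + (m0 - m) := by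
      rw [hm0]
      unfold TT
      simp only [Finset.sum_sub_distrib]
      ring
    have e2 : |∑ p ∈ S, (jc b p.1 p.2 (rs p.1 p.2 g) (x + α) - jc b p.1 p.2 (rs p.1 p.2 g) x -
          q2 b p.1 p.2 (rs p.1 p.2 g) (rs p.1 p.2 A) x)| ≤ ∑ p ∈ S, Er p x :=
      (Finset.abs_sum_le_sum_abs _ _).trans (Finset.sum_le_sum fun p hp => (hE p hp).2 x)
    have e3 : |∑ p ∈ S, (q2 b p.1 p.2 (rs p.1 p.2 g) (rs p.1 p.2 A) 0 -
          q2 b p.1 p.2 (rs p.1 p.2 g) (rs p.1 p.2 A) x)| ≤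
        1 / 2 * ∑ p ∈ S, D1 p x + 1 / 2 * ∑ p ∈ S, D2 p x := by
      refine (Finset.abs_sum_le_sum_abs _ _).trans ?_
      rw [Finset.mul_sum, Finset.mul_sum, ← Finset.sum_add_distrib]
      refine Finset.sum_le_sum fun p hp => ?_
      have := q2_dfc hb.le p.1 p.2 (rs p.1 p.2 g) (rs p.1 p.2 A) x (r := 1) one_pos
      rw [inv_one, one_mul, one_mul] at this
      rw [hD1, hD2]
      linarith only [this]
    rw [e1]
    have a1 := abs_add_le (TT b S g x +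
        ∑ p ∈ S, (jc b p.1 p.2 (rs p.1 p.2 g) (x + α) - jc b p.1 p.2 (rs p.1 p.2 g) x -
          q2 b p.1 p.2 (rs p.1 p.2 g) (rs p.1 p.2 A) x) -
        ∑ p ∈ S, (q2 b p.1 p.2 (rs p.1 p.2 g) (rs p.1 p.2 A) 0 -
          q2 b p.1 p.2 (rs p.1 p.2 g) (rs p.1 p.2 A) x)) (m0 - m)
    have a2 := abs_sub (TT b S g x +
        ∑ p ∈ S, (jc b p.1 p.2 (rs p.1 p.2 g) (x + α) - jc b p.1 p.2 (rs p.1 p.2 g) x -
          q2 b p.1 p.2 (rs p.1 p.2 g) (rs p.1 p.2 A) x))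
        (∑ p ∈ S, (q2 b p.1 p.2 (rs p.1 p.2 g) (rs p.1 p.2 A) 0 -
          q2 b p.1 p.2 (rs p.1 p.2 g) (rs p.1 p.2 A) x))
    have a3 := abs_add_le (TT b S g x)
        (∑ p ∈ S, (jc b p.1 p.2 (rs p.1 p.2 g) (x + α) - jc b p.1 p.2 (rs p.1 p.2 g) x -
          q2 b p.1 p.2 (rs p.1 p.2 g) (rs p.1 p.2 A) x))
    rw [hR]
    simp only
    linarith only [a1, a2, a3, e2, e3]
  have cG1 : Continuous fun x => 4 / δ ^ 2 * TT b S g x ^ 2 := continuous_const.mul (cT.pow 2)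
  have cG2 : Continuous fun x => 2 / δ * R x := continuous_const.mul cR
  refine ⟨fun x => 4 / δ ^ 2 * TT b S g x ^ 2 + 2 / δ * R x, cG1.add cG2, ?_, ?_, ?_⟩
  · intro x
    have := nR x
    positivity
  · intro x hx
    have h1 := hx.trans_le (hpt x)
    have h2 : 0 ≤ R x := nR x
    have h4 : 2 / δ * R x = R x / (δ / 2) := by field_simp
    have h5 : 4 / δ ^ 2 * TT b S g x ^ 2 = (|TT b S g x| / (δ / 2)) ^ 2 := by
      rw [div_pow, sq_abs]; field_simp; ring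
    rcases le_total (δ / 2) (R x) with h3 | h3
    · have h6 : 1 ≤ R x / (δ / 2) := by rw [le_div_iff₀ (by positivity)]; linarith only [h3]
      have h7 : 0 ≤ 4 / δ ^ 2 * TT b S g x ^ 2 := by positivity
      simp only
      linarith only [h4, h6, h7]
    · have h8 : 1 ≤ |TT b S g x| / (δ / 2) := by
        rw [le_div_iff₀ (by positivity)]; linarith only [h3, h1]
      have h9 : 1 ≤ (|TT b S g x| / (δ / 2)) ^ 2 := one_le_pow₀ h8
      have h10 : 0 ≤ 2 / δ * R x := by positivity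
      simp only
      linarith only [h5, h9, h10]
  · have f1 : Ev b L 0 (fun x => TT b S g x ^ 2) ≤ vS b L S g := var_le hb.le hF g
    have f2 : Ev b L 0 (fun x => ∑ p ∈ S, D1 p x) ≤ vS b L S g := by
      rw [var_Ev_sum b L S D1 cD1, hD1]
      exact dfc_le hb.le hF g
    have f3 : Ev b L 0 (fun x => ∑ p ∈ S, D2 p x) =
        ∑ p ∈ S, Ev b L 0 (dfc b p.1 p.2 (rs p.1 p.2 A)) := by
      rw [var_Ev_sum b L S D2 cD2, hD2]
    have f4 : Ev b L 0 (fun x => ∑ p ∈ S, Er p x) ≤ C * ∑ p ∈ S, w p * u p ^ 2 := by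
      rw [var_Ev_sum b L S Er hc, Finset.mul_sum]
      exact Finset.sum_le_sum fun p hp => (hE p hp).1
    have f5 : Ev b L 0 R ≤ (vS b L S g +
          ∑ p ∈ S, Ev b L 0 (dfc b p.1 p.2 (rs p.1 p.2 A))) / 2 +
          C * ∑ p ∈ S, w p * u p ^ 2 + |m0 - m| := by
      rw [hR, var_Ev_add b L cR2 continuous_const, var_Ev_add b L cR1 cS3,
        var_Ev_add b L cH1 cH2, var_Ev_smul, var_Ev_smul, var_Ev_const, f3]
      linarith only [f2, f4]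
    rw [var_Ev_add b L cG1 cG2, var_Ev_smul, var_Ev_smul, ← hm0]
    have g1 := mul_le_mul_of_nonneg_left f1 (show 0 ≤ 4 / δ ^ 2 by positivity)
    have g2 := mul_le_mul_of_nonneg_left f5 (show 0 ≤ 2 / δ by positivity)
    linarith only [g1, g2]

end Vale.Agent.P159.UJ.H282
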