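import Vale.Agent.P159.H282.Sq
import Vale.Agent.P159.T1.NC.H664.CellU

/-!
# Uniform expansion of the mean current of a square

For a square of side `s` anywhere in the block, a displacement with real increments `≤ u / s`, and
any test field `≤ w / s` the mean current is affine in the displacement up to an error whose mean is
at most `C w u²`, with `C` depending only on an upper bound of `b`.
-/

set_option linter.all false

open MeasureTheory Filter Topology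
open scoped BigOperators

namespace Vale.Agent.P159.UJ.H282

open H664

/-! ### exponential moments of the current of one square -/

theorem SB_smul {b : ℝ} {s : ℕ} {c : ℤ × ℤ} (r : ℝ) (f : BI s → ℝ) (θ : Ginf) :
    SB b s c (fun e => r * f e) θ = r * SB b s c f θ := by
  unfold SB
  rw [Finset.mul_sum]
  exact Finset.sum_congr rfl fun e _ => by ring

theorem Ev_expSB_one {b : ℝ} (hb : 0 ≤ b) {L s : ℕ} {c : ℤ × ℤ} (hs : 1 ≤ s) (h : Sq L s c)
    (f : BI s → ℝ) (r : ℝ) :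
    Ev b L 0 (fun z => Real.exp (r * SB b s c f z)) ≤
      Real.exp (r ^ 2 / 2 * ∑ e : BI s, b / 2 * f e ^ 2) := by
  have hL : 1 ≤ L := by
    obtain ⟨h1, h2, h3, h4⟩ := h
    omega
  have hF : Fam L {(s, c)} := by
    refine ⟨fun p hp => ?_, fun p hp q hq hne => ?_⟩
    · rw [Finset.mem_singleton] at hp
      subst hp
      exact ⟨hs, h⟩
    · rw [Finset.mem_singleton] at hp hq
      exact absurd (hp.trans hq.symm) hne
  have h1 := Ev_expSB hb hL hF (extF s c (fun e => r * f e))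
  simp only [Finset.sum_singleton, rs_extF, SB_smul] at h1
  refine h1.trans (le_of_eq ?_)
  congr 1
  unfold nrm
  simp only [Finset.sum_singleton]
  rw [← sum_rs c (extF s c (fun e => r * f e)) (fun x => b / 2 * x ^ 2), rs_extF, Finset.mul_sum,
    Finset.mul_sum]
  exact Finset.sum_congr rfl fun e _ => by ring

/-- the function bounding the exponential of the currents of a square -/
noncomputable def Psq (b : ℝ) (s : ℕ) (c : ℤ × ℤ) (p q : ℝ) (a1 a2 : BI s → ℝ) (z : Ginf) : ℝ :=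
  Real.exp (p * SB b s c a1 z) + Real.exp (-p * SB b s c a1 z) +
    (Real.exp (q * SB b s c a2 z) + Real.exp (-q * SB b s c a2 z))

theorem expSQ_cont (b : ℝ) (s : ℕ) (c : ℤ × ℤ) (p : ℝ) (a1 : BI s → ℝ) :
    Continuous (fun z => Real.exp (p * SB b s c a1 z)) :=
  Real.continuous_exp.comp (continuous_const.mul (SB_cont b s c a1))

theorem Psq_cont (b : ℝ) (s : ℕ) (c : ℤ × ℤ) (p q : ℝ) (a1 a2 : BI s → ℝ) :
    Continuous (Psq b s c p q a1 a2) :=
  ((expSQ_cont b s c p a1).add (expSQ_cont b s c (-p) a1)).add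
    ((expSQ_cont b s c q a2).add (expSQ_cont b s c (-q) a2))

theorem Psq_nonneg (b : ℝ) (s : ℕ) (c : ℤ × ℤ) (p q : ℝ) (a1 a2 : BI s → ℝ) (z : Ginf) :
    0 ≤ Psq b s c p q a1 a2 z := by
  unfold Psq
  positivity

theorem Ev_Psq {b : ℝ} (hb : 0 ≤ b) {L s : ℕ} {c : ℤ × ℤ} (hs : 1 ≤ s) (h : Sq L s c)
    (p q : ℝ) (a1 a2 : BI s → ℝ) {M : ℝ} (h1 : p ^ 2 / 2 * ∑ e : BI s, b / 2 * a1 e ^ 2 ≤ M)
    (h2 : q ^ 2 / 2 * ∑ e : BI s, b / 2 * a2 e ^ 2 ≤ M) :
    Ev b L 0 (CS b s c (Psq b s c p q a1 a2)) ≤ 4 * Real.exp M := by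
  rw [tower_one h (Psq_cont b s c p q a1 a2)]
  have c1 := expSQ_cont b s c p a1
  have c2 := expSQ_cont b s c (-p) a1
  have c3 := expSQ_cont b s c q a2
  have c4 := expSQ_cont b s c (-q) a2
  have c12 : Continuous (fun z => Real.exp (p * SB b s c a1 z) +
    Real.exp (-p * SB b s c a1 z)) := c1.add c2
  have c34 : Continuous (fun z => Real.exp (q * SB b s c a2 z) +
    Real.exp (-q * SB b s c a2 z)) := c3.add c4
  unfold Psq
  rw [Ev_add c12 c34, Ev_add c1 c2, Ev_add c3 c4]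
  have e1 := Ev_expSB_one hb hs h a1 p
  have e2 := Ev_expSB_one hb hs h a1 (-p)
  have e3 := Ev_expSB_one hb hs h a2 q
  have e4 := Ev_expSB_one hb hs h a2 (-q)
  rw [neg_sq] at e2 e4
  have f1 := Real.exp_le_exp.2 h1
  have f2 := Real.exp_le_exp.2 h2
  linarith only [e1, e2, e3, e4, f1, f2]

/-- the conditional expectation of `Psq` in terms of real increments -/
theorem CE_Psq {b : ℝ} {s : ℕ} {c : ℤ × ℤ} {x : Ginf} {t : BI s → ℝ}
    (ht : ∀ e, ((t e : ℝ) : T) = x (c + bu e) - x (c + bv e))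
    {ρ lam : ℝ} (hρ : 0 < ρ) (hlam : 0 < lam) (a1 a2 : BI s → ℝ) :
    ex muInf (fun _ => b / 2) (chi0 s) t (fun x =>
      Real.exp (|Jt (fun _ => b / 2) (chi0 s) t a1 x| / ρ +
        |Jt (fun _ => b / 2) (chi0 s) t a2 x| / lam) ^ 16) ≤
      CS b s c (Psq b s c (32 / ρ) (32 / lam) a1 a2) x := by
  have c1 := cont_Jt (fun _ => b / 2) (chi0 s) t a1
  have c2 := cont_Jt (fun _ => b / 2) (chi0 s) t a2
  have hE : ∀ r : ℝ, Continuous (fun x => Real.exp (r * Jt (fun _ => b / 2) (chi0 s) t a1 x)) :=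
    fun r => Real.continuous_exp.comp (continuous_const.mul c1)
  have hE2 : ∀ r : ℝ, Continuous (fun x => Real.exp (r * Jt (fun _ => b / 2) (chi0 s) t a2 x)) :=
    fun r => Real.continuous_exp.comp (continuous_const.mul c2)
  have hΦ : Continuous (fun x => Real.exp (32 / ρ * Jt (fun _ => b / 2) (chi0 s) t a1 x) +
      Real.exp (-(32 / ρ) * Jt (fun _ => b / 2) (chi0 s) t a1 x) +
      (Real.exp (32 / lam * Jt (fun _ => b / 2) (chi0 s) t a2 x) +
      Real.exp (-(32 / lam) * Jt (fun _ => b / 2) (chi0 s) t a2 x))) :=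
    ((hE _).add (hE _)).add ((hE2 _).add (hE2 _))
  have h := CE_eq (b := b) (s := s) (c := c) (θ := x) (t := t) ht
    (F := Psq b s c (32 / ρ) (32 / lam) a1 a2) hΦ (fun y => by
      unfold Psq
      rw [SB_eq ht, SB_eq ht])
  unfold CS
  rw [h]
  refine ex_mono muInf _ _ ?_ hΦ fun x => exp16_le hρ hlam
  exact (Real.continuous_exp.comp (((continuous_abs.comp c1).div_const _).add
      ((continuous_abs.comp c2).div_const _))).pow 16

/-! ### the polarised stiffness form -/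

/-- polarised stiffness form of the square with boundary values `x` -/
noncomputable def q2 (b : ℝ) (s : ℕ) (c : ℤ × ℤ) (h a : BI s → ℝ) (x : Ginf) : ℝ :=
  (qc b s c (h + a) x - qc b s c (h + (-1 : ℝ) • a) x) / 4

section QQ

variable {G : Type*} [AddCommGroup G] [TopologicalSpace G] [IsTopologicalAddGroup G]
  [CompactSpace G] [SecondCountableTopology G] [MeasurableSpace G] [BorelSpace G]
  (μ : Measure G) [μ.IsAddHaarMeasure] [IsProbabilityMeasure μ]
  {κ : Type*} [Fintype κ] (J : κ → ℝ) (χ : κ → Chr G)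

theorem QQ_bil (t h k : κ → ℝ) : QQ μ J χ t (h + k) (h + k) =
    QQ μ J χ t h h + 2 * QQ μ J χ t h k + QQ μ J χ t k k := by
  rw [QQ_add, QQ_symm μ J χ t (h + k) h, QQ_symm μ J χ t (h + k) k, QQ_add, QQ_add,
    QQ_symm μ J χ t k h]
  ring

theorem QQ_bil2 (t h k : κ → ℝ) : QQ μ J χ t (h + (-1 : ℝ) • k) (h + (-1 : ℝ) • k) =
    QQ μ J χ t h h - 2 * QQ μ J χ t h k + QQ μ J χ t k k := by
  rw [QQ_bil, QQ_smul2, QQ_smul]
  ring

end QQ

theorem q2_eq {b : ℝ} {s : ℕ} {c : ℤ × ℤ} {x : Ginf} {t h a : BI s → ℝ}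
    (ht : ∀ e, ((t e : ℝ) : T) = x (c + bu e) - x (c + bv e)) :
    q2 b s c h a x = QQ muInf (fun _ => b / 2) (chi0 s) t h a := by
  unfold q2
  rw [qc_eq ht, qc_eq ht, QQ_bil, QQ_bil2]
  ring

theorem q2_cont (b : ℝ) (s : ℕ) (c : ℤ × ℤ) (h a : BI s → ℝ) : Continuous (q2 b s c h a) := by
  unfold q2
  exact ((qc_cont b s c _).sub (qc_cont b s c _)).div_const _

theorem zero_incr (s : ℕ) (c : ℤ × ℤ) : ∀ e : BI s, (((0 : BI s → ℝ) e : ℝ) : T) =
    (0 : Ginf) (c + bu e) - (0 : Ginf) (c + bv e) := by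
  intro e
  simp

theorem q2_self (b : ℝ) (s : ℕ) (c : ℤ × ℤ) (h : BI s → ℝ) (x : Ginf) :
    q2 b s c h h x = qc b s c h x := by
  obtain ⟨t, ht⟩ := exists_incr s c x
  rw [q2_eq ht, qc_eq ht]

theorem q2_symm (b : ℝ) (s : ℕ) (c : ℤ × ℤ) (h a : BI s → ℝ) (x : Ginf) :
    q2 b s c h a x = q2 b s c a h x := by
  obtain ⟨t, ht⟩ := exists_incr s c x
  rw [q2_eq ht, q2_eq ht, QQ_symm]

theorem q2_add (b : ℝ) (s : ℕ) (c : ℤ × ℤ) (h a a' : BI s → ℝ) (x : Ginf) :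
    q2 b s c h (a + a') x = q2 b s c h a x + q2 b s c h a' x := by
  obtain ⟨t, ht⟩ := exists_incr s c x
  rw [q2_eq ht, q2_eq ht, q2_eq ht, QQ_add]

theorem q2_smul (b : ℝ) (s : ℕ) (c : ℤ × ℤ) (h a : BI s → ℝ) (r : ℝ) (x : Ginf) :
    q2 b s c h (r • a) x = r * q2 b s c h a x := by
  obtain ⟨t, ht⟩ := exists_incr s c x
  rw [q2_eq ht, q2_eq ht, QQ_smul]

theorem qc_inv (b : ℝ) (s : ℕ) (c : ℤ × ℤ) (h : BI s → ℝ) (x y : Ginf) :
    qc b s c h (x + PB s c y) = qc b s c h x :=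
  qc_congr fun z _ hz => var_PB_notMem hz x y

/-- the deficit of the stiffness form -/
noncomputable def dfc (b : ℝ) (s : ℕ) (c : ℤ × ℤ) (h : BI s → ℝ) (x : Ginf) : ℝ :=
  qc b s c h 0 - qc b s c h x

theorem dfc_nonneg {b : ℝ} (hb : 0 ≤ b) (s : ℕ) (c : ℤ × ℤ) (h : BI s → ℝ) (x : Ginf) :
    0 ≤ dfc b s c h x := by
  obtain ⟨t, ht⟩ := exists_incr s c x
  unfold dfc
  rw [qc_eq ht, qc_eq (zero_incr s c)]
  have := QQ_le muInf (fun _ => b / 2) (chi0 s) pi_div2 (fun _ => by positivity) t h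
  linarith only [this]

theorem dfc_cont (b : ℝ) (s : ℕ) (c : ℤ × ℤ) (h : BI s → ℝ) : Continuous (dfc b s c h) :=
  continuous_const.sub (qc_cont b s c h)

/-- the polarised deficit is bounded by the deficits, with any weight -/
theorem q2_dfc {b : ℝ} (hb : 0 ≤ b) (s : ℕ) (c : ℤ × ℤ) (h a : BI s → ℝ) (x : Ginf) {r : ℝ}
    (hr : 0 < r) : |q2 b s c h a 0 - q2 b s c h a x| ≤
      (r * dfc b s c h x + r⁻¹ * dfc b s c a x) / 2 := by
  obtain ⟨t, ht⟩ := exists_incr s c x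
  have hJ : ∀ _ : BI s, 0 ≤ b / 2 := fun _ => by positivity
  have key : ∀ w : BI s → ℝ, QQ muInf (fun _ => b / 2) (chi0 s) t w w ≤
      QQ muInf (fun _ => b / 2) (chi0 s) 0 w w := fun w =>
    QQ_le muInf (fun _ => b / 2) (chi0 s) pi_div2 hJ t w
  have h1 := key (r • h + a)
  have h2 := key (r • h + (-1 : ℝ) • a)
  rw [QQ_bil, QQ_bil, QQ_smul2] at h1
  rw [QQ_bil2, QQ_bil2, QQ_smul2] at h2
  have e2 : ∀ t' : BI s → ℝ, QQ muInf (fun _ => b / 2) (chi0 s) t' (r • h) a =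
      r * QQ muInf (fun _ => b / 2) (chi0 s) t' h a := by
    intro t'
    rw [QQ_symm, QQ_smul, QQ_symm]
  rw [QQ_smul2, e2, e2] at h1 h2
  rw [q2_eq ht, q2_eq (zero_incr s c)]
  unfold dfc
  rw [qc_eq ht, qc_eq (zero_incr s c), qc_eq ht, qc_eq (zero_incr s c)]
  obtain ⟨A, hA⟩ : ∃ A, A = QQ muInf (fun _ => b / 2) (chi0 s) 0 h a -
    QQ muInf (fun _ => b / 2) (chi0 s) t h a := ⟨_, rfl⟩
  obtain ⟨D1, hD1⟩ : ∃ A, A = QQ muInf (fun _ => b / 2) (chi0 s) 0 h h -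
    QQ muInf (fun _ => b / 2) (chi0 s) t h h := ⟨_, rfl⟩
  obtain ⟨D2, hD2⟩ : ∃ A, A = QQ muInf (fun _ => b / 2) (chi0 s) 0 a a -
    QQ muInf (fun _ => b / 2) (chi0 s) t a a := ⟨_, rfl⟩
  rw [← hA, ← hD1, ← hD2]
  have g1 : 0 ≤ r ^ 2 * D1 + 2 * (r * A) + D2 := by
    rw [hA, hD1, hD2]; linarith only [h1]
  have g2 : 0 ≤ r ^ 2 * D1 - 2 * (r * A) + D2 := by
    rw [hA, hD1, hD2]; linarith only [h2]
  have e3 : (r * D1 + r⁻¹ * D2) / 2 = (r ^ 2 * D1 + D2) / (2 * r) := by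
    field_simp
  rw [e3, abs_le]
  constructor
  · rw [neg_le_iff_add_nonneg', div_add' _ _ _ (by positivity)]
    exact div_nonneg (by linarith only [g1]) (by positivity)
  · rw [le_div_iff₀ (by positivity)]
    linarith only [g2]

/-! ### linearity of the mean current in the test -/

theorem jc_smul (b : ℝ) (s : ℕ) (c : ℤ × ℤ) (r : ℝ) (f : BI s → ℝ) (x : Ginf) :
    jc b s c (r • f) x = r * jc b s c f x := by
  unfold jc CE av
  have h1 : ∀ z : Ginf, SB b s c (r • f) z = r * SB b s c f z := fun z => SB_smul r f z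
  simp_rw [h1]
  rw [mul_div_assoc', ← integral_const_mul]
  congr 1
  exact integral_congr_ae (Eventually.of_forall fun y => by ring)

theorem q2_smul_left (b : ℝ) (s : ℕ) (c : ℤ × ℤ) (h a : BI s → ℝ) (r : ℝ) (x : Ginf) :
    q2 b s c (r • h) a x = r * q2 b s c h a x := by
  rw [q2_symm, q2_smul, q2_symm]

/-- **uniform expansion of the mean current of a square**: the error is a function of the boundary
values with mean `≤ C w u²` -/
theorem uce (B : ℝ) (hB : 0 < B) : ∃ C : ℝ, 0 ≤ C ∧ ∀ b : ℝ, 0 < b → b ≤ B →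
    ∀ (L s : ℕ) (c : ℤ × ℤ), 1 ≤ s → Sq L s c →
    ∀ (α : Ginf) (a h : BI s → ℝ) (u w : ℝ), 0 < u → u ≤ 1 → 0 < w →
      (∀ e, ((a e : ℝ) : T) = α (c + bu e) - α (c + bv e)) →
      (∀ e, |a e| ≤ u / s) → (∀ e, |h e| ≤ w / s) →
      ∃ Er : Ginf → ℝ, Continuous Er ∧ (∀ x, 0 ≤ Er x) ∧
        (∀ x y, Er (x + PB s c y) = Er x) ∧ Ev b L 0 Er ≤ C * (w * u ^ 2) ∧
        ∀ x, |jc b s c h (x + α) - jc b s c h x - q2 b s c h a x| ≤ Er x := by
  obtain ⟨k, hk⟩ : ∃ c : ℝ, c = 6 * B := ⟨_, rfl⟩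
  have hk0 : 0 ≤ k := by rw [hk]; positivity
  obtain ⟨K1, hK1⟩ : ∃ K1 : ℝ, K1 = 9 * ((1 + k) ^ 2 * Real.exp k) ^ 3 := ⟨_, rfl⟩
  have hK10 : 0 ≤ K1 := by rw [hK1]; positivity
  obtain ⟨E, hE⟩ : ∃ E : ℝ, E = 4 * Real.exp (1024 * B) := ⟨_, rfl⟩
  have hE0 : 0 ≤ E := by rw [hE]; positivity
  refine ⟨K1 * E, by positivity, ?_⟩
  intro b hb hbB L s c hs hSq α a h u w hu hu1 hw haα ha hh
  have hJ : ∀ _ : BI s, 0 ≤ b / 2 := fun _ => by positivity
  have hsR : (1 : ℝ) ≤ s := by exact_mod_cast hs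
  have hs0 : (0 : ℝ) < s := by linarith only [hsR]
  -- the rescaled test
  obtain ⟨f, hf⟩ : ∃ f : BI s → ℝ, f = ((s : ℝ) / w) • h := ⟨_, rfl⟩
  have hf1 : ∀ e, |f e| ≤ 1 := by
    intro e
    rw [hf, Pi.smul_apply, smul_eq_mul, abs_mul, abs_of_pos (show 0 < (s : ℝ) / w by positivity)]
    have h1 := mul_le_mul_of_nonneg_left (hh e) (show 0 ≤ (s : ℝ) / w by positivity)
    have h2 : (s : ℝ) / w * (w / s) = 1 := by field_simp
    linarith only [h1, h2]
  have hhf : h = (w / (s : ℝ)) • f := by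
    rw [hf, smul_smul]
    have h2 : w / (s : ℝ) * ((s : ℝ) / w) = 1 := by field_simp
    rw [h2, one_smul]
  obtain ⟨Y, hY⟩ : ∃ Y : ℝ, Y = u / s := ⟨_, rfl⟩
  rw [← hY] at ha
  have hY0 : 0 < Y := by rw [hY]; positivity
  have hY1 : Y ≤ 1 := by
    rw [hY, div_le_one hs0]; linarith only [hu1, hsR]
  have hsY : (s : ℝ) * Y = u := by rw [hY]; field_simp
  obtain ⟨Er, hEr⟩ : ∃ Er : Ginf → ℝ, Er = fun x =>
      K1 * (w * u ^ 2) * CS b s c (Psq b s c (32 / u) (32 / s) a f) x := ⟨_, rfl⟩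
  have cP := Psq_cont b s c (32 / u) (32 / s) a f
  have cC := CS_cont b s c cP
  have pC : ∀ x, 0 ≤ CS b s c (Psq b s c (32 / u) (32 / s) a f) x :=
    CS_nonneg (Psq_nonneg b s c (32 / u) (32 / s) a f)
  refine ⟨Er, ?_, fun x => ?_, fun x y => ?_, ?_, fun x => ?_⟩
  · rw [hEr]; exact continuous_const.mul cC
  · rw [hEr]; exact mul_nonneg (by positivity) (pC x)
  · rw [hEr]; simp only; rw [CS_inv]
  · -- the mean of the error
    have hBb : 1024 * b ≤ 1024 * B := by linarith only [hbB]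
    have m1 : (32 / u) ^ 2 / 2 * ∑ e : BI s, b / 2 * a e ^ 2 ≤ 1024 * B := by
      have h3 := H664.sum_sq_le hb.le ha
      have h4 : (32 / u) ^ 2 / 2 * (2 * b * (s : ℝ) ^ 2 * Y ^ 2) = 1024 * b := by
        rw [hY]; field_simp; norm_num
      have h5 := mul_le_mul_of_nonneg_left h3 (show 0 ≤ (32 / u) ^ 2 / 2 by positivity)
      linarith only [h4, h5, hBb]
    have m2 : (32 / (s : ℝ)) ^ 2 / 2 * ∑ e : BI s, b / 2 * f e ^ 2 ≤ 1024 * B := by
      have h3 := H664.sum_sq_le hb.le hf1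
      have h4 : (32 / (s : ℝ)) ^ 2 / 2 * (2 * b * (s : ℝ) ^ 2 * 1 ^ 2) = 1024 * b := by
        field_simp; norm_num
      have h5 := mul_le_mul_of_nonneg_left h3 (show 0 ≤ (32 / (s : ℝ)) ^ 2 / 2 by positivity)
      linarith only [h4, h5, hBb]
    have e1 := Ev_Psq hb.le hs hSq (32 / u) (32 / (s : ℝ)) a f m1 m2
    rw [← hE] at e1
    rw [hEr, Ev_const_mul]
    calc K1 * (w * u ^ 2) * Ev b L 0 (CS b s c (Psq b s c (32 / u) (32 / s) a f))
        ≤ K1 * (w * u ^ 2) * E := mul_le_mul_of_nonneg_left e1 (by positivity)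
      _ = K1 * E * (w * u ^ 2) := by ring
  · -- the expansion
    obtain ⟨t, ht⟩ := exists_incr s c x
    have hta : ∀ e, (((t + a) e : ℝ) : T) = (x + α) (c + bu e) - (x + α) (c + bv e) := by
      intro e
      rw [Pi.add_apply, AddCircle.coe_add, ht, haα, Pi.add_apply, Pi.add_apply]
      abel
    rw [hhf, jc_smul, jc_smul, q2_smul_left, jc_eq hta, jc_eq ht, q2_eq ht]
    have hS := sum_J b s
    have hSY2 : 3 * (∑ _e : BI s, b / 2) * Y ^ 2 ≤ k * u ^ 2 := by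
      rw [hS, hk, ← hsY]
      have : 3 * (2 * b * (s : ℝ) ^ 2) * Y ^ 2 = 6 * b * ((s : ℝ) * Y) ^ 2 := by ring
      rw [this]
      exact mul_le_mul_of_nonneg_right (by linarith only [hbB]) (by positivity)
    have hSY : (∑ _e : BI s, b / 2) * Y ≤ k * (s * u) := by
      rw [hS, hk, ← hsY]
      have : 2 * b * (s : ℝ) ^ 2 * Y = 2 * b * ((s : ℝ) * (s * Y)) := by ring
      rw [this]
      exact mul_le_mul_of_nonneg_right (by linarith only [hbB, hB]) (by positivity)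
    have v1 := CE_Psq (b := b) ht hu hs0 a f
    have w1 := (jm_uni muInf (fun _ => b / 2) (chi0 s) hJ (t := t) (a := a) (h := f) (Y := Y)
      (ρ := u) (lam := s) (c := k) hY1 ha hf1 hu hu1 hsR hk0 hSY2 hSY).trans
      (mul_le_mul_of_nonneg_left v1 (by positivity))
    rw [← hK1] at w1
    have e1 : w / (s : ℝ) * jm muInf (fun _ => b / 2) (chi0 s) (t + a) f -
        w / (s : ℝ) * jm muInf (fun _ => b / 2) (chi0 s) t f -
        w / (s : ℝ) * QQ muInf (fun _ => b / 2) (chi0 s) t f a =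
        w / (s : ℝ) * (jm muInf (fun _ => b / 2) (chi0 s) (t + a) f -
        jm muInf (fun _ => b / 2) (chi0 s) t f - QQ muInf (fun _ => b / 2) (chi0 s) t f a) := by
      ring
    rw [e1, abs_mul, abs_of_pos (show 0 < w / (s : ℝ) by positivity), hEr]
    calc w / (s : ℝ) * |jm muInf (fun _ => b / 2) (chi0 s) (t + a) f -
          jm muInf (fun _ => b / 2) (chi0 s) t f - QQ muInf (fun _ => b / 2) (chi0 s) t f a|
        ≤ w / (s : ℝ) * (K1 * (s * u ^ 2) * CS b s c (Psq b s c (32 / u) (32 / s) a f) x) :=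
          mul_le_mul_of_nonneg_left w1 (by positivity)
      _ = K1 * (w * u ^ 2) * CS b s c (Psq b s c (32 / u) (32 / s) a f) x := by
          field_simp

end Vale.Agent.P159.UJ.H282
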