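import Vale.Agent.P159.H282.ExFin
import Vale.Agent.P159.H282.Crit

/-!
# The rate of the stiffness at the critical point, from the sum of the excesses
-/

set_option linter.all false

open Filter Topology
open scoped BigOperators

namespace Vale.Agent.P159.UJ.H282.Ex

/-- the sum of the excesses of the stiffness over the dyadic scales grows slower than every power -/
def SumHyp : Prop := ∀ e : ℝ, 0 < e → ∀ᶠ N : ℕ in atTop,
  ∑ j ∈ Finset.range N, (stiff (2 ^ j) bCrit - 2 / Real.pi) ≤ (N : ℝ) ^ e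

/-- the dyadic scales -/
theorem xdy (hL : SumHyp) {e : ℝ} (he : 0 < e) : ∀ᶠ n : ℕ in atTop,
    stiff (2 ^ n) bCrit - 2 / Real.pi ≤ (n : ℝ) ^ (e - 1) := by
  have hbc0 : 0 < bCrit := Vale.Agent.P159.H170.bCrit_pos
  filter_upwards [hL e he, eventually_ge_atTop 1] with n hT hn
  have hn0 : (0 : ℝ) < n := by exact_mod_cast hn
  have h1 : (n : ℝ) * (stiff (2 ^ n) bCrit - 2 / Real.pi) ≤ (n : ℝ) ^ e := by
    refine le_trans ?_ hT
    rw [← nsmul_eq_mul, ← Finset.card_range n, ← Finset.sum_const, Finset.card_range]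
    refine Finset.sum_le_sum fun j hj => ?_
    have := stiff_anti2 hbc0.le (Finset.mem_range.1 hj).le
    linarith only [this]
  rw [Real.rpow_sub hn0, Real.rpow_one, le_div_iff₀ hn0]
  linarith only [h1, mul_comm (n : ℝ) (stiff (2 ^ n) bCrit - 2 / Real.pi)]

/-- numbers for the upper bound -/
theorem ev_up {e B : ℝ} (he : 0 < e) (he1 : e ≤ 1 / 4) : ∀ᶠ n : ℕ in atTop,
    (n : ℝ) ^ (e - 1) + B * (2 : ℝ)⁻¹ ^ n ≤ 1 / 4 * (n : ℝ) ^ (2 * e - 1) := by
  have h1 : Tendsto (fun n : ℕ => (n : ℝ) ^ e) atTop atTop :=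
    (tendsto_rpow_atTop he).comp tendsto_natCast_atTop_atTop
  have h2 : Tendsto (fun n : ℕ => (n : ℝ) * (2 : ℝ)⁻¹ ^ n) atTop (𝓝 0) := by
    have := tendsto_self_mul_const_pow_of_lt_one (r := (2 : ℝ)⁻¹) (by norm_num) (by norm_num)
    exact this
  have h3 : ∀ᶠ n : ℕ in atTop, |B| * ((n : ℝ) * (2 : ℝ)⁻¹ ^ n) ≤ 1 / 8 := by
    have h4 : Tendsto (fun n : ℕ => |B| * ((n : ℝ) * (2 : ℝ)⁻¹ ^ n)) atTop (𝓝 (|B| * 0)) :=
      h2.const_mul _
    rw [mul_zero] at h4
    exact h4.eventually_le_const (by norm_num)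
  filter_upwards [h1.eventually_ge_atTop 8, h3, eventually_ge_atTop 1] with n a1 a3 hn
  have hn1 : (1 : ℝ) ≤ n := by exact_mod_cast hn
  have hn0 : (0 : ℝ) < n := by linarith only [hn1]
  have b1 : (n : ℝ) ^ (e - 1) ≤ 1 / 8 * (n : ℝ) ^ (2 * e - 1) := by
    have e1 : (n : ℝ) ^ (2 * e - 1) = (n : ℝ) ^ e * (n : ℝ) ^ (e - 1) := by
      rw [← Real.rpow_add hn0]
      congr 1
      ring
    rw [e1]
    have h5 : 0 < (n : ℝ) ^ (e - 1) := Real.rpow_pos_of_pos hn0 _
    nlinarith only [h5, a1]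
  have b2 : B * (2 : ℝ)⁻¹ ^ n ≤ 1 / 8 * (n : ℝ) ^ (2 * e - 1) := by
    have h5 : B * (2 : ℝ)⁻¹ ^ n ≤ |B| * (2 : ℝ)⁻¹ ^ n :=
      mul_le_mul_of_nonneg_right (le_abs_self B) (by positivity)
    have h6 : |B| * (2 : ℝ)⁻¹ ^ n ≤ 1 / 8 * (n : ℝ) ^ (-(1 : ℝ)) := by
      rw [Real.rpow_neg_one, ← div_eq_mul_inv, le_div_iff₀ hn0]
      linarith only [a3]
    have h7 : (n : ℝ) ^ (-(1 : ℝ)) ≤ (n : ℝ) ^ (2 * e - 1) :=
      Real.rpow_le_rpow_of_exponent_le hn1 (by linarith only [he])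
    linarith only [h5, h6, h7]
  linarith only [b1, b2]

/-- **the rate of the stiffness at the critical point, all scales** -/
theorem rate_up (hL : SumHyp) {ε : ℝ} (hε : 0 < ε) : ∀ᶠ L : ℕ in atTop,
    stiff L bCrit - 2 / Real.pi ≤ Real.log L ^ (-1 + ε) := by
  have hbc0 : 0 < bCrit := Vale.Agent.P159.H170.bCrit_pos
  obtain ⟨e, he⟩ : ∃ e, e = min (ε / 2) (1 / 4) := ⟨_, rfl⟩
  have he0 : 0 < e := by rw [he]; exact lt_min (by linarith only [hε]) (by norm_num)
  have he1 : e ≤ 1 / 4 := by rw [he]; exact min_le_right _ _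
  have he2 : 2 * e ≤ ε := by
    have := min_le_left (ε / 2) (1 / 4)
    rw [← he] at this
    linarith only [this]
  obtain ⟨n1, hn1⟩ := eventually_atTop.1 (xdy hL he0)
  obtain ⟨n2, hn2⟩ := eventually_atTop.1 (ev_up (B := 2 * bCrit) he0 he1)
  have hlog : Tendsto (fun L : ℕ => Real.log L) atTop atTop :=
    Real.tendsto_log_atTop.comp tendsto_natCast_atTop_atTop
  filter_upwards [hlog.eventually_ge_atTop 1,
    eventually_ge_atTop (2 ^ (2 * (n1 + n2 + 1)))] with L h1 hL2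
  have hL0 : L ≠ 0 := by
    have : 0 < 2 ^ (2 * (n1 + n2 + 1)) := by positivity
    omega
  obtain ⟨n, hn⟩ : ∃ n, n = Nat.log 2 L / 2 := ⟨_, rfl⟩
  have hlg : 2 * (n1 + n2 + 1) ≤ Nat.log 2 L := Nat.le_log_of_pow_le one_lt_two hL2
  have hnn : n1 + n2 + 1 ≤ n := by omega
  have hpow : 2 ^ (2 * n) ≤ L := by
    refine le_trans (Nat.pow_le_pow_right (by norm_num) ?_) (Nat.pow_log_le_self 2 hL0)
    omega
  have hpow2 : L < 2 ^ (2 * n + 2) := by
    refine lt_of_lt_of_le (Nat.lt_pow_succ_log_self one_lt_two L)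
      (Nat.pow_le_pow_right (by norm_num) ?_)
    simp only [Nat.succ_eq_add_one]
    omega
  have hn0 : (1 : ℝ) ≤ n := by
    have : 1 ≤ n := by omega
    exact_mod_cast this
  have hLp : (0 : ℝ) < L := by
    have : 0 < L := Nat.pos_of_ne_zero hL0
    exact_mod_cast this
  have hpR : (2 : ℝ) ^ n * 2 ^ n ≤ L := by
    have : ((2 ^ (2 * n) : ℕ) : ℝ) ≤ L := by exact_mod_cast hpow
    push_cast at this
    rw [two_mul, pow_add] at this
    exact this
  have hnL : 2 ^ n ≤ L := by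
    refine le_trans (Nat.pow_le_pow_right (by norm_num) ?_) hpow
    omega
  have hlogL : Real.log L ≤ 4 * n := by
    have a1 : Real.log L ≤ Real.log ((2 : ℝ) ^ (2 * n + 2)) := by
      apply Real.log_le_log hLp
      have : (L : ℝ) ≤ ((2 ^ (2 * n + 2) : ℕ) : ℝ) := by exact_mod_cast hpow2.le
      push_cast at this
      exact this
    rw [Real.log_pow] at a1
    push_cast at a1
    have a2 : Real.log 2 ≤ 1 := by
      have := Real.log_two_lt_d9
      linarith only [this]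
    have a3 : (2 * (n : ℝ) + 2) * Real.log 2 ≤ (2 * (n : ℝ) + 2) * 1 :=
      mul_le_mul_of_nonneg_left a2 (by linarith only [hn0])
    linarith only [a1, a3, hn0]
  have hr := Vale.Agent.P159.H177.stiff_le_rate hbc0.le (l := 2 ^ n) (n := L)
    Nat.one_le_two_pow hnL
  have hr2 : 2 * bCrit * ((2 ^ n : ℕ) : ℝ) / L ≤ 2 * bCrit * (2 : ℝ)⁻¹ ^ n := by
    push_cast
    rw [div_le_iff₀ hLp]
    have b1 : (2 : ℝ) ^ n = (2 : ℝ)⁻¹ ^ n * ((2 : ℝ) ^ n * 2 ^ n) := by
      rw [← mul_assoc, ← mul_pow]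
      norm_num
    have b2 : (2 : ℝ)⁻¹ ^ n * ((2 : ℝ) ^ n * 2 ^ n) ≤ (2 : ℝ)⁻¹ ^ n * L :=
      mul_le_mul_of_nonneg_left hpR (by positivity)
    have b3 : 2 * bCrit * (2 : ℝ) ^ n ≤ 2 * bCrit * ((2 : ℝ)⁻¹ ^ n * L) := by
      apply mul_le_mul_of_nonneg_left _ (by positivity)
      rw [b1]
      exact b2
    linarith only [b3]
  have hx := hn1 n (by omega)
  have hu := hn2 n (by omega)
  have hfin : 1 / 4 * (n : ℝ) ^ (2 * e - 1) ≤ Real.log L ^ (-1 + ε) := by
    have c1 : (4 * (n : ℝ)) ^ (2 * e - 1) ≤ Real.log L ^ (2 * e - 1) :=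
      Real.rpow_le_rpow_of_nonpos (by linarith only [h1]) hlogL (by linarith only [he1])
    have c2 : 1 / 4 * (n : ℝ) ^ (2 * e - 1) ≤ (4 * (n : ℝ)) ^ (2 * e - 1) := by
      rw [Real.mul_rpow (by norm_num) (by linarith only [hn0])]
      apply mul_le_mul_of_nonneg_right _ (Real.rpow_nonneg (by linarith only [hn0]) _)
      have : (4 : ℝ) ^ (-(1 : ℝ)) ≤ 4 ^ (2 * e - 1) :=
        Real.rpow_le_rpow_of_exponent_le (by norm_num) (by linarith only [he0])
      rw [Real.rpow_neg_one] at this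
      linarith only [this]
    have c3 : Real.log L ^ (2 * e - 1) ≤ Real.log L ^ (-1 + ε) :=
      Real.rpow_le_rpow_of_exponent_le h1 (by linarith only [he2])
    linarith only [c1, c2, c3]
  linarith only [hr, hr2, hx, hu, hfin]

/-- numbers for the lower bound -/
theorem ev_low {e ε c C B : ℝ} (he : 0 < e) (heε : e < ε) (he1 : e < 1) (hc : 0 < c) (hB : 0 ≤ B) :
    ∀ᶠ w : ℝ in atTop, Real.exp (-w ^ ε) + B * Real.exp (-w) ≤ c * Real.exp (-(C * w ^ e)) := by
  have k1 : ∀ (s D : ℝ), e < s → ∀ᶠ w : ℝ in atTop, |C| * w ^ e + D ≤ w ^ s := by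
    intro s D hs
    have h1 : ∀ᶠ w : ℝ in atTop, 2 * |C| ≤ w ^ (s - e) :=
      (rpow_tendsto (by linarith only [hs])).eventually_ge_atTop _
    have h2 : ∀ᶠ w : ℝ in atTop, 2 * D ≤ w ^ s :=
      (rpow_tendsto (by linarith only [hs, he])).eventually_ge_atTop _
    filter_upwards [h1, h2, eventually_gt_atTop (0 : ℝ)] with w a1 a2 a3
    have e1 : w ^ s = w ^ (s - e) * w ^ e := by
      rw [← Real.rpow_add a3]
      congr 1
      ring
    have a4 : 0 < w ^ e := Real.rpow_pos_of_pos a3 _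
    have a5 := mul_le_mul_of_nonneg_right a1 a4.le
    rw [← e1] at a5
    linarith only [a5, a2]
  filter_upwards [k1 ε (Real.log (2 / c)) heε, k1 1 (Real.log (2 * (B + 1) / c)) he1,
    eventually_gt_atTop (0 : ℝ)] with w a1 a2 a3
  have hCw : C * w ^ e ≤ |C| * w ^ e :=
    mul_le_mul_of_nonneg_right (le_abs_self C) (Real.rpow_nonneg a3.le _)
  rw [Real.rpow_one] at a2
  have b1 : Real.exp (-w ^ ε) ≤ c / 2 * Real.exp (-(C * w ^ e)) := by
    have h1 : c / 2 = Real.exp (-Real.log (2 / c)) := by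
      rw [Real.exp_neg, Real.exp_log (by positivity), inv_div]
    rw [h1, ← Real.exp_add, Real.exp_le_exp]
    linarith only [a1, hCw]
  have b2 : B * Real.exp (-w) ≤ c / 2 * Real.exp (-(C * w ^ e)) := by
    have h1 : c / (2 * (B + 1)) = Real.exp (-Real.log (2 * (B + 1) / c)) := by
      rw [Real.exp_neg, Real.exp_log (by positivity), inv_div]
    have h2 : Real.exp (-w) ≤ c / (2 * (B + 1)) * Real.exp (-(C * w ^ e)) := by
      rw [h1, ← Real.exp_add, Real.exp_le_exp]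
      linarith only [a2, hCw]
    have h3 : B * Real.exp (-w) ≤ (B + 1) * (c / (2 * (B + 1)) * Real.exp (-(C * w ^ e))) := by
      have h4 : B * Real.exp (-w) ≤ (B + 1) * Real.exp (-w) :=
        mul_le_mul_of_nonneg_right (by linarith only) (Real.exp_pos _).le
      exact h4.trans (mul_le_mul_of_nonneg_left h2 (by linarith only [hB]))
    refine h3.trans (le_of_eq ?_)
    field_simp
  linarith only [b1, b2]

/-- **lower bound of the excess at all scales** -/
theorem rate_low (hL : SumHyp) {ε : ℝ} (hε : 0 < ε) : ∀ᶠ L : ℕ in atTop,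
    Real.exp (-Real.log L ^ ε) ≤ stiff L bCrit - 2 / Real.pi := by
  have hbc0 : 0 < bCrit := Vale.Agent.P159.H170.bCrit_pos
  obtain ⟨⟨c, C, hc, hC, hlow⟩, -⟩ := crit
  obtain ⟨e, he⟩ : ∃ e, e = min ε 1 / 2 := ⟨_, rfl⟩
  have he0 : 0 < e := by rw [he]; have := lt_min hε one_pos; positivity
  have he1 : e < ε := by
    have := min_le_left ε 1
    rw [he]
    linarith only [this, hε]
  have he2 : e < 1 := by
    have := min_le_right ε 1
    rw [he]
    linarith only [this]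
  obtain ⟨N1, hN1⟩ := eventually_atTop.1 (hL e he0)
  have hlog : Tendsto (fun L : ℕ => Real.log L) atTop atTop :=
    Real.tendsto_log_atTop.comp tendsto_natCast_atTop_atTop
  filter_upwards [hlog.eventually (ev_low (C := C * 6 ^ e) (B := 2 * bCrit) he0 he1 he2 hc
    (by positivity)), hlog.eventually_ge_atTop 1, eventually_ge_atTop (2 ^ (N1 + 1))]
    with L h1 h2 hL2
  have hL0 : L ≠ 0 := by
    have : 0 < 2 ^ (N1 + 1) := by positivity
    omega
  obtain ⟨k, hk⟩ : ∃ k, k = Nat.log 2 L := ⟨_, rfl⟩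
  have hk1 : N1 + 1 ≤ k := by
    rw [hk]; exact Nat.le_log_of_pow_le one_lt_two hL2
  have hk2 : 2 ^ k ≤ L := by rw [hk]; exact Nat.pow_log_le_self 2 hL0
  have hk3 : L < 2 ^ (k + 1) := by
    rw [hk]
    exact Nat.lt_pow_succ_log_self one_lt_two L
  obtain ⟨m, hm⟩ : ∃ m, m = 2 * (k + 1) := ⟨_, rfl⟩
  have hLp : (0 : ℝ) < L := by
    have : 0 < L := Nat.pos_of_ne_zero hL0
    exact_mod_cast this
  have hLm2 : (L : ℝ) * L ≤ ((2 ^ m : ℕ) : ℝ) := by
    have h3 : L * L ≤ 2 ^ m := by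
      rw [hm, two_mul, pow_add]
      exact Nat.mul_le_mul hk3.le hk3.le
    exact_mod_cast h3
  have hLm : L ≤ 2 ^ m := by
    refine hk3.le.trans (Nat.pow_le_pow_right (by norm_num) ?_)
    omega
  have hr := Vale.Agent.P159.H177.stiff_le_rate hbc0.le (l := L) (n := 2 ^ m)
    (Nat.one_le_iff_ne_zero.2 hL0) hLm
  have hr2 : 2 * bCrit * L / ((2 ^ m : ℕ) : ℝ) ≤ 2 * bCrit * Real.exp (-Real.log L) := by
    rw [Real.exp_neg, Real.exp_log hLp, div_le_iff₀ (by positivity)]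
    have b1 : (L : ℝ) ≤ (L : ℝ)⁻¹ * ((2 ^ m : ℕ) : ℝ) := by
      rw [← div_eq_inv_mul, le_div_iff₀ hLp]
      exact hLm2
    have b2 := mul_le_mul_of_nonneg_left b1 (show 0 ≤ 2 * bCrit by positivity)
    linarith only [b2]
  have hxm := (hlow m).2
  have hT := hN1 m (by omega)
  have hmlog : (m : ℝ) ≤ 6 * Real.log L := by
    have c1 : (k : ℝ) * Real.log 2 ≤ Real.log L := by
      rw [← Real.log_pow]
      apply Real.log_le_log (by positivity)
      have : ((2 ^ k : ℕ) : ℝ) ≤ L := by exact_mod_cast hk2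
      push_cast at this
      exact this
    have c2 : (2 / 3 : ℝ) ≤ Real.log 2 := by
      have := Real.log_two_gt_d9
      linarith only [this]
    have c3 : (k : ℝ) * (2 / 3) ≤ k * Real.log 2 :=
      mul_le_mul_of_nonneg_left c2 (Nat.cast_nonneg _)
    have c4 : (m : ℝ) = 2 * (k + 1) := by rw [hm]; push_cast; ring
    rw [c4]
    linarith only [c1, c3, h2]
  have hme : (m : ℝ) ^ e ≤ 6 ^ e * Real.log L ^ e := by
    rw [← Real.mul_rpow (by norm_num) (by linarith only [h2])]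
    exact Real.rpow_le_rpow (Nat.cast_nonneg _) hmlog he0.le
  have hxm2 : c * Real.exp (-(C * 6 ^ e * Real.log L ^ e)) ≤
      stiff (2 ^ m) bCrit - 2 / Real.pi := by
    refine le_trans ?_ hxm
    apply mul_le_mul_of_nonneg_left _ hc.le
    rw [Real.exp_le_exp]
    have := mul_le_mul_of_nonneg_left (hT.trans hme) hC.le
    linarith only [this]
  linarith only [h1, hr, hr2, hxm2]

/-- lower bound of the vortex ratio at the dyadic scales -/
theorem vr_low (hL : SumHyp) {ε : ℝ} (hε : 0 < ε) : ∀ᶠ n : ℕ in atTop,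
    Real.exp (-(n : ℝ) ^ ε) ≤ vortexRatio (2 ^ n) bCrit := by
  obtain ⟨⟨c, C, hc, hC, hlow⟩, -⟩ := crit
  have he0 : 0 < ε / 2 := by linarith only [hε]
  have hev : ∀ᶠ w : ℝ in atTop, C * w ^ (ε / 2) + Real.log (1 / c) ≤ w ^ ε := by
    have h1 : ∀ᶠ w : ℝ in atTop, 2 * C ≤ w ^ (ε / 2) := (rpow_tendsto he0).eventually_ge_atTop _
    have h2 : ∀ᶠ w : ℝ in atTop, 2 * Real.log (1 / c) ≤ w ^ ε :=
      (rpow_tendsto hε).eventually_ge_atTop _
    filter_upwards [h1, h2, eventually_gt_atTop (0 : ℝ)] with w a1 a2 a3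
    have e1 : w ^ ε = w ^ (ε / 2) * w ^ (ε / 2) := by
      rw [← Real.rpow_add a3]
      congr 1
      ring
    have a4 : 0 < w ^ (ε / 2) := Real.rpow_pos_of_pos a3 _
    have a5 := mul_le_mul_of_nonneg_right a1 a4.le
    rw [← e1] at a5
    linarith only [a5, a2]
  filter_upwards [tendsto_natCast_atTop_atTop.eventually hev, hL _ he0] with n h1 hT
  refine le_trans ?_ (hlow n).1
  have e1 : c = Real.exp (-Real.log (1 / c)) := by
    rw [Real.exp_neg, Real.exp_log (by positivity)]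
    simp
  rw [e1, ← Real.exp_add, Real.exp_le_exp]
  have := mul_le_mul_of_nonneg_left hT hC.le
  linarith only [this, h1]

end Vale.Agent.P159.UJ.H282.Ex
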