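import Vale.Agent.P159.H282.Up1
import Vale.Agent.P159.H191.SupCor

/-!
# The two-point function at the critical point, from the sum of the excesses
-/

set_option linter.all false

open Filter Topology
open scoped BigOperators

namespace Vale.Agent.P159.UJ.H282.Ex

theorem sqrt_quart (j : ℕ) : j / 4 ≤ j - Nat.sqrt j := by
  obtain ⟨s, hs⟩ : ∃ s, s = Nat.sqrt j := ⟨_, rfl⟩
  have h1 : s * s ≤ j := by rw [hs]; exact Nat.sqrt_le j
  rw [← hs]
  rcases Nat.lt_or_ge s 2 with h | h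
  · interval_cases s <;> omega
  · have h2 : 2 * s ≤ j := by nlinarith only [h1, h]
    omega

/-- the shifted sum -/
theorem sum_shift (n : ℕ) : ∑ j ∈ Finset.range n, (stiff (2 ^ (j - Nat.sqrt j)) bCrit -
    2 / Real.pi) ≤ 4 * ∑ j ∈ Finset.range n, (stiff (2 ^ j) bCrit - 2 / Real.pi) := by
  have hbc0 : 0 < bCrit := Vale.Agent.P159.H170.bCrit_pos
  have hhel : helicity bCrit = 2 / Real.pi := Vale.Agent.P159.TM.Frame.T1
  have hx0 : ∀ j, 0 ≤ stiff (2 ^ j) bCrit - 2 / Real.pi := fun j => by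
    have := Vale.Agent.P159.H177.helicity_le hbc0.le (l := 2 ^ j) Nat.one_le_two_pow
    rw [hhel] at this
    linarith only [this]
  have h1 : ∑ j ∈ Finset.range n, (stiff (2 ^ (j - Nat.sqrt j)) bCrit - 2 / Real.pi) ≤
      ∑ j ∈ Finset.range n, (stiff (2 ^ (j / 4)) bCrit - 2 / Real.pi) := by
    refine Finset.sum_le_sum fun j _ => ?_
    have := stiff_anti2 hbc0.le (sqrt_quart j)
    linarith only [this]
  have h2 : ∀ m : ℕ, ∑ j ∈ Finset.range (4 * m), (stiff (2 ^ (j / 4)) bCrit - 2 / Real.pi) =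
      4 * ∑ j ∈ Finset.range m, (stiff (2 ^ j) bCrit - 2 / Real.pi) := by
    intro m
    induction m with
    | zero => simp
    | succ m ih =>
      rw [show 4 * (m + 1) = 4 * m + 1 + 1 + 1 + 1 by ring, Finset.sum_range_succ,
        Finset.sum_range_succ, Finset.sum_range_succ, Finset.sum_range_succ, ih,
        Finset.sum_range_succ]
      have e0 : (4 * m) / 4 = m := by omega
      have e1 : (4 * m + 1) / 4 = m := by omega
      have e2 : (4 * m + 1 + 1) / 4 = m := by omega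
      have e3 : (4 * m + 1 + 1 + 1) / 4 = m := by omega
      rw [e0, e1, e2, e3]
      ring
  have h3 : ∑ j ∈ Finset.range n, (stiff (2 ^ (j / 4)) bCrit - 2 / Real.pi) ≤
      ∑ j ∈ Finset.range (4 * n), (stiff (2 ^ (j / 4)) bCrit - 2 / Real.pi) :=
    Finset.sum_le_sum_of_subset_of_nonneg (Finset.range_subset_range.2 (by omega))
      fun j _ _ => hx0 _
  rw [h2] at h3
  exact h1.trans h3

/-- the norm tends to infinity -/
theorem nm_tendsto : Tendsto XY.nm cofinite atTop := by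
  rw [tendsto_atTop]
  intro M
  rw [eventually_cofinite]
  refine Set.Finite.subset (Set.finite_Icc ((-(M : ℤ), -(M : ℤ)) : ℤ × ℤ) ((M : ℤ), (M : ℤ))) ?_
  intro x hx
  simp only [Set.mem_setOf_eq, not_le] at hx
  unfold XY.nm at hx
  rw [max_lt_iff] at hx
  rw [Set.mem_Icc, Prod.le_def, Prod.le_def]
  refine ⟨⟨?_, ?_⟩, ?_, ?_⟩ <;> dsimp only <;> omega

theorem nm_cast (x : ℤ × ℤ) : ((max |x.1| |x.2| : ℤ) : ℝ) = (XY.nm x : ℝ) := by
  unfold XY.nm
  rw [Nat.cast_max, Int.cast_max]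
  simp only [Nat.cast_natAbs]

/-- **upper bound of the two-point function at the critical point** -/
theorem corr_up (hL : SumHyp) {ε : ℝ} (hε : 0 < ε) : ∀ᶠ x : ℤ × ℤ in cofinite,
    corrInf bCrit x ≤ ((max |x.1| |x.2| : ℤ) : ℝ) ^ (-(1 / 4 : ℝ)) *
      Real.exp (Real.log ((max |x.1| |x.2| : ℤ) : ℝ) ^ ε) := by
  have hbc0 : 0 < bCrit := Vale.Agent.P159.H170.bCrit_pos
  obtain ⟨K, hK, hC⟩ := H191.S_up_quarter hbc0.le Nat.sqrt (fun j => Nat.sqrt_le_self j)
    (fun j => Nat.sqrt_succ_le_succ_sqrt j) H191.summable_sqrt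
  have he0 : 0 < ε / 2 := by linarith only [hε]
  obtain ⟨N1, hN1⟩ := eventually_atTop.1 (hL _ he0)
  obtain ⟨D, hD⟩ : ∃ D, D = Real.pi / 8 * Real.log 2 * 4 * 2 ^ (ε / 2) := ⟨_, rfl⟩
  have hlog2 : 0 < Real.log 2 := Real.log_pos one_lt_two
  have hpi := Real.pi_pos
  have hD0 : 0 ≤ D := by rw [hD]; positivity
  have hev : ∀ᶠ w : ℝ in atTop, Real.log K + Real.log 2 / 4 + D * w ^ (ε / 2) ≤ w ^ ε ∧ 1 ≤ w := by
    have h1 : ∀ᶠ w : ℝ in atTop, 2 * D ≤ w ^ (ε / 2) := (rpow_tendsto he0).eventually_ge_atTop _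
    have h2 : ∀ᶠ w : ℝ in atTop, 2 * (Real.log K + Real.log 2 / 4) ≤ w ^ ε :=
      (rpow_tendsto hε).eventually_ge_atTop _
    filter_upwards [h1, h2, eventually_ge_atTop (1 : ℝ)] with w a1 a2 a3
    have e1 : w ^ ε = w ^ (ε / 2) * w ^ (ε / 2) := by
      rw [← Real.rpow_add (by linarith only [a3])]
      congr 1
      ring
    have a4 : 0 < w ^ (ε / 2) := Real.rpow_pos_of_pos (by linarith only [a3]) _
    have a5 := mul_le_mul_of_nonneg_right a1 a4.le
    rw [← e1] at a5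
    exact ⟨by linarith only [a5, a2], a3⟩
  have hlog : Tendsto (fun L : ℕ => Real.log L) atTop atTop :=
    Real.tendsto_log_atTop.comp tendsto_natCast_atTop_atTop
  filter_upwards [nm_tendsto.eventually (hlog.eventually hev),
    nm_tendsto.eventually_ge_atTop (2 ^ (N1 + 1))] with x hx1 hx2
  obtain ⟨hx1, hx3⟩ := hx1
  rw [nm_cast]
  obtain ⟨r, hr⟩ : ∃ r, r = XY.nm x := ⟨_, rfl⟩
  rw [← hr] at hx1 hx2 hx3 ⊢
  obtain ⟨n, hn⟩ : ∃ n, n = Nat.log 2 r := ⟨_, rfl⟩
  have hr0 : r ≠ 0 := by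
    have : 0 < 2 ^ (N1 + 1) := by positivity
    omega
  have hrp : (0 : ℝ) < r := by
    have : 0 < r := Nat.pos_of_ne_zero hr0
    exact_mod_cast this
  have hn1 : N1 + 1 ≤ n := by
    rw [hn]; exact Nat.le_log_of_pow_le one_lt_two hx2
  have hn2 : 2 ^ n ≤ r := by rw [hn]; exact Nat.pow_log_le_self 2 hr0
  have hn3 : r < 2 ^ (n + 1) := by
    rw [hn]
    exact Nat.lt_pow_succ_log_self one_lt_two r
  have hx := hC x
  rw [← hr, ← hn] at hx
  have hT := hN1 n (by omega)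
  have hS := sum_shift n
  have h1 : Real.log r ≤ (n + 1) * Real.log 2 := by
    have h2 : Real.log r ≤ Real.log ((2 : ℝ) ^ (n + 1)) := by
      apply Real.log_le_log hrp
      have : (r : ℝ) ≤ ((2 ^ (n + 1) : ℕ) : ℝ) := by exact_mod_cast hn3.le
      push_cast at this
      exact this
    rw [Real.log_pow] at h2
    push_cast at h2
    exact h2
  have h2 : (n : ℝ) ≤ 2 * Real.log r := by
    have c1 : (n : ℝ) * Real.log 2 ≤ Real.log r := by
      rw [← Real.log_pow]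
      apply Real.log_le_log (by positivity)
      have : ((2 ^ n : ℕ) : ℝ) ≤ r := by exact_mod_cast hn2
      push_cast at this
      exact this
    have c2 : (1 / 2 : ℝ) ≤ Real.log 2 := by
      have := Real.log_two_gt_d9
      linarith only [this]
    have c3 := mul_le_mul_of_nonneg_left c2 (Nat.cast_nonneg (α := ℝ) n)
    linarith only [c1, c3]
  have h3 : (n : ℝ) ^ (ε / 2) ≤ 2 ^ (ε / 2) * Real.log r ^ (ε / 2) := by
    rw [← Real.mul_rpow (by norm_num) (by linarith only [hx3])]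
    exact Real.rpow_le_rpow (Nat.cast_nonneg _) h2 he0.le
  have h4 : Real.pi / 8 * Real.log 2 * ∑ j ∈ Finset.range n,
      (stiff (2 ^ (j - Nat.sqrt j)) bCrit - 2 / Real.pi) ≤ D * Real.log r ^ (ε / 2) := by
    have h5 : ∑ j ∈ Finset.range n, (stiff (2 ^ (j - Nat.sqrt j)) bCrit - 2 / Real.pi) ≤
        4 * (2 ^ (ε / 2) * Real.log r ^ (ε / 2)) := by linarith only [hS, hT, h3]
    have h6 := mul_le_mul_of_nonneg_left h5 (show 0 ≤ Real.pi / 8 * Real.log 2 by positivity)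
    rw [hD]
    linarith only [h6]
  rw [XY.corrInf_eq hbc0.le]
  refine hx.trans ?_
  have e1 : (r : ℝ) ^ (-(1 / 4 : ℝ)) = Real.exp (-(1 / 4) * Real.log r) := by
    rw [Real.rpow_def_of_pos hrp]
    congr 1
    ring
  have e2 : K = Real.exp (Real.log K) := (Real.exp_log hK).symm
  rw [e1, e2, ← Real.exp_add, ← Real.exp_add, Real.exp_le_exp]
  have e3 : -(Real.log 2 / 4) * n ≤ -(1 / 4) * Real.log r + Real.log 2 / 4 := by
    linarith only [h1]
  linarith only [e3, h4, hx1]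

end Vale.Agent.P159.UJ.H282.Ex
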