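import Vale.Agent.P159.H282.Up3

/-!
# The same statements with one fixed exponent of the sum of the excesses
-/

set_option linter.all false

open Filter Topology
open scoped BigOperators

namespace Vale.Agent.P159.UJ.H282.Ex

/-- the sum of the excesses of the stiffness over the dyadic scales is at most `N ^ e` -/
def SumAt (e : ℝ) : Prop := ∀ᶠ N : ℕ in atTop,
  ∑ j ∈ Finset.range N, (stiff (2 ^ j) bCrit - 2 / Real.pi) ≤ (N : ℝ) ^ e

/-- the dyadic scales -/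
theorem xdyG {e : ℝ} (hT : SumAt e) : ∀ᶠ n : ℕ in atTop,
    stiff (2 ^ n) bCrit - 2 / Real.pi ≤ (n : ℝ) ^ (e - 1) := by
  have hbc0 : 0 < bCrit := Vale.Agent.P159.H170.bCrit_pos
  filter_upwards [hT, eventually_ge_atTop 1] with n hT hn
  have hn0 : (0 : ℝ) < n := by exact_mod_cast hn
  have h1 : (n : ℝ) * (stiff (2 ^ n) bCrit - 2 / Real.pi) ≤ (n : ℝ) ^ e := by
    refine le_trans ?_ hT
    rw [← nsmul_eq_mul, ← Finset.card_range n, ← Finset.sum_const, Finset.card_range]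
    refine Finset.sum_le_sum fun j hj => ?_
    have := stiff_anti2 hbc0.le (Finset.mem_range.1 hj).le
    linarith only [this]
  rw [Real.rpow_sub hn0, Real.rpow_one, le_div_iff₀ hn0]
  linarith only [h1, mul_comm (n : ℝ) (stiff (2 ^ n) bCrit - 2 / Real.pi)]

/-- numbers for the upper bound -/
theorem ev_upG {e ε B : ℝ} (he : 0 ≤ e) (hε : 0 < ε) : ∀ᶠ n : ℕ in atTop,
    (n : ℝ) ^ (e - 1) + B * (2 : ℝ)⁻¹ ^ n ≤ 1 / 4 * (n : ℝ) ^ (e + ε - 1) := by
  have h1 : Tendsto (fun n : ℕ => (n : ℝ) ^ ε) atTop atTop :=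
    (tendsto_rpow_atTop hε).comp tendsto_natCast_atTop_atTop
  have h2 : Tendsto (fun n : ℕ => (n : ℝ) * (2 : ℝ)⁻¹ ^ n) atTop (𝓝 0) := by
    have := tendsto_self_mul_const_pow_of_lt_one (r := (2 : ℝ)⁻¹) (by norm_num) (by norm_num)
    exact this
  have h3 : ∀ᶠ n : ℕ in atTop, |B| * ((n : ℝ) * (2 : ℝ)⁻¹ ^ n) ≤ 1 / 8 := by
    have h4 : Tendsto (fun n : ℕ => |B| * ((n : ℝ) * (2 : ℝ)⁻¹ ^ n)) atTop (𝓝 (|B| * 0)) :=
      h2.const_mul _
    rw [mul_zero] at h4
    exact h4.eventually_le_const (by norm_num)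
  filter_upwards [h1.eventually_ge_atTop 8, h3, eventually_ge_atTop 1] with n a1 a3 hn
  have hn1 : (1 : ℝ) ≤ n := by exact_mod_cast hn
  have hn0 : (0 : ℝ) < n := by linarith only [hn1]
  have b1 : (n : ℝ) ^ (e - 1) ≤ 1 / 8 * (n : ℝ) ^ (e + ε - 1) := by
    have e1 : (n : ℝ) ^ (e + ε - 1) = (n : ℝ) ^ ε * (n : ℝ) ^ (e - 1) := by
      rw [← Real.rpow_add hn0]
      congr 1
      ring
    rw [e1]
    have h5 : 0 < (n : ℝ) ^ (e - 1) := Real.rpow_pos_of_pos hn0 _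
    nlinarith only [h5, a1]
  have b2 : B * (2 : ℝ)⁻¹ ^ n ≤ 1 / 8 * (n : ℝ) ^ (e + ε - 1) := by
    have h5 : B * (2 : ℝ)⁻¹ ^ n ≤ |B| * (2 : ℝ)⁻¹ ^ n :=
      mul_le_mul_of_nonneg_right (le_abs_self B) (by positivity)
    have h6 : |B| * (2 : ℝ)⁻¹ ^ n ≤ 1 / 8 * (n : ℝ) ^ (-(1 : ℝ)) := by
      rw [Real.rpow_neg_one, ← div_eq_mul_inv, le_div_iff₀ hn0]
      linarith only [a3]
    have h7 : (n : ℝ) ^ (-(1 : ℝ)) ≤ (n : ℝ) ^ (e + ε - 1) :=
      Real.rpow_le_rpow_of_exponent_le hn1 (by linarith only [he, hε])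
    linarith only [h5, h6, h7]
  linarith only [b1, b2]

/-- **the rate of the stiffness at the critical point, all scales** -/
theorem rate_upG {e : ℝ} (he : 0 ≤ e) (he1 : e < 1) (hT : SumAt e) {ε : ℝ} (hε : 0 < ε) :
    ∀ᶠ L : ℕ in atTop, stiff L bCrit - 2 / Real.pi ≤ Real.log L ^ (-1 + e + ε) := by
  have hbc0 : 0 < bCrit := Vale.Agent.P159.H170.bCrit_pos
  obtain ⟨ε', hε'⟩ : ∃ ε', ε' = min ε (1 - e) := ⟨_, rfl⟩
  have hε0 : 0 < ε' := by rw [hε']; exact lt_min hε (by linarith only [he1])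
  have hε1 : ε' ≤ 1 - e := by rw [hε']; exact min_le_right _ _
  have hε2 : ε' ≤ ε := by rw [hε']; exact min_le_left _ _
  obtain ⟨n1, hn1⟩ := eventually_atTop.1 (xdyG hT)
  obtain ⟨n2, hn2⟩ := eventually_atTop.1 (ev_upG (B := 2 * bCrit) he hε0)
  have hlog : Tendsto (fun L : ℕ => Real.log L) atTop atTop :=
    Real.tendsto_log_atTop.comp tendsto_natCast_atTop_atTop
  filter_upwards [hlog.eventually_ge_atTop 1,
    eventually_ge_atTop (2 ^ (2 * (n1 + n2 + 1)))] with L h1 hL2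
  have hL0 : L ≠ 0 := by
    have : 0 < 2 ^ (2 * (n1 + n2 + 1)) := by positivity
    omega
  obtain ⟨n, hn⟩ : ∃ n, n = Nat.log 2 L / 2 := ⟨_, rfl⟩
  have hlg : 2 * (n1 + n2 + 1) ≤ Nat.log 2 L := Nat.le_log_of_pow_le one_lt_two hL2
  have hnn : n1 + n2 + 1 ≤ n := by omega
  have hpow : 2 ^ (2 * n) ≤ L := by
    refine le_trans (Nat.pow_le_pow_right (by norm_num) ?_) (Nat.pow_log_le_self 2 hL0)
    omega
  have hpow2 : L < 2 ^ (2 * n + 2) := by
    refine lt_of_lt_of_le (Nat.lt_pow_succ_log_self one_lt_two L)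
      (Nat.pow_le_pow_right (by norm_num) ?_)
    simp only [Nat.succ_eq_add_one]
    omega
  have hn0 : (1 : ℝ) ≤ n := by
    have : 1 ≤ n := by omega
    exact_mod_cast this
  have hLp : (0 : ℝ) < L := by
    have : 0 < L := Nat.pos_of_ne_zero hL0
    exact_mod_cast this
  have hpR : (2 : ℝ) ^ n * 2 ^ n ≤ L := by
    have : ((2 ^ (2 * n) : ℕ) : ℝ) ≤ L := by exact_mod_cast hpow
    push_cast at this
    rw [two_mul, pow_add] at this
    exact this
  have hnL : 2 ^ n ≤ L := by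
    refine le_trans (Nat.pow_le_pow_right (by norm_num) ?_) hpow
    omega
  have hlogL : Real.log L ≤ 4 * n := by
    have a1 : Real.log L ≤ Real.log ((2 : ℝ) ^ (2 * n + 2)) := by
      apply Real.log_le_log hLp
      have : (L : ℝ) ≤ ((2 ^ (2 * n + 2) : ℕ) : ℝ) := by exact_mod_cast hpow2.le
      push_cast at this
      exact this
    rw [Real.log_pow] at a1
    push_cast at a1
    have a2 : Real.log 2 ≤ 1 := by
      have := Real.log_two_lt_d9
      linarith only [this]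
    have a3 : (2 * (n : ℝ) + 2) * Real.log 2 ≤ (2 * (n : ℝ) + 2) * 1 :=
      mul_le_mul_of_nonneg_left a2 (by linarith only [hn0])
    linarith only [a1, a3, hn0]
  have hr := Vale.Agent.P159.H177.stiff_le_rate hbc0.le (l := 2 ^ n) (n := L)
    Nat.one_le_two_pow hnL
  have hr2 : 2 * bCrit * ((2 ^ n : ℕ) : ℝ) / L ≤ 2 * bCrit * (2 : ℝ)⁻¹ ^ n := by
    push_cast
    rw [div_le_iff₀ hLp]
    have b1 : (2 : ℝ) ^ n = (2 : ℝ)⁻¹ ^ n * ((2 : ℝ) ^ n * 2 ^ n) := by
      rw [← mul_assoc, ← mul_pow]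
      norm_num
    have b2 : (2 : ℝ)⁻¹ ^ n * ((2 : ℝ) ^ n * 2 ^ n) ≤ (2 : ℝ)⁻¹ ^ n * L :=
      mul_le_mul_of_nonneg_left hpR (by positivity)
    have b3 : 2 * bCrit * (2 : ℝ) ^ n ≤ 2 * bCrit * ((2 : ℝ)⁻¹ ^ n * L) := by
      apply mul_le_mul_of_nonneg_left _ (by positivity)
      rw [b1]
      exact b2
    linarith only [b3]
  have hx := hn1 n (by omega)
  have hu := hn2 n (by omega)
  have hfin : 1 / 4 * (n : ℝ) ^ (e + ε' - 1) ≤ Real.log L ^ (-1 + e + ε) := by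
    have c1 : (4 * (n : ℝ)) ^ (e + ε' - 1) ≤ Real.log L ^ (e + ε' - 1) :=
      Real.rpow_le_rpow_of_nonpos (by linarith only [h1]) hlogL (by linarith only [hε1])
    have c2 : 1 / 4 * (n : ℝ) ^ (e + ε' - 1) ≤ (4 * (n : ℝ)) ^ (e + ε' - 1) := by
      rw [Real.mul_rpow (by norm_num) (by linarith only [hn0])]
      apply mul_le_mul_of_nonneg_right _ (Real.rpow_nonneg (by linarith only [hn0]) _)
      have : (4 : ℝ) ^ (-(1 : ℝ)) ≤ 4 ^ (e + ε' - 1) :=
        Real.rpow_le_rpow_of_exponent_le (by norm_num) (by linarith only [he, hε0])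
      rw [Real.rpow_neg_one] at this
      linarith only [this]
    have c3 : Real.log L ^ (e + ε' - 1) ≤ Real.log L ^ (-1 + e + ε) :=
      Real.rpow_le_rpow_of_exponent_le h1 (by linarith only [hε2])
    linarith only [c1, c2, c3]
  linarith only [hr, hr2, hx, hu, hfin]

/-- **lower bound of the excess at all scales** -/
theorem rate_lowG {e : ℝ} (he0 : 0 < e) (he1' : e < 1) (hT : SumAt e) {ε : ℝ} (hε : e < ε) :
    ∀ᶠ L : ℕ in atTop, Real.exp (-Real.log L ^ ε) ≤ stiff L bCrit - 2 / Real.pi := by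
  have hbc0 : 0 < bCrit := Vale.Agent.P159.H170.bCrit_pos
  obtain ⟨⟨c, C, hc, hC, hlow⟩, -⟩ := crit
  obtain ⟨N1, hN1⟩ := eventually_atTop.1 hT
  have hlog : Tendsto (fun L : ℕ => Real.log L) atTop atTop :=
    Real.tendsto_log_atTop.comp tendsto_natCast_atTop_atTop
  filter_upwards [hlog.eventually (ev_low (C := C * 6 ^ e) (B := 2 * bCrit) he0 hε he1' hc
    (by positivity)), hlog.eventually_ge_atTop 1, eventually_ge_atTop (2 ^ (N1 + 1))]
    with L h1 h2 hL2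
  have hL0 : L ≠ 0 := by
    have : 0 < 2 ^ (N1 + 1) := by positivity
    omega
  obtain ⟨k, hk⟩ : ∃ k, k = Nat.log 2 L := ⟨_, rfl⟩
  have hk1 : N1 + 1 ≤ k := by
    rw [hk]; exact Nat.le_log_of_pow_le one_lt_two hL2
  have hk2 : 2 ^ k ≤ L := by rw [hk]; exact Nat.pow_log_le_self 2 hL0
  have hk3 : L < 2 ^ (k + 1) := by
    rw [hk]
    exact Nat.lt_pow_succ_log_self one_lt_two L
  obtain ⟨m, hm⟩ : ∃ m, m = 2 * (k + 1) := ⟨_, rfl⟩
  have hLp : (0 : ℝ) < L := by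
    have : 0 < L := Nat.pos_of_ne_zero hL0
    exact_mod_cast this
  have hLm2 : (L : ℝ) * L ≤ ((2 ^ m : ℕ) : ℝ) := by
    have h3 : L * L ≤ 2 ^ m := by
      rw [hm, two_mul, pow_add]
      exact Nat.mul_le_mul hk3.le hk3.le
    exact_mod_cast h3
  have hLm : L ≤ 2 ^ m := by
    refine hk3.le.trans (Nat.pow_le_pow_right (by norm_num) ?_)
    omega
  have hr := Vale.Agent.P159.H177.stiff_le_rate hbc0.le (l := L) (n := 2 ^ m)
    (Nat.one_le_iff_ne_zero.2 hL0) hLm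
  have hr2 : 2 * bCrit * L / ((2 ^ m : ℕ) : ℝ) ≤ 2 * bCrit * Real.exp (-Real.log L) := by
    rw [Real.exp_neg, Real.exp_log hLp, div_le_iff₀ (by positivity)]
    have b1 : (L : ℝ) ≤ (L : ℝ)⁻¹ * ((2 ^ m : ℕ) : ℝ) := by
      rw [← div_eq_inv_mul, le_div_iff₀ hLp]
      exact hLm2
    have b2 := mul_le_mul_of_nonneg_left b1 (show 0 ≤ 2 * bCrit by positivity)
    linarith only [b2]
  have hxm := (hlow m).2
  have hT := hN1 m (by omega)
  have hmlog : (m : ℝ) ≤ 6 * Real.log L := by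
    have c1 : (k : ℝ) * Real.log 2 ≤ Real.log L := by
      rw [← Real.log_pow]
      apply Real.log_le_log (by positivity)
      have : ((2 ^ k : ℕ) : ℝ) ≤ L := by exact_mod_cast hk2
      push_cast at this
      exact this
    have c2 : (2 / 3 : ℝ) ≤ Real.log 2 := by
      have := Real.log_two_gt_d9
      linarith only [this]
    have c3 : (k : ℝ) * (2 / 3) ≤ k * Real.log 2 :=
      mul_le_mul_of_nonneg_left c2 (Nat.cast_nonneg _)
    have c4 : (m : ℝ) = 2 * (k + 1) := by rw [hm]; push_cast; ring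
    rw [c4]
    linarith only [c1, c3, h2]
  have hme : (m : ℝ) ^ e ≤ 6 ^ e * Real.log L ^ e := by
    rw [← Real.mul_rpow (by norm_num) (by linarith only [h2])]
    exact Real.rpow_le_rpow (Nat.cast_nonneg _) hmlog he0.le
  have hxm2 : c * Real.exp (-(C * 6 ^ e * Real.log L ^ e)) ≤
      stiff (2 ^ m) bCrit - 2 / Real.pi := by
    refine le_trans ?_ hxm
    apply mul_le_mul_of_nonneg_left _ hc.le
    rw [Real.exp_le_exp]
    have := mul_le_mul_of_nonneg_left (hT.trans hme) hC.le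
    linarith only [this]
  linarith only [h1, hr, hr2, hxm2]

/-- a fixed factor is absorbed in the exponent -/
theorem ev_absG {e ε : ℝ} (he : 0 ≤ e) (hε : e < ε) (D K : ℝ) : ∀ᶠ w : ℝ in atTop,
    D * w ^ e + K ≤ w ^ ε := by
  have h1 : ∀ᶠ w : ℝ in atTop, 2 * D ≤ w ^ (ε - e) :=
    (rpow_tendsto (by linarith only [hε])).eventually_ge_atTop _
  have h2 : ∀ᶠ w : ℝ in atTop, 2 * K ≤ w ^ ε :=
    (rpow_tendsto (by linarith only [hε, he])).eventually_ge_atTop _
  filter_upwards [h1, h2, eventually_gt_atTop (0 : ℝ)] with w a1 a2 a3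
  have e1 : w ^ ε = w ^ (ε - e) * w ^ e := by
    rw [← Real.rpow_add a3]
    congr 1
    ring
  have a4 : 0 < w ^ e := Real.rpow_pos_of_pos a3 _
  have a5 := mul_le_mul_of_nonneg_right a1 a4.le
  rw [← e1] at a5
  linarith only [a5, a2]

/-- lower bound of the vortex ratio at the dyadic scales -/
theorem vr_lowG {e : ℝ} (he0 : 0 ≤ e) (hT : SumAt e) {ε : ℝ} (hε : e < ε) :
    ∀ᶠ n : ℕ in atTop, Real.exp (-(n : ℝ) ^ ε) ≤ vortexRatio (2 ^ n) bCrit := by
  obtain ⟨⟨c, C, hc, hC, hlow⟩, -⟩ := crit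
  filter_upwards [tendsto_natCast_atTop_atTop.eventually (ev_absG he0 hε C (Real.log (1 / c))),
    hT] with n h1 hT
  refine le_trans ?_ (hlow n).1
  have e1 : c = Real.exp (-Real.log (1 / c)) := by
    rw [Real.exp_neg, Real.exp_log (by positivity)]
    simp
  rw [e1, ← Real.exp_add, Real.exp_le_exp]
  have := mul_le_mul_of_nonneg_left hT hC.le
  linarith only [this, h1]

/-- **upper bound of the two-point function at the critical point** -/
theorem corr_upG {e : ℝ} (he0 : 0 ≤ e) (hT : SumAt e) {ε : ℝ} (hε : e < ε) :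
    ∀ᶠ x : ℤ × ℤ in cofinite,
    corrInf bCrit x ≤ ((max |x.1| |x.2| : ℤ) : ℝ) ^ (-(1 / 4 : ℝ)) *
      Real.exp (Real.log ((max |x.1| |x.2| : ℤ) : ℝ) ^ ε) := by
  have hbc0 : 0 < bCrit := Vale.Agent.P159.H170.bCrit_pos
  obtain ⟨K, hK, hC⟩ := H191.S_up_quarter hbc0.le Nat.sqrt (fun j => Nat.sqrt_le_self j)
    (fun j => Nat.sqrt_succ_le_succ_sqrt j) H191.summable_sqrt
  obtain ⟨N1, hN1⟩ := eventually_atTop.1 hT
  obtain ⟨D, hD⟩ : ∃ D, D = Real.pi / 8 * Real.log 2 * 4 * 2 ^ e := ⟨_, rfl⟩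
  have hlog2 : 0 < Real.log 2 := Real.log_pos one_lt_two
  have hpi := Real.pi_pos
  have hD0 : 0 ≤ D := by rw [hD]; positivity
  have hlog : Tendsto (fun L : ℕ => Real.log L) atTop atTop :=
    Real.tendsto_log_atTop.comp tendsto_natCast_atTop_atTop
  filter_upwards [nm_tendsto.eventually (hlog.eventually (ev_absG he0 hε D
      (Real.log K + Real.log 2 / 4))), nm_tendsto.eventually (hlog.eventually_ge_atTop 1),
    nm_tendsto.eventually_ge_atTop (2 ^ (N1 + 1))] with x hx1 hx3 hx2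
  rw [nm_cast]
  obtain ⟨r, hr⟩ : ∃ r, r = XY.nm x := ⟨_, rfl⟩
  rw [← hr] at hx1 hx2 hx3 ⊢
  obtain ⟨n, hn⟩ : ∃ n, n = Nat.log 2 r := ⟨_, rfl⟩
  have hr0 : r ≠ 0 := by
    have : 0 < 2 ^ (N1 + 1) := by positivity
    omega
  have hrp : (0 : ℝ) < r := by
    have : 0 < r := Nat.pos_of_ne_zero hr0
    exact_mod_cast this
  have hn1 : N1 + 1 ≤ n := by
    rw [hn]; exact Nat.le_log_of_pow_le one_lt_two hx2
  have hn2 : 2 ^ n ≤ r := by rw [hn]; exact Nat.pow_log_le_self 2 hr0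
  have hn3 : r < 2 ^ (n + 1) := by
    rw [hn]
    exact Nat.lt_pow_succ_log_self one_lt_two r
  have hx := hC x
  rw [← hr, ← hn] at hx
  have hT := hN1 n (by omega)
  have hS := sum_shift n
  have h1 : Real.log r ≤ (n + 1) * Real.log 2 := by
    have h2 : Real.log r ≤ Real.log ((2 : ℝ) ^ (n + 1)) := by
      apply Real.log_le_log hrp
      have : (r : ℝ) ≤ ((2 ^ (n + 1) : ℕ) : ℝ) := by exact_mod_cast hn3.le
      push_cast at this
      exact this
    rw [Real.log_pow] at h2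
    push_cast at h2
    exact h2
  have h2 : (n : ℝ) ≤ 2 * Real.log r := by
    have c1 : (n : ℝ) * Real.log 2 ≤ Real.log r := by
      rw [← Real.log_pow]
      apply Real.log_le_log (by positivity)
      have : ((2 ^ n : ℕ) : ℝ) ≤ r := by exact_mod_cast hn2
      push_cast at this
      exact this
    have c2 : (1 / 2 : ℝ) ≤ Real.log 2 := by
      have := Real.log_two_gt_d9
      linarith only [this]
    have c3 := mul_le_mul_of_nonneg_left c2 (Nat.cast_nonneg (α := ℝ) n)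
    linarith only [c1, c3]
  have h3 : (n : ℝ) ^ e ≤ 2 ^ e * Real.log r ^ e := by
    rw [← Real.mul_rpow (by norm_num) (by linarith only [hx3])]
    exact Real.rpow_le_rpow (Nat.cast_nonneg _) h2 he0
  have h4 : Real.pi / 8 * Real.log 2 * ∑ j ∈ Finset.range n,
      (stiff (2 ^ (j - Nat.sqrt j)) bCrit - 2 / Real.pi) ≤ D * Real.log r ^ e := by
    have h5 : ∑ j ∈ Finset.range n, (stiff (2 ^ (j - Nat.sqrt j)) bCrit - 2 / Real.pi) ≤
        4 * (2 ^ e * Real.log r ^ e) := by linarith only [hS, hT, h3]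
    have h6 := mul_le_mul_of_nonneg_left h5 (show 0 ≤ Real.pi / 8 * Real.log 2 by positivity)
    rw [hD]
    linarith only [h6]
  rw [XY.corrInf_eq hbc0.le]
  refine hx.trans ?_
  have e1 : (r : ℝ) ^ (-(1 / 4 : ℝ)) = Real.exp (-(1 / 4) * Real.log r) := by
    rw [Real.rpow_def_of_pos hrp]
    congr 1
    ring
  have e2 : K = Real.exp (Real.log K) := (Real.exp_log hK).symm
  rw [e1, e2, ← Real.exp_add, ← Real.exp_add, Real.exp_le_exp]
  have e3 : -(Real.log 2 / 4) * n ≤ -(1 / 4) * Real.log r + Real.log 2 / 4 := by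
    linarith only [h1]
  linarith only [e3, h4, hx1]

end Vale.Agent.P159.UJ.H282.Ex
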