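import Vale.Agent.P159.H282.UpG

/-!
# Upper bound of the correlation length, with one fixed exponent of the sum of the excesses
-/

set_option linter.all false

open Filter Topology
open scoped BigOperators

namespace Vale.Agent.P159.UJ.H282.Ex

/-- numbers -/
theorem ev_numG {e a1 a2 c2 A : ℝ} (he : 0 < e) (ha1 : 0 < a1) (ha2 : 0 < a2) (hc2 : 0 < c2)
    (N1 : ℕ) : ∀ᶠ w : ℝ in atTop, 1 ≤ w ∧ 2 / c2 ≤ w ^ a1 ∧ 1 + Real.log (2 / c2 * w) ≤ w ^ e ∧
      (N1 : ℝ) ≤ w ^ a2 ∧ A ≤ w ^ e ∧ c2 / 2 ≤ w := by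
  have h1 : ∀ᶠ w : ℝ in atTop, 1 ≤ w := eventually_ge_atTop 1
  have h2 : ∀ᶠ w : ℝ in atTop, 2 / c2 ≤ w ^ a1 := (rpow_tendsto ha1).eventually_ge_atTop _
  have h4 : ∀ᶠ w : ℝ in atTop, (N1 : ℝ) ≤ w ^ a2 := (rpow_tendsto ha2).eventually_ge_atTop _
  have h5 : ∀ᶠ w : ℝ in atTop, A ≤ w ^ e := (rpow_tendsto he).eventually_ge_atTop _
  have h6 : ∀ᶠ w : ℝ in atTop, c2 / 2 ≤ w := eventually_ge_atTop _
  have h3 : ∀ᶠ w : ℝ in atTop, 1 + Real.log (2 / c2 * w) ≤ w ^ e := by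
    have a1 : ∀ᶠ w : ℝ in atTop, 2 * (1 + Real.log (2 / c2)) ≤ w ^ e :=
      (rpow_tendsto he).eventually_ge_atTop _
    have a2 : ∀ᶠ w : ℝ in atTop, Real.log w ≤ 1 / 2 * w ^ e := by
      have := (isLittleO_log_rpow_atTop he).bound (show (0 : ℝ) < 1 / 2 by norm_num)
      filter_upwards [this, eventually_ge_atTop (1 : ℝ)] with w hw hw1
      rw [Real.norm_of_nonneg (Real.log_nonneg hw1),
        Real.norm_of_nonneg (Real.rpow_nonneg (by linarith only [hw1]) _)] at hw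
      exact hw
    filter_upwards [a1, a2, h1] with w b1 b2 b3
    rw [Real.log_mul (by positivity) (by linarith only [b3])]
    linarith only [b1, b2]
  filter_upwards [h1, h2, h3, h4, h5, h6] with w b1 b2 b3 b4 b5 b6
  exact ⟨b1, b2, b3, b4, b5, b6⟩

/-- **upper bound of the correlation length**, one exponent -/
theorem xi_upG {e1 : ℝ} (he10 : 0 < e1) (he11 : e1 < 1) (hT : SumAt e1)
    {ε : ℝ} (hε : 0 < ε) : ∃ η : ℝ, 0 < η ∧ ∀ b : ℝ, bCrit - η < b → b < bCrit →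
      Real.log (corrLength b) ≤ (1 / (bCrit - b)) ^ (1 / (1 - e1) + ε) := by
  have hbc0 : 0 < bCrit := Vale.Agent.P159.H170.bCrit_pos
  have hpi := Real.pi_pos
  have hhel : helicity bCrit = 2 / Real.pi := Vale.Agent.P159.TM.Frame.T1
  obtain ⟨s, hs⟩ : ∃ s, s = 1 - e1 := ⟨_, rfl⟩
  have hs0 : 0 < s := by rw [hs]; linarith only [he11]
  have hs1 : s < 1 := by rw [hs]; linarith only [he10]
  obtain ⟨e, he⟩ : ∃ e, e = ε / 3 := ⟨_, rfl⟩
  have he0 : 0 < e := by rw [he]; positivity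
  obtain ⟨κ, hκ⟩ : ∃ κ, κ = 1 / s + e := ⟨_, rfl⟩
  have hκ1 : κ * s = 1 + e * s := by rw [hκ]; field_simp
  have hκ0 : 0 < κ := by rw [hκ]; positivity
  have hκe : 1 + κ * e1 = 1 / s + e * e1 := by
    have h1 : e1 = 1 - s := by rw [hs]; ring
    rw [h1, hκ]
    field_simp
    ring
  obtain ⟨C, d, hC, hd, hexit⟩ := exit_b
  obtain ⟨K0, htop⟩ := Vale.Agent.P159.H856.nc_exit_of NC.sharpNC hhel hd
  obtain ⟨K, hK⟩ : ∃ K, K = max K0 0 := ⟨_, rfl⟩
  have hKK : K0 ≤ K := by rw [hK]; exact le_max_left _ _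
  have hK0 : 0 ≤ K := by rw [hK]; exact le_max_right _ _
  obtain ⟨c2, hc20, htr⟩ := Vale.Agent.P159.H856.transv
  obtain ⟨N1, hN1⟩ := eventually_atTop.1 hT
  obtain ⟨A, hA⟩ : ∃ A, A = 4 + C * (2 / c2) * 3 := ⟨_, rfl⟩
  have hA0 : 0 < A := by rw [hA]; positivity
  obtain ⟨w0, hw0⟩ := eventually_atTop.1 (ev_numG (A := 2 * (A + 1) + K) he0
    (mul_pos he0 hs0) hκ0 hc20 (N1 + 1))
  obtain ⟨w1, hw1⟩ : ∃ w1, w1 = max (max w0 1) (2 / bCrit) := ⟨_, rfl⟩
  have hw1a : w0 ≤ w1 := by rw [hw1]; exact (le_max_left _ _).trans (le_max_left _ _)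
  have hw1b : 1 ≤ w1 := by rw [hw1]; exact (le_max_right _ _).trans (le_max_left _ _)
  have hw1c : 2 / bCrit ≤ w1 := by rw [hw1]; exact le_max_right _ _
  refine ⟨1 / w1, by positivity, ?_⟩
  intro b hb1 hb2
  obtain ⟨t, ht⟩ : ∃ t, t = bCrit - b := ⟨_, rfl⟩
  have ht0 : 0 < t := by rw [ht]; linarith only [hb2]
  have ht2 : t < 1 / w1 := by linarith only [ht, hb1]
  obtain ⟨w, hw⟩ : ∃ w, w = 1 / t := ⟨_, rfl⟩
  have hww : w1 ≤ w := by
    rw [hw, le_div_iff₀ ht0]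
    rw [lt_div_iff₀ (by linarith only [hw1b])] at ht2
    linarith only [ht2, mul_comm t w1]
  have hwt : w * t = 1 := by rw [hw]; field_simp
  have hb : 0 < b := by
    have h1 : 2 / bCrit ≤ w := hw1c.trans hww
    rw [hw, div_le_div_iff₀ hbc0 ht0] at h1
    linarith only [h1, ht, hbc0]
  obtain ⟨n1, n2, n3, n4, n5, n6⟩ := hw0 w (hw1a.trans hww)
  have hwp : 0 < w := by linarith only [n1]
  -- the scale of the exit
  obtain ⟨N0, hN0⟩ : ∃ N0, N0 = ⌈w ^ κ⌉₊ := ⟨_, rfl⟩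
  have hN0a : w ^ κ ≤ N0 := by rw [hN0]; exact Nat.le_ceil _
  have hN0b : (N0 : ℝ) ≤ w ^ κ + 1 := by
    rw [hN0]; exact (Nat.ceil_lt_add_one (Real.rpow_nonneg hwp.le _)).le
  have hw13 : 1 ≤ w ^ κ := Real.one_le_rpow n1 hκ0.le
  have hN0c : (N0 : ℝ) ≤ 2 * w ^ κ := by linarith only [hN0b, hw13]
  have hN0N : N1 ≤ N0 := by
    have h1 : ((N1 + 1 : ℕ) : ℝ) ≤ N0 := n4.trans hN0a
    have h2 : N1 + 1 ≤ N0 := by exact_mod_cast h1
    omega
  have hN0p : (0 : ℝ) < N0 := by linarith only [hN0a, hw13]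
  have hx0 : ∀ j, 0 ≤ stiff (2 ^ j) bCrit - 2 / Real.pi := fun j => by
    have := Vale.Agent.P159.H177.helicity_le hbc0.le (l := 2 ^ j) Nat.one_le_two_pow
    rw [hhel] at this
    linarith only [this]
  have hTN := hN1 N0 hN0N
  -- the excess at the critical point on the scale `N0`
  have hX : stiff (2 ^ N0) bCrit - 2 / Real.pi ≤ c2 * t / 2 := by
    have h1 : (N0 : ℝ) * (stiff (2 ^ N0) bCrit - 2 / Real.pi) ≤ (N0 : ℝ) ^ e1 := by
      refine le_trans ?_ hTN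
      rw [← nsmul_eq_mul, ← Finset.card_range N0, ← Finset.sum_const, Finset.card_range]
      refine Finset.sum_le_sum fun j hj => ?_
      have := stiff_anti2 hbc0.le (Finset.mem_range.1 hj).le
      linarith only [this]
    have h2 : stiff (2 ^ N0) bCrit - 2 / Real.pi ≤ (N0 : ℝ) ^ (e1 - 1) := by
      rw [Real.rpow_sub hN0p, Real.rpow_one, le_div_iff₀ hN0p]
      linarith only [h1, mul_comm (N0 : ℝ) (stiff (2 ^ N0) bCrit - 2 / Real.pi)]
    have h3 : (N0 : ℝ) ^ (e1 - 1) ≤ (w ^ κ) ^ (e1 - 1) :=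
      Real.rpow_le_rpow_of_nonpos (by linarith only [hw13]) hN0a (by linarith only [he11])
    have h4 : (w ^ κ) ^ (e1 - 1) = w ^ (-(1 + e * s)) := by
      rw [← Real.rpow_mul hwp.le]
      congr 1
      rw [← hκ1, hs]
      ring
    have h5 : w ^ (-(1 + e * s)) = t * (w ^ (e * s))⁻¹ := by
      rw [neg_add, Real.rpow_add hwp, Real.rpow_neg hwp.le, Real.rpow_one, Real.rpow_neg hwp.le]
      congr 1
      rw [hw]
      simp
    have h6 : (w ^ (e * s))⁻¹ ≤ c2 / 2 := by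
      rw [inv_le_comm₀ (by positivity) (by positivity)]
      refine le_trans (le_of_eq ?_) n2
      rw [inv_div]
    have h7 := mul_le_mul_of_nonneg_left h6 ht0.le
    rw [← h5, ← h4] at h7
    linarith only [h2, h3, h7]
  -- exit
  obtain ⟨δ, hδ⟩ : ∃ δ, δ = c2 * t / 2 := ⟨_, rfl⟩
  have hδ0' : 0 < δ := by rw [hδ]; positivity
  have hδ1 : δ ≤ 1 := by
    rw [hδ]
    have := mul_le_mul_of_nonneg_right n6 ht0.le
    linarith only [this, hwt]
  have hδi : 1 / δ = 2 / c2 * w := by rw [hδ, hw]; field_simp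
  have hst : stiff (2 ^ N0) b ≤ 2 / Real.pi - δ := by
    have h1 := htr b hb hb2.le (2 ^ N0) Nat.one_le_two_pow
    rw [← ht] at h1
    linarith only [h1, hX, hδ]
  obtain ⟨μ, hμ⟩ : ∃ μ, μ = 1 / s + 2 * e := ⟨_, rfl⟩
  obtain ⟨N, hN⟩ : ∃ N : ℕ, N = ⌊A * w ^ μ⌋₊ + 1 := ⟨_, rfl⟩
  have hNa : A * w ^ μ < N := by
    rw [hN]; push_cast; exact Nat.lt_floor_add_one _
  have hNb : (N : ℝ) ≤ A * w ^ μ + 1 := by
    rw [hN]; push_cast
    have := Nat.floor_le (show 0 ≤ A * w ^ μ by positivity)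
    linarith only [this]
  have hTs : ∑ j ∈ Finset.range N0, max (stiff (2 ^ j) b - 2 / Real.pi) 0 ≤
      2 * w ^ (κ * e1) := by
    have h1 : ∑ j ∈ Finset.range N0, max (stiff (2 ^ j) b - 2 / Real.pi) 0 ≤
        ∑ j ∈ Finset.range N0, (stiff (2 ^ j) bCrit - 2 / Real.pi) := by
      refine Finset.sum_le_sum fun j _ => max_le ?_ (hx0 j)
      have := Vale.Agent.P159.H873.stiff_monotoneOn (l := 2 ^ j) Nat.one_le_two_pow
        (Set.mem_Ici.2 hb.le) (Set.mem_Ici.2 hbc0.le) hb2.le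
      linarith only [this]
    have h2 : (N0 : ℝ) ^ e1 ≤ (2 * w ^ κ) ^ e1 :=
      Real.rpow_le_rpow hN0p.le hN0c he10.le
    have h3 : (2 * w ^ κ) ^ e1 ≤ 2 * w ^ (κ * e1) := by
      rw [Real.mul_rpow (by norm_num) (Real.rpow_nonneg hwp.le _)]
      refine mul_le_mul ?_ ?_ (by positivity) (by norm_num)
      · calc (2 : ℝ) ^ e1 ≤ 2 ^ (1 : ℝ) := Real.rpow_le_rpow_of_exponent_le (by norm_num)
              (by linarith only [he11])
          _ = 2 := Real.rpow_one _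
      · rw [← Real.rpow_mul hwp.le]
    exact ((h1.trans hTN).trans h2).trans h3
  have hst2 : stiff (2 ^ N) b ≤ 2 / Real.pi - d := by
    by_contra hcon
    push Not at hcon
    have h1 := hexit b hb hb2.le N0 N δ hδ0' hδ1 hst hcon.le
    rw [hδi] at h1
    have h2 : (1 + Real.log (2 / c2 * w)) *
        (1 + ∑ j ∈ Finset.range N0, max (stiff (2 ^ j) b - 2 / Real.pi) 0) ≤
        w ^ e * (3 * w ^ (κ * e1)) := by
      have h3 : 1 ≤ w ^ (κ * e1) := Real.one_le_rpow n1 (by positivity)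
      have h4 : 0 ≤ ∑ j ∈ Finset.range N0, max (stiff (2 ^ j) b - 2 / Real.pi) 0 :=
        Finset.sum_nonneg fun j _ => le_max_right _ _
      refine mul_le_mul n3 (by linarith only [hTs, h3]) (by linarith only [h4])
        (Real.rpow_nonneg hwp.le _)
    have h3 : C * (2 / c2 * w) * (1 + Real.log (2 / c2 * w)) *
        (1 + ∑ j ∈ Finset.range N0, max (stiff (2 ^ j) b - 2 / Real.pi) 0) ≤
        C * (2 / c2) * 3 * w ^ μ := by
      have h4 := mul_le_mul_of_nonneg_left h2 (show 0 ≤ C * (2 / c2 * w) by positivity)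
      have e2 : w * (w ^ e * w ^ (κ * e1)) = w ^ (1 / s + e * e1 + e) := by
        rw [← hκe, show 1 + κ * e1 + e = 1 + (e + κ * e1) by ring, Real.rpow_add hwp,
          Real.rpow_add hwp, Real.rpow_one]
      have e3 : w ^ (1 / s + e * e1 + e) ≤ w ^ μ := by
        apply Real.rpow_le_rpow_of_exponent_le n1
        rw [hμ]
        nlinarith only [he0, he11]
      have h5 : C * (2 / c2 * w) * (w ^ e * (3 * w ^ (κ * e1))) =
          C * (2 / c2) * 3 * (w * (w ^ e * w ^ (κ * e1))) := by ring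
      rw [h5, e2] at h4
      have h6 := mul_le_mul_of_nonneg_left e3 (show 0 ≤ C * (2 / c2) * 3 by positivity)
      refine le_trans (le_of_eq (by ring)) (h4.trans h6)
    have h4 : w ^ κ ≤ w ^ μ :=
      Real.rpow_le_rpow_of_exponent_le n1 (by rw [hκ, hμ]; linarith only [he0])
    have h5 : A * w ^ μ = 4 * w ^ μ + C * (2 / c2) * 3 * w ^ μ := by
      rw [hA]; ring
    linarith only [h1, h3, h4, h5, hNa, hN0c]
  -- the correlation length
  have hxi := htop b hb hb2 (2 ^ N) Nat.one_le_two_pow hst2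
  have hlogL : Real.log ((2 ^ N : ℕ) : ℝ) ≤ N := by
    rw [Nat.cast_pow, Real.log_pow]
    push_cast
    have h2 := Real.log_two_lt_d9
    have h3 := Nat.cast_nonneg (α := ℝ) N
    nlinarith only [h2, h3]
  have hμ0 : 0 ≤ μ := by rw [hμ]; positivity
  have hw14 : 1 ≤ w ^ μ := Real.one_le_rpow n1 hμ0
  have hfin : Real.log (corrLength b) ≤ (2 * (A + 1) + K) * w ^ μ := by
    have h1 := mul_le_mul_of_nonneg_left hw14 hK0
    linarith only [hxi, hlogL, hNb, hw14, hKK, h1]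
  have hfin2 : (2 * (A + 1) + K) * w ^ μ ≤ w ^ (1 / (1 - e1) + ε) := by
    have e2 : w ^ (1 / (1 - e1) + ε) = w ^ e * w ^ μ := by
      rw [← Real.rpow_add hwp]; congr 1; rw [hμ, he, hs]; ring
    rw [e2]
    exact mul_le_mul_of_nonneg_right n5 (by linarith only [hw14])
  rw [← ht, ← hw]
  linarith only [hfin, hfin2]

/-- **the statements with one fixed exponent** -/
theorem up_allG {e : ℝ} (he0 : 0 < e) (he1 : e < 1) (hT : SumAt e) :
    -- the rate of the stiffness at the critical point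
    (∀ ε : ℝ, e < ε → ∀ᶠ L : ℕ in atTop,
      Real.exp (-Real.log L ^ ε) ≤ stiff L bCrit - 2 / Real.pi ∧
        stiff L bCrit - 2 / Real.pi ≤ Real.log L ^ (-1 + ε)) ∧
    -- the vortex ratio at the critical point
    (∀ ε : ℝ, e < ε → ∀ᶠ n : ℕ in atTop,
      Real.exp (-(n : ℝ) ^ ε) ≤ vortexRatio (2 ^ n) bCrit) ∧
    -- the two-point function at the critical point
    (∀ ε : ℝ, e < ε → ∀ᶠ x : ℤ × ℤ in cofinite,
      corrInf bCrit x ≤ ((max |x.1| |x.2| : ℤ) : ℝ) ^ (-(1 / 4 : ℝ)) *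
        Real.exp (Real.log ((max |x.1| |x.2| : ℤ) : ℝ) ^ ε)) ∧
    -- the correlation length and the susceptibility
    (∀ ε : ℝ, 1 / (1 - e) < ε → ∃ η : ℝ, 0 < η ∧ ∀ b : ℝ, bCrit - η < b → b < bCrit →
      Real.log (corrLength b) ≤ (1 / (bCrit - b)) ^ ε ∧
        Real.log (∑' x : ℤ × ℤ, corrInf b x) ≤ (1 / (bCrit - b)) ^ ε) := by
  have hbc0 : 0 < bCrit := Vale.Agent.P159.H170.bCrit_pos
  refine ⟨fun ε hε => (rate_lowG he0 he1 hT hε).and ?_, fun ε hε => vr_lowG he0.le hT hε,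
    fun ε hε => corr_upG he0.le hT hε, ?_⟩
  · have h := rate_upG he0.le he1 hT (ε := ε - e) (by linarith only [hε])
    have e1 : -1 + e + (ε - e) = -1 + ε := by ring
    rw [e1] at h
    exact h
  · intro ε hε
    obtain ⟨a, ha⟩ : ∃ a, a = (ε - 1 / (1 - e)) / 2 := ⟨_, rfl⟩
    have ha0 : 0 < a := by rw [ha]; linarith only [hε]
    obtain ⟨η, hη, h⟩ := xi_upG he0 he1 hT ha0
    obtain ⟨ε1, hε1⟩ : ∃ ε1, ε1 = 1 / (1 - e) + a := ⟨_, rfl⟩
    rw [← hε1] at h
    have hε2 : ε = ε1 + a := by rw [hε1, ha]; ring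
    have hε10 : 0 < ε1 := by
      have : 0 < 1 / (1 - e) := one_div_pos.2 (by linarith only [he1])
      rw [hε1]
      linarith only [this, ha0]
    obtain ⟨w0, hw0⟩ := eventually_atTop.1
      ((rpow_tendsto ha0).eventually_ge_atTop (Real.log 9 + 2))
    obtain ⟨w1, hw1⟩ : ∃ w1, w1 = max (max w0 1) (2 / bCrit) := ⟨_, rfl⟩
    have hw1a : w0 ≤ w1 := by rw [hw1]; exact (le_max_left _ _).trans (le_max_left _ _)
    have hw1b : 1 ≤ w1 := by rw [hw1]; exact (le_max_right _ _).trans (le_max_left _ _)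
    have hw1c : 2 / bCrit ≤ w1 := by rw [hw1]; exact le_max_right _ _
    refine ⟨min η (1 / w1), lt_min hη (by positivity), ?_⟩
    intro b hb1 hb2
    obtain ⟨t, ht⟩ : ∃ t, t = bCrit - b := ⟨_, rfl⟩
    have ht0 : 0 < t := by rw [ht]; linarith only [hb2]
    have ht1 : t < η := by
      have := min_le_left η (1 / w1)
      linarith only [this, ht, hb1]
    have ht2 : t < 1 / w1 := by
      have := min_le_right η (1 / w1)
      linarith only [this, ht, hb1]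
    obtain ⟨w, hw⟩ : ∃ w, w = 1 / t := ⟨_, rfl⟩
    have hww : w1 ≤ w := by
      rw [hw, le_div_iff₀ ht0]
      rw [lt_div_iff₀ (by linarith only [hw1b])] at ht2
      linarith only [ht2, mul_comm t w1]
    have hb : 0 < b := by
      have h1 : 2 / bCrit ≤ w := hw1c.trans hww
      rw [hw, div_le_div_iff₀ hbc0 ht0] at h1
      linarith only [h1, ht, hbc0]
    have h1 := h b (by linarith only [ht, ht1]) hb2
    have h2 := hw0 w (hw1a.trans hww)
    have hw1' : 1 ≤ w := hw1b.trans hww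
    rw [← ht, ← hw] at h1 ⊢
    have h3 : w ^ ε1 ≤ w ^ ε :=
      Real.rpow_le_rpow_of_exponent_le hw1' (by rw [hε2]; linarith only [ha0])
    refine ⟨h1.trans h3, ?_⟩
    have h4 := chi_log hb hb2
    have h5 : 1 ≤ w ^ ε1 := Real.one_le_rpow hw1' hε10.le
    have h6 : max (Real.log (corrLength b)) 0 ≤ w ^ ε1 :=
      max_le h1 (by linarith only [h5])
    have h7 : w ^ ε = w ^ a * w ^ ε1 := by
      rw [← Real.rpow_add (by linarith only [hw1']), hε2]
      congr 1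
      ring
    have h8 : (Real.log 9 + 2) * w ^ ε1 ≤ w ^ ε := by
      rw [h7]
      exact mul_le_mul_of_nonneg_right h2 (by linarith only [h5])
    have h9 : 0 ≤ Real.log 9 := Real.log_nonneg (by norm_num)
    have h10 := mul_le_mul_of_nonneg_left h5 h9
    linarith only [h4, h6, h8, h10]

end Vale.Agent.P159.UJ.H282.Ex
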