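import Vale.Agent.P159.Defs

/-!
The vortex ratio of a wired block.
-/

open MeasureTheory Filter Topology

namespace Vale.Agent.P159

/-- spins `θ` on the inner sites of the block `[0,l]²`, extended by `φ` -/
noncomputable def extW (l : ℕ) (φ : ℤ × ℤ → T) (θ : inner l → T) (v : ℤ × ℤ) : T :=
  if h : v ∈ inner l then θ ⟨v, h⟩ else φ v

/-- partition function of the block `[0,l]²` whose boundary spins are those of `φ` -/
noncomputable def wiredZ (l : ℕ) (b : ℝ) (φ : ℤ × ℤ → T) : ℝ :=
  ∫ θ : inner l → T, Real.exp (horiz l b cosT (extW l φ θ) + vert l b cosT (extW l φ θ))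
    ∂torusHaar (inner l)

/-- the angle of the vector from the centre of the unit square at the middle of the block -/
noncomputable def angleAt (l : ℕ) (v : ℤ × ℤ) : T :=
  ((Complex.arg ⟨(v.1 : ℝ) - (((l / 2 : ℕ) : ℝ) + 1 / 2), (v.2 : ℝ) - (((l / 2 : ℕ) : ℝ) + 1 / 2)⟩ :
    ℝ) : T)

/-- vortex ratio: the partition function with the boundary spins of a vortex divided by the one
with the boundary spins `0` -/
noncomputable def vortexRatio (l : ℕ) (b : ℝ) : ℝ := wiredZ l b (angleAt l) / wiredZ l b 0

end Vale.Agent.P159
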